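import Vale.Agent.P237.Quant.WindowCheck

/-!
The window certificate of the moment excess in dimension 25. The cuts are checked in parts, so
that no kernel computation grows too large.
-/

namespace Vale.Agent.P237.Quant.WindowCert

/-- The shared data in dimension 25. -/
def data25 : Cert where
  m := 24
  s := 361983
  q := 646876
  c := 1079166
  κ := 420490
  I := 61225
  zone₀ := [
    ⟨0, 1048577⟩, ⟨10055, 1048625⟩, ⟨20110, 1048769⟩, ⟨30165, 1049011⟩, ⟨40220, 1049349⟩,
    ⟨50275, 1049784⟩, ⟨60330, 1050316⟩, ⟨70386, 1050947⟩, ⟨80441, 1051676⟩, ⟨90496, 1052504⟩,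
    ⟨100551, 1053431⟩, ⟨110606, 1054459⟩, ⟨120661, 1055589⟩, ⟨130716, 1056820⟩, ⟨140771, 1058155⟩,
    ⟨150826, 1059595⟩, ⟨160881, 1061141⟩, ⟨170936, 1062793⟩, ⟨180992, 1064555⟩, ⟨191047, 1066426⟩,
    ⟨201102, 1068410⟩, ⟨211157, 1070507⟩, ⟨221212, 1072719⟩, ⟨231267, 1075050⟩, ⟨241322, 1077500⟩,
    ⟨251377, 1080072⟩, ⟨261432, 1082769⟩, ⟨271487, 1085594⟩, ⟨281542, 1088548⟩, ⟨291597, 1091636⟩,
    ⟨301652, 1094859⟩, ⟨311708, 1098223⟩, ⟨321763, 1101729⟩, ⟨331818, 1105382⟩, ⟨341873, 1109185⟩,
    ⟨351928, 1113143⟩, ⟨361983, 1117261⟩]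
  zone₁ := [
    ⟨361983, 1117261⟩, ⟨367681, 1119667⟩, ⟨373379, 1122127⟩, ⟨379077, 1124641⟩, ⟨384774, 1127209⟩,
    ⟨390472, 1129835⟩, ⟨396170, 1132518⟩, ⟨401868, 1135260⟩, ⟨407566, 1138062⟩, ⟨413264, 1140924⟩,
    ⟨418962, 1143848⟩, ⟨424659, 1146834⟩, ⟨430357, 1149885⟩, ⟨436055, 1153003⟩, ⟨441753, 1156187⟩,
    ⟨447451, 1159439⟩, ⟨453149, 1162761⟩, ⟨458847, 1166155⟩, ⟨464544, 1169621⟩, ⟨470242, 1173161⟩,
    ⟨475940, 1176778⟩, ⟨481638, 1180473⟩, ⟨487336, 1184248⟩, ⟨493034, 1188104⟩, ⟨498732, 1192043⟩,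
    ⟨504430, 1196068⟩, ⟨510127, 1200179⟩, ⟨515825, 1204381⟩, ⟨521523, 1208674⟩, ⟨527221, 1213062⟩,
    ⟨532919, 1217547⟩, ⟨538617, 1222130⟩, ⟨544315, 1226816⟩, ⟨550012, 1231605⟩, ⟨555710, 1236502⟩,
    ⟨561408, 1241509⟩, ⟨567106, 1246630⟩, ⟨572804, 1251867⟩, ⟨578502, 1257224⟩, ⟨584200, 1262705⟩,
    ⟨589897, 1268311⟩, ⟨595595, 1274050⟩, ⟨601293, 1279924⟩, ⟨606991, 1285936⟩, ⟨612689, 1292092⟩,
    ⟨618387, 1298397⟩, ⟨624085, 1304854⟩, ⟨629782, 1311467⟩, ⟨635480, 1318245⟩, ⟨641178, 1325192⟩,
    ⟨646876, 1332313⟩]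
  zone₂ := [
    ⟨646876, 1332313⟩, ⟨663051, 1353534⟩, ⟨679002, 1376038⟩, ⟨694727, 1399924⟩, ⟨710223, 1425302⟩,
    ⟨725485, 1452290⟩, ⟨740511, 1481027⟩, ⟨755297, 1511668⟩, ⟨769838, 1544385⟩, ⟨784130, 1579374⟩,
    ⟨798170, 1616866⟩, ⟨811952, 1657114⟩, ⟨825471, 1700416⟩, ⟨838723, 1747117⟩, ⟨851701, 1797613⟩,
    ⟨864400, 1852374⟩, ⟨876814, 1911952⟩, ⟨888935, 1976995⟩, ⟨900757, 2048292⟩, ⟨912272, 2126785⟩,
    ⟨923472, 2213633⟩, ⟨934346, 2310240⟩, ⟨944886, 2418396⟩, ⟨955080, 2540340⟩, ⟨964917, 2678974⟩,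
    ⟨974382, 2838063⟩, ⟨983460, 3022667⟩, ⟨992134, 3239724⟩, ⟨1000385, 3499049⟩,
    ⟨1008190, 3814978⟩, ⟨1015520, 4209299⟩, ⟨1022344, 4717398⟩, ⟨1028621, 5400515⟩,
    ⟨1034297, 6375578⟩, ⟨1039302, 7901577⟩, ⟨1043528, 10699132⟩, ⟨1046791, 17978385⟩]

theorem data25_wf : data25.wf = true := by decide +kernel

theorem data25_const : constOkLarge data25 = true := by decide +kernel

/-- A part of the boxes. -/
def part25_0 : Tree :=
  .cut₂ (.cut₁ (.out) (.out)) (.out)

theorem part25_0_ok : part25_0.check data25 0 524288 0 1048576 = true := by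
  decide +kernel

/-- A part of the boxes. -/
def part25_1 : Tree :=
  .cut₁ (.box 1111351 3204163) (.cut₂ (.out) (.cut₁ (.box 1057178 3204163) (.out)))

theorem part25_1_ok : part25_1.check data25 524288 1048576 0 524288 = true := by
  decide +kernel

/-- A part of the boxes. -/
def part25_2 : Tree :=
  .box 1111351 3204163

theorem part25_2_ok : part25_2.check data25 524288 786432 524288 1048576 = true := by
  decide +kernel

/-- A part of the boxes. -/
def part25_3 : Tree :=
  .box 1057178 5184445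

theorem part25_3_ok : part25_3.check data25 786432 917504 524288 786432 = true := by
  decide +kernel

/-- A part of the boxes. -/
def part25_4 : Tree :=
  .cut₂ (.box 1036486 3204163) (.cut₁ (.box 1057178 3204163) (.box 1023698 3204163))

theorem part25_4_ok : part25_4.check data25 917504 983040 524288 655360 = true := by
  decide +kernel

/-- A part of the boxes. -/
def part25_5 : Tree :=
  .cut₂ (.box 1003006 3204163) (.cut₁ (.cut₂ (.box 1023698 3204163) (.cut₁ (.box 1023698 3204163)
  (.box 1023698 1980282))) (.cut₂ (.box 1003006 3204163) (.cut₁ (.box 1010910 1223881) (.box 1010910 756400))))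

theorem part25_5_ok : part25_5.check data25 983040 1048576 524288 655360 = true := by
  decide +kernel

/-- A part of the boxes. -/
def part25_6 : Tree :=
  .cut₂ (.cut₁ (.box 1057178 3204163) (.cut₂ (.box 1023698 3204163) (.box 1028583 1980282)))
  (.cut₁ (.box 1057178 3204163) (.cut₂ (.box 1031602 1223881) (.box 1031602 1223881)))

theorem part25_6_ok : part25_6.check data25 917504 983040 655360 786432 = true := by
  decide +kernel

/-- A part of the boxes. -/
def part25_7 : Tree :=
  .cut₁ (.cut₂ (.cut₁ (.box 1023698 1980282) (.box 1015794 1223881)) (.cut₁ (.box 1023698 1223881)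
  (.box 1023698 756400))) (.cut₂ (.cut₁ (.box 1010910 756400) (.box 1010910 467481)) (.cut₁
  (.box 1015794 467481) (.box 1003006 467481)))

theorem part25_7_ok : part25_7.check data25 983040 1048576 655360 720896 = true := by
  decide +kernel

/-- A part of the boxes. -/
def part25_8 : Tree :=
  .cut₁ (.cut₂ (.cut₁ (.box 1023698 1223881) (.box 1023698 756400)) (.cut₁ (.box 1023698 756400)
  (.box 1015794 756400))) (.box 1013929 288919)

theorem part25_8_ok : part25_8.check data25 983040 1048576 720896 786432 = true := by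
  decide +kernel

/-- A part of the boxes. -/
def part25_9 : Tree :=
  .box 1057178 3204163

theorem part25_9_ok : part25_9.check data25 786432 917504 786432 1048576 = true := by
  decide +kernel

/-- A part of the boxes. -/
def part25_10 : Tree :=
  .cut₁ (.box 1057178 3204163) (.cut₂ (.box 1036486 1223881) (.box 1036486 1045320))

theorem part25_10_ok : part25_10.check data25 917504 983040 786432 851968 = true := by
  decide +kernel

/-- A part of the boxes. -/
def part25_11 : Tree :=
  .box 1057178 3204163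

theorem part25_11_ok : part25_11.check data25 917504 950272 851968 917504 = true := by
  decide +kernel

/-- A part of the boxes. -/
def part25_12 : Tree :=
  .cut₁ (.cut₂ (.box 1057178 3204163) (.cut₁ (.box 1044390 1980282) (.box 1036486 1223881)))
  (.box 1031602 756400)

theorem part25_12_ok : part25_12.check data25 950272 983040 851968 884736 = true := by
  decide +kernel

/-- A part of the boxes. -/
def part25_13 : Tree :=
  .cut₂ (.cut₁ (.box 1044390 756400) (.cut₂ (.cut₁ (.cut₂ (.box 1044390 1223881) (.box 1041371 756400))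
  (.box 1036486 756400)) (.cut₁ (.box 1036486 467481) (.cut₂ (.box 1036486 467481) (.box 1036486 467481)))))
  (.cut₁ (.out) (.box 1044390 467481))

theorem part25_13_ok : part25_13.check data25 950272 966656 884736 917504 = true := by
  decide +kernel

/-- A part of the boxes. -/
def part25_14 : Tree :=
  .cut₁ (.cut₂ (.box 1036486 756400) (.cut₁ (.cut₂ (.box 1036486 756400) (.box 1036486 467481))
  (.box 1031602 756400))) (.box 1031602 756400)

theorem part25_14_ok : part25_14.check data25 966656 983040 884736 901120 = true := by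
  decide +kernel

/-- A part of the boxes. -/
def part25_15 : Tree :=
  .cut₁ (.cut₂ (.cut₁ (.box 1036486 288919) (.box 1036486 288919)) (.box 1036486 0)) (.cut₂
  (.box 1028583 467481) (.box 1023698 0))

theorem part25_15_ok : part25_15.check data25 966656 983040 901120 917504 = true := by
  decide +kernel

/-- A part of the boxes. -/
def part25_16 : Tree :=
  .cut₂ (.cut₁ (.cut₂ (.cut₁ (.box 1023698 756400) (.box 1015794 756400)) (.box 1023698 467481))
  (.box 1015794 0)) (.cut₁ (.cut₂ (.box 1023698 467481) (.box 1023698 288919)) (.box 1003006 0))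

theorem part25_16_ok : part25_16.check data25 983040 1048576 786432 917504 = true := by
  decide +kernel

/-- A part of the boxes. -/
def part25_17 : Tree :=
  .cut₁ (.cut₂ (.cut₁ (.out) (.cut₂ (.cut₁ (.out) (.box 1031602 0)) (.out))) (.out)) (.cut₂
  (.box 1023698 0) (.box 1023698 0))

theorem part25_17_ok : part25_17.check data25 917504 1048576 917504 1048576 = true := by
  decide +kernel

/-- All the cuts in dimension 25. -/
def tree25 : Tree :=
  (Tree.cut₁ part25_0 (Tree.cut₂ part25_1 (Tree.cut₁ part25_2 (Tree.cut₂ (Tree.cut₁ part25_3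
  (Tree.cut₂ (Tree.cut₁ part25_4 part25_5) (Tree.cut₁ part25_6 (Tree.cut₂ part25_7
  part25_8)))) (Tree.cut₁ part25_9 (Tree.cut₂ (Tree.cut₁ (Tree.cut₂ part25_10 (Tree.cut₁
  part25_11 (Tree.cut₂ part25_12 (Tree.cut₁ part25_13 (Tree.cut₂ part25_14 part25_15)))))
  part25_16) part25_17))))))

theorem tree25_ok : tree25.check data25 0 unit 0 unit = true :=
    (check_cut₁ (c := 524288) (by norm_num [unit]) part25_0_ok (check_cut₂ (c := 524288) (by
    norm_num [unit]) part25_1_ok (check_cut₁ (c := 786432) (by norm_num [unit]) part25_2_ok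
    (check_cut₂ (c := 786432) (by norm_num [unit]) (check_cut₁ (c := 917504) (by norm_num
    [unit]) part25_3_ok (check_cut₂ (c := 655360) (by norm_num [unit]) (check_cut₁ (c := 983040)
    (by norm_num [unit]) part25_4_ok part25_5_ok) (check_cut₁ (c := 983040) (by norm_num [unit])
    part25_6_ok (check_cut₂ (c := 720896) (by norm_num [unit]) part25_7_ok part25_8_ok))))
    (check_cut₁ (c := 917504) (by norm_num [unit]) part25_9_ok (check_cut₂ (c := 917504) (by
    norm_num [unit]) (check_cut₁ (c := 983040) (by norm_num [unit]) (check_cut₂ (c := 851968)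
    (by norm_num [unit]) part25_10_ok (check_cut₁ (c := 950272) (by norm_num [unit])
    part25_11_ok (check_cut₂ (c := 884736) (by norm_num [unit]) part25_12_ok (check_cut₁ (c := 966656)
    (by norm_num [unit]) part25_13_ok (check_cut₂ (c := 901120) (by norm_num [unit])
    part25_14_ok part25_15_ok))))) part25_16_ok) part25_17_ok))))))

end Vale.Agent.P237.Quant.WindowCert
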