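import Vale.Agent.P237.Quant.WindowCheck

/-!
The window certificate of the moment excess in dimension 26. The cuts are checked in parts, so
that no kernel computation grows too large.
-/

namespace Vale.Agent.P237.Quant.WindowCert

/-- The shared data in dimension 26. -/
def data26 : Cert where
  m := 25
  s := 355511
  q := 637716
  c := 1077975
  κ := 412805
  I := 61924
  zone₀ := [
    ⟨0, 1048577⟩, ⟨9875, 1048623⟩, ⟨19751, 1048763⟩, ⟨29626, 1048995⟩, ⟨39501, 1049321⟩,
    ⟨49377, 1049741⟩, ⟨59252, 1050255⟩, ⟨69127, 1050863⟩, ⟨79002, 1051565⟩, ⟨88878, 1052364⟩,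
    ⟨98753, 1053258⟩, ⟨108628, 1054249⟩, ⟨118504, 1055338⟩, ⟨128379, 1056525⟩, ⟨138254, 1057811⟩,
    ⟨148130, 1059199⟩, ⟨158005, 1060688⟩, ⟨167880, 1062280⟩, ⟨177756, 1063976⟩, ⟨187631, 1065778⟩,
    ⟨197506, 1067687⟩, ⟨207381, 1069706⟩, ⟨217257, 1071835⟩, ⟨227132, 1074077⟩, ⟨237007, 1076434⟩,
    ⟨246883, 1078907⟩, ⟨256758, 1081500⟩, ⟨266633, 1084214⟩, ⟨276509, 1087053⟩, ⟨286384, 1090018⟩,
    ⟨296259, 1093113⟩, ⟨306134, 1096341⟩, ⟨316010, 1099705⟩, ⟨325885, 1103208⟩, ⟨335760, 1106855⟩,
    ⟨345636, 1110648⟩, ⟨355511, 1114592⟩]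
  zone₁ := [
    ⟨355511, 1114592⟩, ⟨361155, 1116916⟩, ⟨366799, 1119291⟩, ⟨372443, 1121719⟩, ⟨378087, 1124200⟩,
    ⟨383732, 1126735⟩, ⟨389376, 1129326⟩, ⟨395020, 1131972⟩, ⟨400664, 1134676⟩, ⟨406308, 1137438⟩,
    ⟨411952, 1140259⟩, ⟨417596, 1143141⟩, ⟨423240, 1146084⟩, ⟨428884, 1149090⟩, ⟨434528, 1152161⟩,
    ⟨440172, 1155296⟩, ⟨445817, 1158499⟩, ⟨451461, 1161770⟩, ⟨457105, 1165110⟩, ⟨462749, 1168521⟩,
    ⟨468393, 1172004⟩, ⟨474037, 1175562⟩, ⟨479681, 1179195⟩, ⟨485325, 1182906⟩, ⟨490969, 1186697⟩,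
    ⟨496614, 1190569⟩, ⟨502258, 1194523⟩, ⟨507902, 1198563⟩, ⟨513546, 1202689⟩, ⟨519190, 1206905⟩,
    ⟨524834, 1211213⟩, ⟨530478, 1215614⟩, ⟨536122, 1220111⟩, ⟨541766, 1224707⟩, ⟨547410, 1229404⟩,
    ⟨553054, 1234205⟩, ⟨558699, 1239114⟩, ⟨564343, 1244132⟩, ⟨569987, 1249263⟩, ⟨575631, 1254510⟩,
    ⟨581275, 1259876⟩, ⟨586919, 1265365⟩, ⟨592563, 1270980⟩, ⟨598207, 1276726⟩, ⟨603851, 1282605⟩,
    ⟨609496, 1288625⟩, ⟨615140, 1294786⟩, ⟨620784, 1301094⟩, ⟨626428, 1307554⟩, ⟨632072, 1314171⟩,
    ⟨637716, 1320951⟩]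
  zone₂ := [
    ⟨637716, 1320951⟩, ⟨654259, 1341810⟩, ⟨670575, 1363944⟩, ⟨686658, 1387445⟩, ⟨702507, 1412425⟩,
    ⟨718118, 1439001⟩, ⟨733487, 1467310⟩, ⟨748609, 1497500⟩, ⟨763482, 1529748⟩, ⟨778100, 1564245⟩,
    ⟨792460, 1601218⟩, ⟨806556, 1640918⟩, ⟨820384, 1683642⟩, ⟨833937, 1729723⟩, ⟨847211, 1779562⟩,
    ⟨860200, 1833621⟩, ⟨872897, 1892443⟩, ⟨885295, 1956673⟩, ⟨897386, 2027082⟩, ⟨909164, 2104613⟩,
    ⟨920619, 2190401⟩, ⟨931741, 2285841⟩, ⟨942522, 2392710⟩, ⟨952948, 2513200⟩, ⟨963009, 2650193⟩,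
    ⟨972690, 2807420⟩, ⟨981975, 2989872⟩, ⟨990847, 3204418⟩, ⟨999286, 3460749⟩, ⟨1007269, 3773053⟩,
    ⟨1014767, 4162919⟩, ⟨1021746, 4665203⟩, ⟨1028166, 5340564⟩, ⟨1033972, 6304729⟩,
    ⟨1039090, 7813179⟩, ⟨1043413, 10579596⟩, ⟨1046750, 17775575⟩]

theorem data26_wf : data26.wf = true := by decide +kernel

theorem data26_const : constOkLarge data26 = true := by decide +kernel

/-- A part of the boxes. -/
def part26_0 : Tree :=
  .cut₂ (.cut₁ (.out) (.out)) (.out)

theorem part26_0_ok : part26_0.check data26 0 524288 0 1048576 = true := by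
  decide +kernel

/-- A part of the boxes. -/
def part26_1 : Tree :=
  .cut₁ (.box 1111351 3204163) (.cut₂ (.out) (.cut₁ (.box 1057178 3204163) (.out)))

theorem part26_1_ok : part26_1.check data26 524288 1048576 0 524288 = true := by
  decide +kernel

/-- A part of the boxes. -/
def part26_2 : Tree :=
  .box 1111351 3204163

theorem part26_2_ok : part26_2.check data26 524288 786432 524288 1048576 = true := by
  decide +kernel

/-- A part of the boxes. -/
def part26_3 : Tree :=
  .box 1057178 3204163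

theorem part26_3_ok : part26_3.check data26 786432 917504 524288 786432 = true := by
  decide +kernel

/-- A part of the boxes. -/
def part26_4 : Tree :=
  .cut₂ (.box 1036486 3204163) (.box 1034621 7632208)

theorem part26_4_ok : part26_4.check data26 917504 983040 524288 655360 = true := by
  decide +kernel

/-- A part of the boxes. -/
def part26_5 : Tree :=
  .cut₂ (.box 1023698 3204163) (.cut₁ (.cut₂ (.box 1023698 3204163) (.cut₁ (.box 1023698 3204163)
  (.box 1023698 3204163))) (.cut₂ (.box 1003006 3204163) (.cut₁ (.box 1015794 1980282) (.box 1010910 1223881))))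

theorem part26_5_ok : part26_5.check data26 983040 1048576 524288 655360 = true := by
  decide +kernel

/-- A part of the boxes. -/
def part26_6 : Tree :=
  .cut₂ (.cut₁ (.box 1057178 3204163) (.box 1031602 1980282)) (.cut₁ (.box 1057178 3204163)
  (.cut₂ (.box 1031602 1980282) (.box 1036486 1223881)))

theorem part26_6_ok : part26_6.check data26 917504 983040 655360 786432 = true := by
  decide +kernel

/-- A part of the boxes. -/
def part26_7 : Tree :=
  .cut₁ (.cut₂ (.cut₁ (.box 1023698 3204163) (.box 1015794 1223881)) (.cut₁ (.box 1023698 1223881)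
  (.box 1023698 756400))) (.cut₂ (.cut₁ (.box 1015794 756400) (.box 1010910 467481)) (.cut₁
  (.box 1010910 756400) (.box 1010910 467481)))

theorem part26_7_ok : part26_7.check data26 983040 1048576 655360 720896 = true := by
  decide +kernel

/-- A part of the boxes. -/
def part26_8 : Tree :=
  .cut₁ (.cut₂ (.cut₁ (.box 1023698 1223881) (.box 1023698 756400)) (.cut₁ (.box 1023698 756400)
  (.box 1023698 756400))) (.cut₂ (.cut₁ (.box 1015794 467481) (.box 1010910 0)) (.box 1015794 288919))

theorem part26_8_ok : part26_8.check data26 983040 1048576 720896 786432 = true := by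
  decide +kernel

/-- A part of the boxes. -/
def part26_9 : Tree :=
  .box 1057178 3204163

theorem part26_9_ok : part26_9.check data26 786432 917504 786432 1048576 = true := by
  decide +kernel

/-- A part of the boxes. -/
def part26_10 : Tree :=
  .cut₁ (.box 1057178 3204163) (.cut₂ (.box 1036486 1223881) (.box 1036486 1223881))

theorem part26_10_ok : part26_10.check data26 917504 983040 786432 851968 = true := by
  decide +kernel

/-- A part of the boxes. -/
def part26_11 : Tree :=
  .box 1057178 3204163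

theorem part26_11_ok : part26_11.check data26 917504 950272 851968 917504 = true := by
  decide +kernel

/-- A part of the boxes. -/
def part26_12 : Tree :=
  .cut₁ (.box 1044390 1980282) (.box 1036486 1223881)

theorem part26_12_ok : part26_12.check data26 950272 983040 851968 884736 = true := by
  decide +kernel

/-- A part of the boxes. -/
def part26_13 : Tree :=
  .cut₂ (.cut₁ (.box 1057178 3204163) (.cut₂ (.box 1044390 1223881) (.cut₁ (.box 1044390 1223881)
  (.cut₂ (.box 1044390 756400) (.box 1044390 467481))))) (.cut₁ (.out) (.box 1044390 467481))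

theorem part26_13_ok : part26_13.check data26 950272 966656 884736 917504 = true := by
  decide +kernel

/-- A part of the boxes. -/
def part26_14 : Tree :=
  .cut₁ (.cut₂ (.box 1036486 1223881) (.cut₁ (.box 1037199 619991) (.box 1036486 756400)))
  (.box 1036486 756400)

theorem part26_14_ok : part26_14.check data26 966656 983040 884736 901120 = true := by
  decide +kernel

/-- A part of the boxes. -/
def part26_15 : Tree :=
  .cut₁ (.cut₂ (.cut₁ (.cut₂ (.box 1036486 467481) (.box 1036486 0)) (.cut₂ (.box 1036486 467481)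
  (.box 1036486 467481))) (.box 1036486 178562)) (.cut₂ (.box 1031602 467481) (.box 1031602 288919))

theorem part26_15_ok : part26_15.check data26 966656 983040 901120 917504 = true := by
  decide +kernel

/-- A part of the boxes. -/
def part26_16 : Tree :=
  .cut₂ (.cut₁ (.cut₂ (.cut₁ (.box 1023698 756400) (.box 1015794 756400)) (.cut₁ (.box 1023698 756400)
  (.box 1023698 467481))) (.box 1010910 288919)) (.cut₁ (.cut₂ (.box 1023698 467481) (.box 1023698 288919))
  (.box 1023698 0))

theorem part26_16_ok : part26_16.check data26 983040 1048576 786432 917504 = true := by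
  decide +kernel

/-- A part of the boxes. -/
def part26_17 : Tree :=
  .cut₁ (.cut₂ (.cut₁ (.out) (.cut₂ (.cut₁ (.out) (.cut₂ (.cut₁ (.out) (.box 1036486 0))
  (.out))) (.out))) (.out)) (.cut₂ (.box 1023698 0) (.box 1023698 0))

theorem part26_17_ok : part26_17.check data26 917504 1048576 917504 1048576 = true := by
  decide +kernel

/-- All the cuts in dimension 26. -/
def tree26 : Tree :=
  (Tree.cut₁ part26_0 (Tree.cut₂ part26_1 (Tree.cut₁ part26_2 (Tree.cut₂ (Tree.cut₁ part26_3
  (Tree.cut₂ (Tree.cut₁ part26_4 part26_5) (Tree.cut₁ part26_6 (Tree.cut₂ part26_7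
  part26_8)))) (Tree.cut₁ part26_9 (Tree.cut₂ (Tree.cut₁ (Tree.cut₂ part26_10 (Tree.cut₁
  part26_11 (Tree.cut₂ part26_12 (Tree.cut₁ part26_13 (Tree.cut₂ part26_14 part26_15)))))
  part26_16) part26_17))))))

theorem tree26_ok : tree26.check data26 0 unit 0 unit = true :=
    (check_cut₁ (c := 524288) (by norm_num [unit]) part26_0_ok (check_cut₂ (c := 524288) (by
    norm_num [unit]) part26_1_ok (check_cut₁ (c := 786432) (by norm_num [unit]) part26_2_ok
    (check_cut₂ (c := 786432) (by norm_num [unit]) (check_cut₁ (c := 917504) (by norm_num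
    [unit]) part26_3_ok (check_cut₂ (c := 655360) (by norm_num [unit]) (check_cut₁ (c := 983040)
    (by norm_num [unit]) part26_4_ok part26_5_ok) (check_cut₁ (c := 983040) (by norm_num [unit])
    part26_6_ok (check_cut₂ (c := 720896) (by norm_num [unit]) part26_7_ok part26_8_ok))))
    (check_cut₁ (c := 917504) (by norm_num [unit]) part26_9_ok (check_cut₂ (c := 917504) (by
    norm_num [unit]) (check_cut₁ (c := 983040) (by norm_num [unit]) (check_cut₂ (c := 851968)
    (by norm_num [unit]) part26_10_ok (check_cut₁ (c := 950272) (by norm_num [unit])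
    part26_11_ok (check_cut₂ (c := 884736) (by norm_num [unit]) part26_12_ok (check_cut₁ (c := 966656)
    (by norm_num [unit]) part26_13_ok (check_cut₂ (c := 901120) (by norm_num [unit])
    part26_14_ok part26_15_ok))))) part26_16_ok) part26_17_ok))))))

end Vale.Agent.P237.Quant.WindowCert
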