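import Vale.Agent.P237.Quant.WindowCheck

/-!
The window certificate of the moment excess in dimension 27. The cuts are checked in parts, so
that no kernel computation grows too large.
-/

namespace Vale.Agent.P237.Quant.WindowCert

/-- The shared data in dimension 27. -/
def data27 : Cert where
  m := 26
  s := 349373
  q := 628926
  c := 1076873
  κ := 405524
  I := 62582
  zone₀ := [
    ⟨0, 1048577⟩, ⟨9705, 1048621⟩, ⟨19410, 1048756⟩, ⟨29114, 1048981⟩, ⟨38819, 1049296⟩,
    ⟨48524, 1049701⟩, ⟨58229, 1050197⟩, ⟨67934, 1050784⟩, ⟨77638, 1051463⟩, ⟨87343, 1052233⟩,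
    ⟨97048, 1053097⟩, ⟨106753, 1054053⟩, ⟨116458, 1055104⟩, ⟨126162, 1056250⟩, ⟨135867, 1057491⟩,
    ⟨145572, 1058830⟩, ⟨155277, 1060266⟩, ⟨164982, 1061802⟩, ⟨174686, 1063437⟩, ⟨184391, 1065175⟩,
    ⟨194096, 1067016⟩, ⟨203801, 1068961⟩, ⟨213506, 1071013⟩, ⟨223211, 1073173⟩, ⟨232915, 1075443⟩,
    ⟨242620, 1077825⟩, ⟨252325, 1080321⟩, ⟨262030, 1082934⟩, ⟨271735, 1085665⟩, ⟨281439, 1088517⟩,
    ⟨291144, 1091494⟩, ⟨300849, 1094597⟩, ⟨310554, 1097829⟩, ⟨320259, 1101195⟩, ⟨329963, 1104696⟩,
    ⟨339668, 1108338⟩, ⟨349373, 1112123⟩]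
  zone₁ := [
    ⟨349373, 1112123⟩, ⟨354964, 1114370⟩, ⟨360555, 1116667⟩, ⟨366146, 1119014⟩, ⟨371737, 1121412⟩,
    ⟨377328, 1123863⟩, ⟨382919, 1126367⟩, ⟨388510, 1128925⟩, ⟨394101, 1131537⟩, ⟨399693, 1134207⟩,
    ⟨405284, 1136932⟩, ⟨410875, 1139716⟩, ⟨416466, 1142559⟩, ⟨422057, 1145462⟩, ⟨427648, 1148427⟩,
    ⟨433239, 1151454⟩, ⟨438830, 1154545⟩, ⟨444421, 1157701⟩, ⟨450012, 1160923⟩, ⟨455603, 1164214⟩,
    ⟨461194, 1167574⟩, ⟨466785, 1171004⟩, ⟨472376, 1174507⟩, ⟨477967, 1178084⟩, ⟨483558, 1181736⟩,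
    ⟨489150, 1185466⟩, ⟨494741, 1189275⟩, ⟨500332, 1193164⟩, ⟨505923, 1197137⟩, ⟨511514, 1201193⟩,
    ⟨517105, 1205337⟩, ⟨522696, 1209570⟩, ⟨528287, 1213894⟩, ⟨533878, 1218311⟩, ⟨539469, 1222824⟩,
    ⟨545060, 1227436⟩, ⟨550651, 1232148⟩, ⟨556242, 1236964⟩, ⟨561833, 1241887⟩, ⟨567424, 1246919⟩,
    ⟨573015, 1252063⟩, ⟨578606, 1257323⟩, ⟨584198, 1262703⟩, ⟨589789, 1268204⟩, ⟨595380, 1273831⟩,
    ⟨600971, 1279588⟩, ⟨606562, 1285479⟩, ⟨612153, 1291507⟩, ⟨617744, 1297678⟩, ⟨623335, 1303995⟩,
    ⟨628926, 1310463⟩]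
  zone₂ := [
    ⟨628926, 1310463⟩, ⟨645823, 1330984⟩, ⟨662488, 1352769⟩, ⟨678916, 1375912⟩, ⟨695104, 1400519⟩,
    ⟨711048, 1426708⟩, ⟨726746, 1454615⟩, ⟨742192, 1484387⟩, ⟨757383, 1516197⟩, ⟨772314, 1550235⟩,
    ⟨786980, 1586721⟩, ⟨801378, 1625912⟩, ⟨815502, 1668096⟩, ⟨829345, 1713603⟩, ⟨842903, 1762830⟩,
    ⟨856170, 1816235⟩, ⟨869138, 1874351⟩, ⟨881802, 1937825⟩, ⟨894152, 2007412⟩, ⟨906181, 2084041⟩,
    ⟨917881, 2168843⟩, ⟨929242, 2263209⟩, ⟨940253, 2368868⟩, ⟨950903, 2488022⟩, ⟨961178, 2623480⟩,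
    ⟨971066, 2778970⟩, ⟨980550, 2959429⟩, ⟨989612, 3171643⟩, ⟨998232, 3425212⟩, ⟨1006385, 3734119⟩,
    ⟨1014043, 4119772⟩, ⟨1021172, 4616727⟩, ⟨1027729, 5284848⟩, ⟨1033659, 6238702⟩,
    ⟨1038887, 7731273⟩, ⟨1043302, 10467949⟩, ⟨1046711, 17588899⟩]

theorem data27_wf : data27.wf = true := by decide +kernel

theorem data27_const : constOkLarge data27 = true := by decide +kernel

/-- A part of the boxes. -/
def part27_0 : Tree :=
  .cut₂ (.cut₁ (.out) (.out)) (.out)

theorem part27_0_ok : part27_0.check data27 0 524288 0 1048576 = true := by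
  decide +kernel

/-- A part of the boxes. -/
def part27_1 : Tree :=
  .cut₁ (.box 1144831 5184445) (.cut₂ (.out) (.cut₁ (.box 1057178 3204163) (.out)))

theorem part27_1_ok : part27_1.check data27 524288 1048576 0 524288 = true := by
  decide +kernel

/-- A part of the boxes. -/
def part27_2 : Tree :=
  .box 1144831 5184445

theorem part27_2_ok : part27_2.check data27 524288 786432 524288 1048576 = true := by
  decide +kernel

/-- A part of the boxes. -/
def part27_3 : Tree :=
  .box 1057178 3204163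

theorem part27_3_ok : part27_3.check data27 786432 917504 524288 786432 = true := by
  decide +kernel

/-- A part of the boxes. -/
def part27_4 : Tree :=
  .cut₁ (.box 1036486 6408326) (.cut₂ (.out) (.cut₁ (.cut₂ (.box 1023698 3204163) (.cut₁ (.box 1023698 3204163)
  (.box 1023698 3204163))) (.cut₂ (.box 1003006 3204163) (.cut₁ (.box 1015794 3204163) (.box 1010910 1980282)))))

theorem part27_4_ok : part27_4.check data27 917504 1048576 524288 655360 = true := by
  decide +kernel

/-- A part of the boxes. -/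
def part27_5 : Tree :=
  .cut₂ (.cut₁ (.box 1057178 3204163) (.box 1036486 3204163)) (.cut₁ (.box 1057178 3204163)
  (.cut₂ (.box 1036486 3204163) (.box 1036486 1980282)))

theorem part27_5_ok : part27_5.check data27 917504 983040 655360 786432 = true := by
  decide +kernel

/-- A part of the boxes. -/
def part27_6 : Tree :=
  .cut₁ (.cut₂ (.cut₁ (.box 1023698 3204163) (.box 1023698 1223881)) (.cut₁ (.box 1023698 1223881)
  (.box 1023698 756400))) (.cut₂ (.cut₁ (.box 1015794 756400) (.box 1010910 467481)) (.cut₁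
  (.box 1015794 756400) (.box 1010910 467481)))

theorem part27_6_ok : part27_6.check data27 983040 1048576 655360 720896 = true := by
  decide +kernel

/-- A part of the boxes. -/
def part27_7 : Tree :=
  .cut₁ (.cut₂ (.cut₁ (.box 1023698 1223881) (.box 1023698 756400)) (.cut₁ (.box 1023698 1223881)
  (.box 1023698 756400))) (.cut₂ (.cut₁ (.box 1015794 467481) (.box 1010910 467481)) (.box 1015794 288919))

theorem part27_7_ok : part27_7.check data27 983040 1048576 720896 786432 = true := by
  decide +kernel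

/-- A part of the boxes. -/
def part27_8 : Tree :=
  .box 1057178 3204163

theorem part27_8_ok : part27_8.check data27 786432 917504 786432 1048576 = true := by
  decide +kernel

/-- A part of the boxes. -/
def part27_9 : Tree :=
  .cut₁ (.box 1057178 3204163) (.cut₂ (.box 1036486 1980282) (.box 1036486 1223881))

theorem part27_9_ok : part27_9.check data27 917504 983040 786432 851968 = true := by
  decide +kernel

/-- A part of the boxes. -/
def part27_10 : Tree :=
  .box 1057178 3204163

theorem part27_10_ok : part27_10.check data27 917504 950272 851968 917504 = true := by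
  decide +kernel

/-- A part of the boxes. -/
def part27_11 : Tree :=
  .cut₁ (.box 1057178 3204163) (.box 1036486 1223881)

theorem part27_11_ok : part27_11.check data27 950272 983040 851968 884736 = true := by
  decide +kernel

/-- A part of the boxes. -/
def part27_12 : Tree :=
  .cut₂ (.cut₁ (.box 1057178 3204163) (.cut₂ (.box 1044390 3204163) (.cut₁ (.box 1057178 3204163)
  (.cut₂ (.box 1044390 1980282) (.box 1044390 756400))))) (.out)

theorem part27_12_ok : part27_12.check data27 950272 966656 884736 917504 = true := by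
  decide +kernel

/-- A part of the boxes. -/
def part27_13 : Tree :=
  .cut₁ (.cut₂ (.box 1044390 1980282) (.box 1037640 756400)) (.box 1036486 756400)

theorem part27_13_ok : part27_13.check data27 966656 983040 884736 901120 = true := by
  decide +kernel

/-- A part of the boxes. -/
def part27_14 : Tree :=
  .cut₁ (.cut₂ (.cut₁ (.cut₂ (.box 1039505 467481) (.box 1036486 467481)) (.cut₂ (.box 1036486 756400)
  (.box 1036486 467481))) (.cut₁ (.out) (.box 1036486 288919))) (.cut₂ (.box 1034621 756400)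
  (.cut₁ (.box 1036486 288919) (.box 1036486 467481)))

theorem part27_14_ok : part27_14.check data27 966656 983040 901120 917504 = true := by
  decide +kernel

/-- A part of the boxes. -/
def part27_15 : Tree :=
  .cut₁ (.cut₂ (.cut₁ (.box 1023698 756400) (.box 1023698 756400)) (.cut₁ (.box 1023698 756400)
  (.box 1020679 756400))) (.box 1015794 288919)

theorem part27_15_ok : part27_15.check data27 983040 1048576 786432 851968 = true := by
  decide +kernel

/-- A part of the boxes. -/
def part27_16 : Tree :=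
  .cut₁ (.cut₂ (.box 1026717 467481) (.cut₁ (.box 1028583 467481) (.box 1023698 0))) (.box 1023698 0)

theorem part27_16_ok : part27_16.check data27 983040 1048576 851968 917504 = true := by
  decide +kernel

/-- A part of the boxes. -/
def part27_17 : Tree :=
  .cut₁ (.cut₂ (.cut₁ (.out) (.cut₂ (.cut₁ (.out) (.cut₂ (.cut₁ (.out) (.box 1033468 0))
  (.out))) (.out))) (.out)) (.cut₂ (.cut₁ (.cut₂ (.box 1023698 0) (.box 1023698 0)) (.box 1003006 0))
  (.box 1023698 0))

theorem part27_17_ok : part27_17.check data27 917504 1048576 917504 1048576 = true := by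
  decide +kernel

/-- All the cuts in dimension 27. -/
def tree27 : Tree :=
  (Tree.cut₁ part27_0 (Tree.cut₂ part27_1 (Tree.cut₁ part27_2 (Tree.cut₂ (Tree.cut₁ part27_3
  (Tree.cut₂ part27_4 (Tree.cut₁ part27_5 (Tree.cut₂ part27_6 part27_7)))) (Tree.cut₁ part27_8
  (Tree.cut₂ (Tree.cut₁ (Tree.cut₂ part27_9 (Tree.cut₁ part27_10 (Tree.cut₂ part27_11
  (Tree.cut₁ part27_12 (Tree.cut₂ part27_13 part27_14))))) (Tree.cut₂ part27_15 part27_16))
  part27_17))))))

theorem tree27_ok : tree27.check data27 0 unit 0 unit = true :=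
    (check_cut₁ (c := 524288) (by norm_num [unit]) part27_0_ok (check_cut₂ (c := 524288) (by
    norm_num [unit]) part27_1_ok (check_cut₁ (c := 786432) (by norm_num [unit]) part27_2_ok
    (check_cut₂ (c := 786432) (by norm_num [unit]) (check_cut₁ (c := 917504) (by norm_num
    [unit]) part27_3_ok (check_cut₂ (c := 655360) (by norm_num [unit]) part27_4_ok (check_cut₁
    (c := 983040) (by norm_num [unit]) part27_5_ok (check_cut₂ (c := 720896) (by norm_num
    [unit]) part27_6_ok part27_7_ok)))) (check_cut₁ (c := 917504) (by norm_num [unit])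
    part27_8_ok (check_cut₂ (c := 917504) (by norm_num [unit]) (check_cut₁ (c := 983040) (by
    norm_num [unit]) (check_cut₂ (c := 851968) (by norm_num [unit]) part27_9_ok (check_cut₁ (c
    := 950272) (by norm_num [unit]) part27_10_ok (check_cut₂ (c := 884736) (by norm_num [unit])
    part27_11_ok (check_cut₁ (c := 966656) (by norm_num [unit]) part27_12_ok (check_cut₂ (c := 901120)
    (by norm_num [unit]) part27_13_ok part27_14_ok))))) (check_cut₂ (c := 851968) (by norm_num
    [unit]) part27_15_ok part27_16_ok)) part27_17_ok))))))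

end Vale.Agent.P237.Quant.WindowCert
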