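import Vale.Agent.P237.Quant.WindowCheck

/-!
The window certificate of the moment excess in dimension 28. The cuts are checked in parts, so
that no kernel computation grows too large.
-/

namespace Vale.Agent.P237.Quant.WindowCert

/-- The shared data in dimension 28. -/
def data28 : Cert where
  m := 27
  s := 343542
  q := 620482
  c := 1075851
  κ := 398616
  I := 63200
  zone₀ := [
    ⟨0, 1048577⟩, ⟨9543, 1048620⟩, ⟨19086, 1048750⟩, ⟨28628, 1048968⟩, ⟨38171, 1049272⟩,
    ⟨47714, 1049664⟩, ⟨57257, 1050143⟩, ⟨66800, 1050711⟩, ⟨76343, 1051367⟩, ⟨85886, 1052112⟩,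
    ⟨95428, 1052946⟩, ⟨104971, 1053871⟩, ⟨114514, 1054886⟩, ⟨124057, 1055993⟩, ⟨133600, 1057193⟩,
    ⟨143142, 1058485⟩, ⟨152685, 1059873⟩, ⟨162228, 1061356⟩, ⟨171771, 1062935⟩, ⟨181314, 1064613⟩,
    ⟨190857, 1066390⟩, ⟨200400, 1068267⟩, ⟨209942, 1070247⟩, ⟨219485, 1072331⟩, ⟨229028, 1074520⟩,
    ⟨238571, 1076817⟩, ⟨248114, 1079224⟩, ⟨257656, 1081742⟩, ⟨267199, 1084374⟩, ⟨276742, 1087121⟩,
    ⟨286285, 1089988⟩, ⟨295828, 1092975⟩, ⟨305371, 1096087⟩, ⟨314914, 1099325⟩, ⟨324456, 1102693⟩,
    ⟨333999, 1106194⟩, ⟨343542, 1109831⟩]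
  zone₁ := [
    ⟨343542, 1109831⟩, ⟨349081, 1112007⟩, ⟨354620, 1114230⟩, ⟨360158, 1116502⟩, ⟨365697, 1118823⟩,
    ⟨371236, 1121195⟩, ⟨376775, 1123618⟩, ⟨382314, 1126093⟩, ⟨387852, 1128621⟩, ⟨393391, 1131203⟩,
    ⟨398930, 1133839⟩, ⟨404469, 1136531⟩, ⟨410008, 1139281⟩, ⟨415546, 1142087⟩, ⟨421085, 1144953⟩,
    ⟨426624, 1147879⟩, ⟨432163, 1150866⟩, ⟨437702, 1153916⟩, ⟨443240, 1157029⟩, ⟨448779, 1160207⟩,
    ⟨454318, 1163452⟩, ⟨459857, 1166764⟩, ⟨465396, 1170145⟩, ⟨470934, 1173597⟩, ⟨476473, 1177121⟩,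
    ⟨482012, 1180719⟩, ⟨487551, 1184392⟩, ⟨493090, 1188142⟩, ⟨498628, 1191970⟩, ⟨504167, 1195880⟩,
    ⟨509706, 1199872⟩, ⟨515245, 1203949⟩, ⟨520784, 1208112⟩, ⟨526322, 1212364⟩, ⟨531861, 1216707⟩,
    ⟨537400, 1221143⟩, ⟨542939, 1225675⟩, ⟨548478, 1230305⟩, ⟨554016, 1235034⟩, ⟨559555, 1239868⟩,
    ⟨565094, 1244808⟩, ⟨570633, 1249857⟩, ⟨576172, 1255019⟩, ⟨581710, 1260294⟩, ⟨587249, 1265689⟩,
    ⟨592788, 1271206⟩, ⟨598327, 1276849⟩, ⟨603866, 1282621⟩, ⟨609404, 1288526⟩, ⟨614943, 1294568⟩,
    ⟨620482, 1300753⟩]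
  zone₂ := [
    ⟨620482, 1300753⟩, ⟨637719, 1320955⟩, ⟨654719, 1342412⟩, ⟨671477, 1365216⟩, ⟨687991, 1389474⟩,
    ⟨704257, 1415302⟩, ⟨720270, 1442831⟩, ⟨736027, 1472211⟩, ⟨751523, 1503609⟩, ⟨766755, 1537218⟩,
    ⟨781717, 1573254⟩, ⟨796404, 1611965⟩, ⟨810812, 1653644⟩, ⟨824934, 1698616⟩, ⟨838765, 1747272⟩,
    ⟨852298, 1800062⟩, ⟨865528, 1857525⟩, ⟨878446, 1920287⟩, ⟨891045, 1989109⟩, ⟨903316, 2064900⟩,
    ⟨915252, 2148790⟩, ⟨926841, 2242140⟩, ⟨938073, 2346672⟩, ⟨948937, 2464566⟩, ⟨959420, 2598623⟩,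
    ⟨969507, 2752500⟩, ⟨979181, 2931081⟩, ⟨988426, 3141133⟩, ⟨997219, 3392103⟩, ⟨1005536, 3697870⟩,
    ⟨1013348, 4079619⟩, ⟨1020621, 4571610⟩, ⟨1027310, 5233054⟩, ⟨1033359, 6177344⟩,
    ⟨1038692, 7654986⟩, ⟨1043196, 10364576⟩, ⟨1046674, 17417133⟩]

theorem data28_wf : data28.wf = true := by decide +kernel

theorem data28_const : constOkLarge data28 = true := by decide +kernel

/-- A part of the boxes. -/
def part28_0 : Tree :=
  .cut₂ (.cut₁ (.out) (.out)) (.out)

theorem part28_0_ok : part28_0.check data28 0 524288 0 1048576 = true := by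
  decide +kernel

/-- A part of the boxes. -/
def part28_1 : Tree :=
  .cut₁ (.box 1144831 5184445) (.cut₂ (.out) (.cut₁ (.box 1057178 3204163) (.out)))

theorem part28_1_ok : part28_1.check data28 524288 1048576 0 524288 = true := by
  decide +kernel

/-- A part of the boxes. -/
def part28_2 : Tree :=
  .box 1144831 5184445

theorem part28_2_ok : part28_2.check data28 524288 786432 524288 1048576 = true := by
  decide +kernel

/-- A part of the boxes. -/
def part28_3 : Tree :=
  .box 1057178 5184445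

theorem part28_3_ok : part28_3.check data28 786432 917504 524288 786432 = true := by
  decide +kernel

/-- A part of the boxes. -/
def part28_4 : Tree :=
  .cut₁ (.box 1036486 5184445) (.cut₂ (.out) (.cut₁ (.box 1023698 3204163) (.cut₂ (.box 1003006 3204163)
  (.cut₁ (.box 1023698 3204163) (.box 1003006 3204163)))))

theorem part28_4_ok : part28_4.check data28 917504 1048576 524288 655360 = true := by
  decide +kernel

/-- A part of the boxes. -/
def part28_5 : Tree :=
  .cut₂ (.cut₁ (.box 1057178 3204163) (.box 1036486 3204163)) (.cut₁ (.box 1057178 3204163)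
  (.box 1034621 1691363))

theorem part28_5_ok : part28_5.check data28 917504 983040 655360 786432 = true := by
  decide +kernel

/-- A part of the boxes. -/
def part28_6 : Tree :=
  .cut₁ (.cut₂ (.cut₁ (.box 1023698 3204163) (.box 1023698 1223881)) (.cut₁ (.box 1023698 1980282)
  (.box 1023698 756400))) (.cut₂ (.cut₁ (.box 1015794 756400) (.box 1015794 467481)) (.cut₁
  (.box 1015794 756400) (.box 1010910 467481)))

theorem part28_6_ok : part28_6.check data28 983040 1048576 655360 720896 = true := by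
  decide +kernel

/-- A part of the boxes. -/
def part28_7 : Tree :=
  .cut₁ (.cut₂ (.cut₁ (.box 1023698 1223881) (.box 1023698 756400)) (.cut₁ (.box 1023698 1223881)
  (.box 1023698 756400))) (.cut₂ (.cut₁ (.box 1020679 467481) (.box 1010910 467481)) (.cut₁
  (.box 1023698 467481) (.box 1015794 0)))

theorem part28_7_ok : part28_7.check data28 983040 1048576 720896 786432 = true := by
  decide +kernel

/-- A part of the boxes. -/
def part28_8 : Tree :=
  .box 1057178 3204163

theorem part28_8_ok : part28_8.check data28 786432 917504 786432 1048576 = true := by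
  decide +kernel

/-- A part of the boxes. -/
def part28_9 : Tree :=
  .cut₁ (.box 1057178 3204163) (.cut₂ (.box 1036486 1980282) (.box 1036486 1980282))

theorem part28_9_ok : part28_9.check data28 917504 983040 786432 851968 = true := by
  decide +kernel

/-- A part of the boxes. -/
def part28_10 : Tree :=
  .box 1057178 3204163

theorem part28_10_ok : part28_10.check data28 917504 950272 851968 917504 = true := by
  decide +kernel

/-- A part of the boxes. -/
def part28_11 : Tree :=
  .cut₁ (.box 1057178 3204163) (.box 1036486 1980282)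

theorem part28_11_ok : part28_11.check data28 950272 983040 851968 884736 = true := by
  decide +kernel

/-- A part of the boxes. -/
def part28_12 : Tree :=
  .cut₂ (.cut₁ (.box 1057178 3204163) (.box 1049275 1980282)) (.out)

theorem part28_12_ok : part28_12.check data28 950272 966656 884736 917504 = true := by
  decide +kernel

/-- A part of the boxes. -/
def part28_13 : Tree :=
  .box 1038352 866758

theorem part28_13_ok : part28_13.check data28 966656 983040 884736 901120 = true := by
  decide +kernel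

/-- A part of the boxes. -/
def part28_14 : Tree :=
  .cut₂ (.cut₁ (.cut₂ (.box 1044390 756400) (.box 1044390 756400)) (.cut₂ (.box 1044390 1223881)
  (.box 1039505 756400))) (.cut₁ (.out) (.box 1039505 399277))

theorem part28_14_ok : part28_14.check data28 966656 974848 901120 917504 = true := by
  decide +kernel

/-- A part of the boxes. -/
def part28_15 : Tree :=
  .cut₂ (.box 1036486 756400) (.cut₁ (.cut₂ (.box 1036486 467481) (.box 1036486 467481)) (.box 1036486 467481))

theorem part28_15_ok : part28_15.check data28 974848 983040 901120 917504 = true := by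
  decide +kernel

/-- A part of the boxes. -/
def part28_16 : Tree :=
  .cut₁ (.cut₂ (.cut₁ (.box 1026717 1223881) (.box 1023698 756400)) (.cut₁ (.box 1028583 756400)
  (.box 1023698 756400))) (.box 1018813 178562)

theorem part28_16_ok : part28_16.check data28 983040 1048576 786432 851968 = true := by
  decide +kernel

/-- A part of the boxes. -/
def part28_17 : Tree :=
  .cut₁ (.cut₂ (.cut₁ (.box 1023698 756400) (.box 1023698 467481)) (.cut₁ (.box 1028583 467481)
  (.box 1023698 0))) (.box 1023698 0)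

theorem part28_17_ok : part28_17.check data28 983040 1048576 851968 917504 = true := by
  decide +kernel

/-- A part of the boxes. -/
def part28_18 : Tree :=
  .cut₂ (.cut₁ (.out) (.cut₂ (.cut₁ (.out) (.cut₂ (.cut₁ (.out) (.cut₂ (.cut₁ (.box 1036486 0)
  (.box 1036486 0)) (.box 1036486 0))) (.out))) (.out))) (.out)

theorem part28_18_ok : part28_18.check data28 917504 983040 917504 1048576 = true := by
  decide +kernel

/-- A part of the boxes. -/
def part28_19 : Tree :=
  .cut₂ (.cut₁ (.cut₂ (.cut₁ (.cut₂ (.cut₁ (.box 1028583 178562) (.box 1023698 0)) (.box 1023698 0))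
  (.box 1023698 0)) (.box 1023698 0)) (.box 1023698 0)) (.cut₁ (.box 1023698 0) (.box 1003006 0))

theorem part28_19_ok : part28_19.check data28 983040 1048576 917504 1048576 = true := by
  decide +kernel

/-- All the cuts in dimension 28. -/
def tree28 : Tree :=
  (Tree.cut₁ part28_0 (Tree.cut₂ part28_1 (Tree.cut₁ part28_2 (Tree.cut₂ (Tree.cut₁ part28_3
  (Tree.cut₂ part28_4 (Tree.cut₁ part28_5 (Tree.cut₂ part28_6 part28_7)))) (Tree.cut₁ part28_8
  (Tree.cut₂ (Tree.cut₁ (Tree.cut₂ part28_9 (Tree.cut₁ part28_10 (Tree.cut₂ part28_11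
  (Tree.cut₁ part28_12 (Tree.cut₂ part28_13 (Tree.cut₁ part28_14 part28_15)))))) (Tree.cut₂
  part28_16 part28_17)) (Tree.cut₁ part28_18 part28_19)))))))

theorem tree28_ok : tree28.check data28 0 unit 0 unit = true :=
    (check_cut₁ (c := 524288) (by norm_num [unit]) part28_0_ok (check_cut₂ (c := 524288) (by
    norm_num [unit]) part28_1_ok (check_cut₁ (c := 786432) (by norm_num [unit]) part28_2_ok
    (check_cut₂ (c := 786432) (by norm_num [unit]) (check_cut₁ (c := 917504) (by norm_num
    [unit]) part28_3_ok (check_cut₂ (c := 655360) (by norm_num [unit]) part28_4_ok (check_cut₁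
    (c := 983040) (by norm_num [unit]) part28_5_ok (check_cut₂ (c := 720896) (by norm_num
    [unit]) part28_6_ok part28_7_ok)))) (check_cut₁ (c := 917504) (by norm_num [unit])
    part28_8_ok (check_cut₂ (c := 917504) (by norm_num [unit]) (check_cut₁ (c := 983040) (by
    norm_num [unit]) (check_cut₂ (c := 851968) (by norm_num [unit]) part28_9_ok (check_cut₁ (c
    := 950272) (by norm_num [unit]) part28_10_ok (check_cut₂ (c := 884736) (by norm_num [unit])
    part28_11_ok (check_cut₁ (c := 966656) (by norm_num [unit]) part28_12_ok (check_cut₂ (c := 901120)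
    (by norm_num [unit]) part28_13_ok (check_cut₁ (c := 974848) (by norm_num [unit])
    part28_14_ok part28_15_ok)))))) (check_cut₂ (c := 851968) (by norm_num [unit]) part28_16_ok
    part28_17_ok)) (check_cut₁ (c := 983040) (by norm_num [unit]) part28_18_ok
    part28_19_ok)))))))

end Vale.Agent.P237.Quant.WindowCert
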