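import Vale.Agent.P237.Quant.WindowCheck

/-!
The window certificate of the moment excess in dimension 29. The cuts are checked in parts, so
that no kernel computation grows too large.
-/

namespace Vale.Agent.P237.Quant.WindowCert

/-- The shared data in dimension 29. -/
def data29 : Cert where
  m := 28
  s := 337994
  q := 612363
  c := 1074900
  κ := 392046
  I := 63795
  zone₀ := [
    ⟨0, 1048577⟩, ⟨9389, 1048619⟩, ⟨18777, 1048745⟩, ⟨28166, 1048955⟩, ⟨37555, 1049250⟩,
    ⟨46944, 1049629⟩, ⟨56332, 1050093⟩, ⟨65721, 1050642⟩, ⟨75110, 1051277⟩, ⟨84498, 1051998⟩,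
    ⟨93887, 1052805⟩, ⟨103276, 1053700⟩, ⟨112665, 1054682⟩, ⟨122053, 1055753⟩, ⟨131442, 1056913⟩,
    ⟨140831, 1058164⟩, ⟨150220, 1059505⟩, ⟨159608, 1060939⟩, ⟨168997, 1062466⟩, ⟨178386, 1064088⟩,
    ⟨187774, 1065805⟩, ⟨197163, 1067619⟩, ⟨206552, 1069532⟩, ⟨215941, 1071545⟩, ⟨225329, 1073659⟩,
    ⟨234718, 1075877⟩, ⟨244107, 1078200⟩, ⟨253496, 1080630⟩, ⟨262884, 1083169⟩, ⟨272273, 1085820⟩,
    ⟨281662, 1088584⟩, ⟨291050, 1091464⟩, ⟨300439, 1094463⟩, ⟨309828, 1097583⟩, ⟨319217, 1100827⟩,
    ⟨328605, 1104198⟩, ⟨337994, 1107700⟩]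
  zone₁ := [
    ⟨337994, 1107700⟩, ⟨343481, 1109808⟩, ⟨348969, 1111962⟩, ⟨354456, 1114164⟩, ⟨359944, 1116413⟩,
    ⟨365431, 1118711⟩, ⟨370918, 1121058⟩, ⟨376406, 1123455⟩, ⟨381893, 1125903⟩, ⟨387380, 1128403⟩,
    ⟨392868, 1130956⟩, ⟨398355, 1133563⟩, ⟨403843, 1136224⟩, ⟨409330, 1138941⟩, ⟨414817, 1141714⟩,
    ⟨420305, 1144546⟩, ⟨425792, 1147436⟩, ⟨431279, 1150385⟩, ⟨436767, 1153397⟩, ⟨442254, 1156470⟩,
    ⟨447742, 1159607⟩, ⟨453229, 1162808⟩, ⟨458716, 1166076⟩, ⟨464204, 1169412⟩, ⟨469691, 1172816⟩,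
    ⟨475178, 1176290⟩, ⟨480666, 1179837⟩, ⟨486153, 1183457⟩, ⟨491641, 1187153⟩, ⟨497128, 1190925⟩,
    ⟨502615, 1194776⟩, ⟨508103, 1198708⟩, ⟨513590, 1202722⟩, ⟨519078, 1206821⟩, ⟨524565, 1211005⟩,
    ⟨530052, 1215278⟩, ⟨535540, 1219643⟩, ⟨541027, 1224099⟩, ⟨546514, 1228652⟩, ⟨552002, 1233302⟩,
    ⟨557489, 1238053⟩, ⟨562977, 1242908⟩, ⟨568464, 1247867⟩, ⟨573951, 1252936⟩, ⟨579439, 1258117⟩,
    ⟨584926, 1263412⟩, ⟨590413, 1268826⟩, ⟨595901, 1274362⟩, ⟨601388, 1280023⟩, ⟨606876, 1285814⟩,
    ⟨612363, 1291736⟩]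
  zone₂ := [
    ⟨612363, 1291736⟩, ⟨629927, 1311638⟩, ⟨647249, 1332786⟩, ⟨664326, 1355273⟩, ⟨681153, 1379202⟩,
    ⟨697726, 1404687⟩, ⟨714043, 1431862⟩, ⟨730099, 1460874⟩, ⟨745890, 1491888⟩, ⟨761410, 1525091⟩,
    ⟨776656, 1560703⟩, ⟨791622, 1598969⟩, ⟨806302, 1640170⟩, ⟨820693, 1684644⟩, ⟨834786, 1732764⟩,
    ⟨848576, 1784982⟩, ⟨862056, 1841827⟩, ⟨875219, 1903925⟩, ⟨888057, 1972028⟩, ⟨900561, 2047038⟩,
    ⟨912723, 2130068⟩, ⟨924532, 2222474⟩, ⟨935977, 2325955⟩, ⟨947047, 2442675⟩, ⟨957729, 2575409⟩,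
    ⟨968007, 2727771⟩, ⟨977865, 2904621⟩, ⟨987285, 3112630⟩, ⟨996245, 3361187⟩, ⟨1004720, 3664035⟩,
    ⟨1012680, 4042136⟩, ⟨1020091, 4529460⟩, ⟨1026906, 5184548⟩, ⟨1033070, 6119931⟩,
    ⟨1038505, 7583923⟩, ⟨1043094, 10267950⟩, ⟨1046638, 17254753⟩]

theorem data29_wf : data29.wf = true := by decide +kernel

theorem data29_const : constOkLarge data29 = true := by decide +kernel

/-- A part of the boxes. -/
def part29_0 : Tree :=
  .cut₂ (.cut₁ (.out) (.out)) (.out)

theorem part29_0_ok : part29_0.check data29 0 524288 0 1048576 = true := by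
  decide +kernel

/-- A part of the boxes. -/
def part29_1 : Tree :=
  .cut₁ (.box 1144831 5184445) (.cut₂ (.out) (.cut₁ (.box 1057178 3204163) (.out)))

theorem part29_1_ok : part29_1.check data29 524288 1048576 0 524288 = true := by
  decide +kernel

/-- A part of the boxes. -/
def part29_2 : Tree :=
  .box 1144831 5184445

theorem part29_2_ok : part29_2.check data29 524288 786432 524288 1048576 = true := by
  decide +kernel

/-- A part of the boxes. -/
def part29_3 : Tree :=
  .box 1062063 3204163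

theorem part29_3_ok : part29_3.check data29 786432 917504 524288 786432 = true := by
  decide +kernel

/-- A part of the boxes. -/
def part29_4 : Tree :=
  .cut₁ (.box 1036486 5184445) (.cut₂ (.out) (.cut₁ (.box 1023698 3204163) (.box 1023698 3204163)))

theorem part29_4_ok : part29_4.check data29 917504 1048576 524288 655360 = true := by
  decide +kernel

/-- A part of the boxes. -/
def part29_5 : Tree :=
  .cut₂ (.cut₁ (.box 1057178 3204163) (.box 1036486 3204163)) (.cut₁ (.box 1057178 3204163)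
  (.box 1036486 3204163))

theorem part29_5_ok : part29_5.check data29 917504 983040 655360 786432 = true := by
  decide +kernel

/-- A part of the boxes. -/
def part29_6 : Tree :=
  .cut₁ (.cut₂ (.cut₁ (.box 1023698 3204163) (.box 1023698 1980282)) (.cut₁ (.box 1023698 3204163)
  (.box 1023698 1045320))) (.cut₂ (.cut₁ (.box 1020679 756400) (.box 1015794 467481)) (.cut₁
  (.box 1015794 756400) (.box 1015794 467481)))

theorem part29_6_ok : part29_6.check data29 983040 1048576 655360 720896 = true := by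
  decide +kernel

/-- A part of the boxes. -/
def part29_7 : Tree :=
  .cut₁ (.cut₂ (.cut₁ (.box 1023698 1223881) (.box 1023698 756400)) (.cut₁ (.box 1023698 1223881)
  (.box 1023698 756400))) (.cut₂ (.cut₁ (.box 1020679 467481) (.box 1010910 467481)) (.cut₁
  (.box 1023698 467481) (.box 1016948 0)))

theorem part29_7_ok : part29_7.check data29 983040 1048576 720896 786432 = true := by
  decide +kernel

/-- A part of the boxes. -/
def part29_8 : Tree :=
  .box 1057178 3204163

theorem part29_8_ok : part29_8.check data29 786432 917504 786432 1048576 = true := by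
  decide +kernel

/-- A part of the boxes. -/
def part29_9 : Tree :=
  .cut₁ (.box 1057178 3204163) (.box 1036486 1980282)

theorem part29_9_ok : part29_9.check data29 917504 983040 786432 851968 = true := by
  decide +kernel

/-- A part of the boxes. -/
def part29_10 : Tree :=
  .box 1057178 3204163

theorem part29_10_ok : part29_10.check data29 917504 950272 851968 917504 = true := by
  decide +kernel

/-- A part of the boxes. -/
def part29_11 : Tree :=
  .cut₁ (.box 1057178 3204163) (.box 1036486 3204163)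

theorem part29_11_ok : part29_11.check data29 950272 983040 851968 884736 = true := by
  decide +kernel

/-- A part of the boxes. -/
def part29_12 : Tree :=
  .box 1057178 3204163

theorem part29_12_ok : part29_12.check data29 950272 966656 884736 917504 = true := by
  decide +kernel

/-- A part of the boxes. -/
def part29_13 : Tree :=
  .box 1044390 1223881

theorem part29_13_ok : part29_13.check data29 966656 983040 884736 901120 = true := by
  decide +kernel

/-- A part of the boxes. -/
def part29_14 : Tree :=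
  .cut₁ (.cut₂ (.cut₁ (.box 1044390 1223881) (.box 1044390 1223881)) (.cut₁ (.out) (.cut₂
  (.box 1041371 467481) (.box 1044390 467481)))) (.cut₂ (.box 1036486 756400) (.cut₁ (.cut₂
  (.box 1036486 756400) (.box 1036486 467481)) (.box 1036486 756400)))

theorem part29_14_ok : part29_14.check data29 966656 983040 901120 917504 = true := by
  decide +kernel

/-- A part of the boxes. -/
def part29_15 : Tree :=
  .cut₁ (.cut₂ (.cut₁ (.box 1028583 1223881) (.box 1023698 756400)) (.cut₁ (.box 1028583 1223881)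
  (.box 1023698 756400))) (.box 1020679 220715)

theorem part29_15_ok : part29_15.check data29 983040 1048576 786432 851968 = true := by
  decide +kernel

/-- A part of the boxes. -/
def part29_16 : Tree :=
  .cut₁ (.cut₂ (.cut₁ (.box 1036486 756400) (.box 1023698 467481)) (.cut₁ (.box 1031602 577838)
  (.box 1023698 467481))) (.box 1023698 0)

theorem part29_16_ok : part29_16.check data29 983040 1048576 851968 917504 = true := by
  decide +kernel

/-- A part of the boxes. -/
def part29_17 : Tree :=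
  .cut₂ (.cut₁ (.out) (.cut₂ (.cut₁ (.out) (.cut₂ (.cut₁ (.out) (.cut₂ (.cut₁ (.box 1041371 467481)
  (.box 1036486 288919)) (.box 1036486 0))) (.out))) (.out))) (.out)

theorem part29_17_ok : part29_17.check data29 917504 983040 917504 1048576 = true := by
  decide +kernel

/-- A part of the boxes. -/
def part29_18 : Tree :=
  .cut₁ (.cut₂ (.cut₁ (.cut₂ (.cut₁ (.cut₂ (.box 1031602 467481) (.box 1031602 0)) (.box 1023698 0))
  (.box 1028583 0)) (.box 1023698 0)) (.box 1023698 0)) (.box 1023698 0)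

theorem part29_18_ok : part29_18.check data29 983040 1048576 917504 983040 = true := by
  decide +kernel

/-- A part of the boxes. -/
def part29_19 : Tree :=
  .cut₁ (.box 1023698 0) (.box 1003006 0)

theorem part29_19_ok : part29_19.check data29 983040 1048576 983040 1048576 = true := by
  decide +kernel

/-- All the cuts in dimension 29. -/
def tree29 : Tree :=
  (Tree.cut₁ part29_0 (Tree.cut₂ part29_1 (Tree.cut₁ part29_2 (Tree.cut₂ (Tree.cut₁ part29_3
  (Tree.cut₂ part29_4 (Tree.cut₁ part29_5 (Tree.cut₂ part29_6 part29_7)))) (Tree.cut₁ part29_8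
  (Tree.cut₂ (Tree.cut₁ (Tree.cut₂ part29_9 (Tree.cut₁ part29_10 (Tree.cut₂ part29_11
  (Tree.cut₁ part29_12 (Tree.cut₂ part29_13 part29_14))))) (Tree.cut₂ part29_15 part29_16))
  (Tree.cut₁ part29_17 (Tree.cut₂ part29_18 part29_19))))))))

theorem tree29_ok : tree29.check data29 0 unit 0 unit = true :=
    (check_cut₁ (c := 524288) (by norm_num [unit]) part29_0_ok (check_cut₂ (c := 524288) (by
    norm_num [unit]) part29_1_ok (check_cut₁ (c := 786432) (by norm_num [unit]) part29_2_ok
    (check_cut₂ (c := 786432) (by norm_num [unit]) (check_cut₁ (c := 917504) (by norm_num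
    [unit]) part29_3_ok (check_cut₂ (c := 655360) (by norm_num [unit]) part29_4_ok (check_cut₁
    (c := 983040) (by norm_num [unit]) part29_5_ok (check_cut₂ (c := 720896) (by norm_num
    [unit]) part29_6_ok part29_7_ok)))) (check_cut₁ (c := 917504) (by norm_num [unit])
    part29_8_ok (check_cut₂ (c := 917504) (by norm_num [unit]) (check_cut₁ (c := 983040) (by
    norm_num [unit]) (check_cut₂ (c := 851968) (by norm_num [unit]) part29_9_ok (check_cut₁ (c
    := 950272) (by norm_num [unit]) part29_10_ok (check_cut₂ (c := 884736) (by norm_num [unit])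
    part29_11_ok (check_cut₁ (c := 966656) (by norm_num [unit]) part29_12_ok (check_cut₂ (c := 901120)
    (by norm_num [unit]) part29_13_ok part29_14_ok))))) (check_cut₂ (c := 851968) (by norm_num
    [unit]) part29_15_ok part29_16_ok)) (check_cut₁ (c := 983040) (by norm_num [unit])
    part29_17_ok (check_cut₂ (c := 983040) (by norm_num [unit]) part29_18_ok
    part29_19_ok))))))))

end Vale.Agent.P237.Quant.WindowCert
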