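import Vale.Agent.P237.Quant.WindowCheck

/-!
The window certificate of the moment excess in dimension 30. The cuts are checked in parts, so
that no kernel computation grows too large.
-/

namespace Vale.Agent.P237.Quant.WindowCert

/-- The shared data in dimension 30. -/
def data30 : Cert where
  m := 29
  s := 332705
  q := 604548
  c := 1074014
  κ := 385793
  I := 64369
  zone₀ := [
    ⟨0, 1048577⟩, ⟨9242, 1048617⟩, ⟨18484, 1048739⟩, ⟨27725, 1048943⟩, ⟨36967, 1049229⟩,
    ⟨46209, 1049596⟩, ⟨55451, 1050046⟩, ⟨64693, 1050578⟩, ⟨73934, 1051193⟩, ⟨83176, 1051891⟩,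
    ⟨92418, 1052673⟩, ⟨101660, 1053540⟩, ⟨110902, 1054491⟩, ⟨120143, 1055528⟩, ⟨129385, 1056651⟩,
    ⟨138627, 1057862⟩, ⟨147869, 1059161⟩, ⟨157111, 1060549⟩, ⟨166352, 1062026⟩, ⟨175594, 1063596⟩,
    ⟨184836, 1065257⟩, ⟨194078, 1067012⟩, ⟨203320, 1068862⟩, ⟨212562, 1070809⟩, ⟨221803, 1072853⟩,
    ⟨231045, 1074997⟩, ⟨240287, 1077242⟩, ⟨249529, 1079590⟩, ⟨258771, 1082043⟩, ⟨268012, 1084603⟩,
    ⟨277254, 1087272⟩, ⟨286496, 1090052⟩, ⟨295738, 1092946⟩, ⟨304980, 1095957⟩, ⟨314221, 1099085⟩,
    ⟨323463, 1102336⟩, ⟨332705, 1105711⟩]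
  zone₁ := [
    ⟨332705, 1105711⟩, ⟨338142, 1107756⟩, ⟨343579, 1109846⟩, ⟨349016, 1111981⟩, ⟨354452, 1114162⟩,
    ⟨359889, 1116390⟩, ⟨365326, 1118666⟩, ⟨370763, 1120991⟩, ⟨376200, 1123364⟩, ⟨381637, 1125788⟩,
    ⟨387074, 1128262⟩, ⟨392510, 1130788⟩, ⟨397947, 1133367⟩, ⟨403384, 1136000⟩, ⟨408821, 1138687⟩,
    ⟨414258, 1141429⟩, ⟨419695, 1144228⟩, ⟨425132, 1147085⟩, ⟨430568, 1150000⟩, ⟨436005, 1152975⟩,
    ⟨441442, 1156011⟩, ⟨446879, 1159109⟩, ⟨452316, 1162271⟩, ⟨457753, 1165498⟩, ⟨463190, 1168790⟩,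
    ⟨468626, 1172150⟩, ⟨474063, 1175578⟩, ⟨479500, 1179078⟩, ⟨484937, 1182649⟩, ⟨490374, 1186293⟩,
    ⟨495811, 1190013⟩, ⟨501248, 1193809⟩, ⟨506685, 1197684⟩, ⟨512121, 1201639⟩, ⟨517558, 1205677⟩,
    ⟨522995, 1209799⟩, ⟨528432, 1214007⟩, ⟨533869, 1218304⟩, ⟨539306, 1222691⟩, ⟨544743, 1227172⟩,
    ⟨550179, 1231746⟩, ⟨555616, 1236420⟩, ⟨561053, 1241194⟩, ⟨566490, 1246070⟩, ⟨571927, 1251053⟩,
    ⟨577364, 1256144⟩, ⟨582801, 1261347⟩, ⟨588237, 1266664⟩, ⟨593674, 1272101⟩, ⟨599111, 1277658⟩,
    ⟨604548, 1283341⟩]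
  zone₂ := [
    ⟨604548, 1283341⟩, ⟨622427, 1302959⟩, ⟨640059, 1323814⟩, ⟨657441, 1346000⟩, ⟨674570, 1369619⟩,
    ⟨691441, 1394784⟩, ⟨708050, 1421625⟩, ⟨724393, 1450288⟩, ⟨740467, 1480940⟩, ⟨756265, 1513763⟩,
    ⟨771784, 1548976⟩, ⟨787018, 1586820⟩, ⟨801962, 1627579⟩, ⟨816610, 1671578⟩, ⟨830956, 1719197⟩,
    ⟨844993, 1770878⟩, ⟨858715, 1827147⟩, ⟨872113, 1888620⟩, ⟨885181, 1956048⟩, ⟨897910, 2030330⟩,
    ⟨910289, 2112550⟩, ⟨922310, 2204073⟩, ⟨933960, 2306571⟩, ⟨945229, 2422198⟩, ⟨956101, 2553674⟩,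
    ⟨966564, 2704635⟩, ⟨976598, 2879843⟩, ⟨986187, 3085951⟩, ⟨995307, 3332227⟩, ⟨1003934, 3632331⟩,
    ⟨1012037, 4007037⟩, ⟨1019580, 4489926⟩, ⟨1026518, 5139228⟩, ⟨1032793, 6066393⟩,
    ⟨1038324, 7517003⟩, ⟨1042996, 10177623⟩, ⟨1046603, 17101166⟩]

theorem data30_wf : data30.wf = true := by decide +kernel

theorem data30_const : constOkLarge data30 = true := by decide +kernel

/-- A part of the boxes. -/
def part30_0 : Tree :=
  .cut₂ (.cut₁ (.out) (.out)) (.out)

theorem part30_0_ok : part30_0.check data30 0 524288 0 1048576 = true := by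
  decide +kernel

/-- A part of the boxes. -/
def part30_1 : Tree :=
  .cut₁ (.box 1144831 5184445) (.cut₂ (.out) (.cut₁ (.box 1062063 3204163) (.out)))

theorem part30_1_ok : part30_1.check data30 524288 1048576 0 524288 = true := by
  decide +kernel

/-- A part of the boxes. -/
def part30_2 : Tree :=
  .box 1144831 5184445

theorem part30_2_ok : part30_2.check data30 524288 786432 524288 1048576 = true := by
  decide +kernel

/-- A part of the boxes. -/
def part30_3 : Tree :=
  .box 1057178 5184445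

theorem part30_3_ok : part30_3.check data30 786432 917504 524288 786432 = true := by
  decide +kernel

/-- A part of the boxes. -/
def part30_4 : Tree :=
  .cut₁ (.box 1036486 5184445) (.cut₂ (.out) (.cut₁ (.box 1023698 3204163) (.box 1023698 3204163)))

theorem part30_4_ok : part30_4.check data30 917504 1048576 524288 655360 = true := by
  decide +kernel

/-- A part of the boxes. -/
def part30_5 : Tree :=
  .cut₂ (.cut₁ (.box 1057178 3204163) (.box 1036486 3204163)) (.cut₁ (.box 1057178 3204163)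
  (.box 1036486 3204163))

theorem part30_5_ok : part30_5.check data30 917504 983040 655360 786432 = true := by
  decide +kernel

/-- A part of the boxes. -/
def part30_6 : Tree :=
  .cut₂ (.cut₁ (.box 1023698 3204163) (.box 1023698 3204163)) (.cut₁ (.box 1023698 3204163)
  (.box 1023698 1223881))

theorem part30_6_ok : part30_6.check data30 983040 1015808 655360 720896 = true := by
  decide +kernel

/-- A part of the boxes. -/
def part30_7 : Tree :=
  .cut₂ (.cut₁ (.box 1020679 1223881) (.cut₂ (.box 1015794 3204163) (.box 1015794 756400)))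
  (.cut₁ (.box 1020679 756400) (.box 1015794 467481))

theorem part30_7_ok : part30_7.check data30 1015808 1048576 655360 720896 = true := by
  decide +kernel

/-- A part of the boxes. -/
def part30_8 : Tree :=
  .cut₁ (.cut₂ (.cut₁ (.box 1028583 1980282) (.box 1023698 934962)) (.cut₁ (.box 1028583 1223881)
  (.box 1028583 756400))) (.cut₂ (.cut₁ (.box 1023698 577838) (.box 1015794 467481)) (.cut₁
  (.box 1023698 467481) (.box 1012776 467481)))

theorem part30_8_ok : part30_8.check data30 983040 1048576 720896 786432 = true := by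
  decide +kernel

/-- A part of the boxes. -/
def part30_9 : Tree :=
  .box 1057178 3204163

theorem part30_9_ok : part30_9.check data30 786432 917504 786432 1048576 = true := by
  decide +kernel

/-- A part of the boxes. -/
def part30_10 : Tree :=
  .cut₁ (.box 1057178 3204163) (.box 1036486 3204163)

theorem part30_10_ok : part30_10.check data30 917504 983040 786432 851968 = true := by
  decide +kernel

/-- A part of the boxes. -/
def part30_11 : Tree :=
  .box 1057178 3204163

theorem part30_11_ok : part30_11.check data30 917504 950272 851968 917504 = true := by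
  decide +kernel

/-- A part of the boxes. -/
def part30_12 : Tree :=
  .box 1044390 1980282

theorem part30_12_ok : part30_12.check data30 950272 983040 851968 884736 = true := by
  decide +kernel

/-- A part of the boxes. -/
def part30_13 : Tree :=
  .cut₁ (.box 1057178 3204163) (.cut₂ (.box 1044390 1223881) (.cut₁ (.cut₂ (.box 1044390 1980282)
  (.cut₁ (.out) (.box 1044390 756400))) (.cut₂ (.box 1036486 1223881) (.cut₁ (.cut₂ (.box 1044390 1223881)
  (.box 1041371 756400)) (.box 1036486 756400)))))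

theorem part30_13_ok : part30_13.check data30 950272 983040 884736 917504 = true := by
  decide +kernel

/-- A part of the boxes. -/
def part30_14 : Tree :=
  .cut₁ (.cut₂ (.cut₁ (.box 1028583 1223881) (.box 1023698 756400)) (.cut₁ (.box 1031602 1223881)
  (.box 1023698 756400))) (.cut₂ (.cut₁ (.box 1023698 467481) (.box 1015794 0)) (.box 1018813 288919))

theorem part30_14_ok : part30_14.check data30 983040 1048576 786432 851968 = true := by
  decide +kernel

/-- A part of the boxes. -/
def part30_15 : Tree :=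
  .cut₁ (.cut₂ (.cut₁ (.box 1036486 756400) (.box 1023698 756400)) (.cut₁ (.box 1031602 646043)
  (.box 1023698 467481))) (.box 1023698 0)

theorem part30_15_ok : part30_15.check data30 983040 1048576 851968 917504 = true := by
  decide +kernel

/-- A part of the boxes. -/
def part30_16 : Tree :=
  .cut₂ (.cut₁ (.out) (.cut₂ (.cut₁ (.out) (.cut₂ (.cut₁ (.out) (.cut₂ (.cut₁ (.box 1044390 467481)
  (.cut₂ (.box 1036486 467481) (.box 1036486 467481))) (.box 1041371 288919))) (.out)))
  (.out))) (.out)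

theorem part30_16_ok : part30_16.check data30 917504 983040 917504 1048576 = true := by
  decide +kernel

/-- A part of the boxes. -/
def part30_17 : Tree :=
  .cut₂ (.cut₁ (.cut₂ (.cut₁ (.cut₂ (.box 1033468 467481) (.cut₁ (.box 1036486 0) (.box 1031602 0)))
  (.box 1031602 467481)) (.cut₁ (.box 1036486 0) (.box 1023698 0))) (.box 1023698 0)) (.box 1028583 0)

theorem part30_17_ok : part30_17.check data30 983040 1015808 917504 983040 = true := by
  decide +kernel

/-- A part of the boxes. -/
def part30_18 : Tree :=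
  .box 1023698 0

theorem part30_18_ok : part30_18.check data30 1015808 1048576 917504 983040 = true := by
  decide +kernel

/-- A part of the boxes. -/
def part30_19 : Tree :=
  .cut₁ (.box 1023698 0) (.box 1023698 0)

theorem part30_19_ok : part30_19.check data30 983040 1048576 983040 1048576 = true := by
  decide +kernel

/-- All the cuts in dimension 30. -/
def tree30 : Tree :=
  (Tree.cut₁ part30_0 (Tree.cut₂ part30_1 (Tree.cut₁ part30_2 (Tree.cut₂ (Tree.cut₁ part30_3
  (Tree.cut₂ part30_4 (Tree.cut₁ part30_5 (Tree.cut₂ (Tree.cut₁ part30_6 part30_7)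
  part30_8)))) (Tree.cut₁ part30_9 (Tree.cut₂ (Tree.cut₁ (Tree.cut₂ part30_10 (Tree.cut₁
  part30_11 (Tree.cut₂ part30_12 part30_13))) (Tree.cut₂ part30_14 part30_15)) (Tree.cut₁
  part30_16 (Tree.cut₂ (Tree.cut₁ part30_17 part30_18) part30_19))))))))

theorem tree30_ok : tree30.check data30 0 unit 0 unit = true :=
    (check_cut₁ (c := 524288) (by norm_num [unit]) part30_0_ok (check_cut₂ (c := 524288) (by
    norm_num [unit]) part30_1_ok (check_cut₁ (c := 786432) (by norm_num [unit]) part30_2_ok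
    (check_cut₂ (c := 786432) (by norm_num [unit]) (check_cut₁ (c := 917504) (by norm_num
    [unit]) part30_3_ok (check_cut₂ (c := 655360) (by norm_num [unit]) part30_4_ok (check_cut₁
    (c := 983040) (by norm_num [unit]) part30_5_ok (check_cut₂ (c := 720896) (by norm_num
    [unit]) (check_cut₁ (c := 1015808) (by norm_num [unit]) part30_6_ok part30_7_ok)
    part30_8_ok)))) (check_cut₁ (c := 917504) (by norm_num [unit]) part30_9_ok (check_cut₂ (c := 917504)
    (by norm_num [unit]) (check_cut₁ (c := 983040) (by norm_num [unit]) (check_cut₂ (c := 851968)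
    (by norm_num [unit]) part30_10_ok (check_cut₁ (c := 950272) (by norm_num [unit])
    part30_11_ok (check_cut₂ (c := 884736) (by norm_num [unit]) part30_12_ok part30_13_ok)))
    (check_cut₂ (c := 851968) (by norm_num [unit]) part30_14_ok part30_15_ok)) (check_cut₁ (c := 983040)
    (by norm_num [unit]) part30_16_ok (check_cut₂ (c := 983040) (by norm_num [unit]) (check_cut₁
    (c := 1015808) (by norm_num [unit]) part30_17_ok part30_18_ok) part30_19_ok))))))))

end Vale.Agent.P237.Quant.WindowCert
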