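import Vale.Agent.P237.Quant.WindowCheck

/-!
The window certificate of the moment excess in dimension 31. The cuts are checked in parts, so
that no kernel computation grows too large.
-/

namespace Vale.Agent.P237.Quant.WindowCert

/-- The shared data in dimension 31. -/
def data31 : Cert where
  m := 30
  s := 327657
  q := 597020
  c := 1073184
  κ := 379827
  I := 64905
  zone₀ := [
    ⟨0, 1048577⟩, ⟨9102, 1048616⟩, ⟨18203, 1048735⟩, ⟨27305, 1048932⟩, ⟨36406, 1049209⟩,
    ⟨45508, 1049565⟩, ⟨54610, 1050001⟩, ⟨63711, 1050517⟩, ⟨72813, 1051114⟩, ⟨81914, 1051791⟩,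
    ⟨91016, 1052549⟩, ⟨100117, 1053389⟩, ⟨109219, 1054311⟩, ⟨118321, 1055317⟩, ⟨127422, 1056405⟩,
    ⟨136524, 1057579⟩, ⟨145625, 1058837⟩, ⟨154727, 1060182⟩, ⟨163828, 1061614⟩, ⟨172930, 1063134⟩,
    ⟨182032, 1064743⟩, ⟨191133, 1066443⟩, ⟨200235, 1068234⟩, ⟨209336, 1070118⟩, ⟨218438, 1072097⟩,
    ⟨227540, 1074172⟩, ⟨236641, 1076344⟩, ⟨245743, 1078616⟩, ⟨254844, 1080988⟩, ⟨263946, 1083463⟩,
    ⟨273048, 1086044⟩, ⟨282149, 1088731⟩, ⟨291251, 1091527⟩, ⟨300352, 1094435⟩, ⟨309454, 1097456⟩,
    ⟨318555, 1100594⟩, ⟨327657, 1103852⟩]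
  zone₁ := [
    ⟨327657, 1103852⟩, ⟨333044, 1105837⟩, ⟨338432, 1107866⟩, ⟨343819, 1109939⟩, ⟨349206, 1112056⟩,
    ⟨354593, 1114219⟩, ⟨359981, 1116428⟩, ⟨365368, 1118684⟩, ⟨370755, 1120987⟩, ⟨376142, 1123339⟩,
    ⟨381530, 1125740⟩, ⟨386917, 1128190⟩, ⟨392304, 1130692⟩, ⟨397691, 1133245⟩, ⟨403079, 1135851⟩,
    ⟨408466, 1138510⟩, ⟨413853, 1141223⟩, ⟨419240, 1143992⟩, ⟨424628, 1146818⟩, ⟨430015, 1149700⟩,
    ⟨435402, 1152642⟩, ⟨440789, 1155643⟩, ⟨446177, 1158706⟩, ⟨451564, 1161830⟩, ⟨456951, 1165018⟩,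
    ⟨462338, 1168270⟩, ⟨467726, 1171589⟩, ⟨473113, 1174974⟩, ⟨478500, 1178429⟩, ⟨483888, 1181954⟩,
    ⟨489275, 1185551⟩, ⟨494662, 1189220⟩, ⟨500049, 1192965⟩, ⟨505437, 1196788⟩, ⟨510824, 1200688⟩,
    ⟨516211, 1204669⟩, ⟨521598, 1208732⟩, ⟨526986, 1212879⟩, ⟨532373, 1217113⟩, ⟨537760, 1221434⟩,
    ⟨543147, 1225847⟩, ⟨548535, 1230353⟩, ⟨553922, 1234953⟩, ⟨559309, 1239651⟩, ⟨564696, 1244450⟩,
    ⟨570084, 1249352⟩, ⟨575471, 1254359⟩, ⟨580858, 1259475⟩, ⟨586245, 1264703⟩, ⟨591633, 1270046⟩,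
    ⟨597020, 1275506⟩]
  zone₂ := [
    ⟨597020, 1275506⟩, ⟨615202, 1294854⟩, ⟨633133, 1315433⟩, ⟨650810, 1337335⟩, ⟨668229, 1360660⟩,
    ⟨685386, 1385521⟩, ⟨702277, 1412048⟩, ⟨718897, 1440383⟩, ⟨735243, 1470691⟩, ⟨751309, 1503157⟩,
    ⟨767091, 1537993⟩, ⟨782584, 1575442⟩, ⟨797781, 1615782⟩, ⟨812677, 1659335⟩, ⟨827266, 1706480⟩,
    ⟨841541, 1757655⟩, ⟨855496, 1813383⟩, ⟨869122, 1874275⟩, ⟨882411, 1941067⟩, ⟨895355, 2014654⟩,
    ⟨907945, 2096125⟩, ⟨920169, 2186809⟩, ⟨932017, 2288387⟩, ⟨943476, 2402969⟩, ⟨954534, 2533300⟩,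
    ⟨965173, 2682912⟩, ⟨975378, 2856604⟩, ⟨985129, 3060909⟩, ⟨994404, 3305068⟩, ⟨1003177, 3602585⟩,
    ⟨1011418, 3974118⟩, ⟨1019089, 4452916⟩, ⟨1026144, 5096665⟩, ⟨1032525, 6015923⟩,
    ⟨1038151, 7454680⟩, ⟨1042901, 10092305⟩, ⟨1046570, 16960054⟩]

theorem data31_wf : data31.wf = true := by decide +kernel

theorem data31_const : constOkLarge data31 = true := by decide +kernel

/-- A part of the boxes. -/
def part31_0 : Tree :=
  .cut₂ (.cut₁ (.out) (.out)) (.out)

theorem part31_0_ok : part31_0.check data31 0 524288 0 1048576 = true := by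
  decide +kernel

/-- A part of the boxes. -/
def part31_1 : Tree :=
  .cut₁ (.box 1144831 5184445) (.cut₂ (.out) (.cut₁ (.box 1065082 3204163) (.out)))

theorem part31_1_ok : part31_1.check data31 524288 1048576 0 524288 = true := by
  decide +kernel

/-- A part of the boxes. -/
def part31_2 : Tree :=
  .box 1144831 5184445

theorem part31_2_ok : part31_2.check data31 524288 786432 524288 1048576 = true := by
  decide +kernel

/-- A part of the boxes. -/
def part31_3 : Tree :=
  .box 1057178 5184445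

theorem part31_3_ok : part31_3.check data31 786432 917504 524288 786432 = true := by
  decide +kernel

/-- A part of the boxes. -/
def part31_4 : Tree :=
  .cut₁ (.box 1057178 5184445) (.cut₂ (.out) (.cut₁ (.box 1023698 3204163) (.box 1023698 3204163)))

theorem part31_4_ok : part31_4.check data31 917504 1048576 524288 655360 = true := by
  decide +kernel

/-- A part of the boxes. -/
def part31_5 : Tree :=
  .cut₂ (.cut₁ (.box 1057178 3204163) (.box 1036486 3204163)) (.cut₁ (.box 1057178 3204163)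
  (.box 1036486 3204163))

theorem part31_5_ok : part31_5.check data31 917504 983040 655360 786432 = true := by
  decide +kernel

/-- A part of the boxes. -/
def part31_6 : Tree :=
  .cut₁ (.cut₂ (.cut₁ (.box 1023698 3204163) (.box 1023698 3204163)) (.cut₁ (.box 1023698 3204163)
  (.box 1023698 1223881))) (.cut₂ (.cut₁ (.box 1023698 1223881) (.box 1018813 756400)) (.cut₁
  (.box 1023698 756400) (.box 1016948 467481)))

theorem part31_6_ok : part31_6.check data31 983040 1048576 655360 720896 = true := by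
  decide +kernel

/-- A part of the boxes. -/
def part31_7 : Tree :=
  .cut₁ (.cut₂ (.cut₁ (.box 1031602 1980282) (.box 1028583 934962)) (.cut₁ (.box 1036486 1223881)
  (.box 1028583 756400))) (.cut₂ (.cut₁ (.box 1023698 646043) (.box 1015794 467481)) (.cut₁
  (.box 1023698 467481) (.box 1013929 467481)))

theorem part31_7_ok : part31_7.check data31 983040 1048576 720896 786432 = true := by
  decide +kernel

/-- A part of the boxes. -/
def part31_8 : Tree :=
  .box 1057178 3204163

theorem part31_8_ok : part31_8.check data31 786432 917504 786432 1048576 = true := by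
  decide +kernel

/-- A part of the boxes. -/
def part31_9 : Tree :=
  .cut₂ (.cut₁ (.box 1057178 3204163) (.box 1036486 3204163)) (.cut₁ (.box 1057178 3204163)
  (.cut₂ (.box 1044390 3204163) (.cut₁ (.box 1057178 3204163) (.cut₂ (.box 1044390 3204163)
  (.cut₁ (.box 1049275 1980282) (.box 1041371 934962))))))

theorem part31_9_ok : part31_9.check data31 917504 983040 786432 917504 = true := by
  decide +kernel

/-- A part of the boxes. -/
def part31_10 : Tree :=
  .cut₁ (.cut₂ (.cut₁ (.box 1036486 1223881) (.box 1028583 756400)) (.cut₁ (.box 1031602 1223881)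
  (.box 1028583 756400))) (.cut₂ (.cut₁ (.box 1023698 467481) (.box 1018813 0)) (.box 1023698 178562))

theorem part31_10_ok : part31_10.check data31 983040 1048576 786432 851968 = true := by
  decide +kernel

/-- A part of the boxes. -/
def part31_11 : Tree :=
  .cut₁ (.cut₂ (.cut₁ (.box 1031602 1223881) (.box 1028583 756400)) (.cut₁ (.box 1036486 756400)
  (.box 1023698 467481))) (.box 1023698 178562)

theorem part31_11_ok : part31_11.check data31 983040 1048576 851968 917504 = true := by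
  decide +kernel

/-- A part of the boxes. -/
def part31_12 : Tree :=
  .cut₂ (.cut₁ (.out) (.cut₂ (.cut₁ (.out) (.cut₂ (.cut₁ (.out) (.cut₂ (.cut₁ (.box 1044390 467481)
  (.cut₂ (.box 1039505 756400) (.box 1039505 467481))) (.cut₁ (.out) (.box 1044390 467481))))
  (.out))) (.out))) (.out)

theorem part31_12_ok : part31_12.check data31 917504 983040 917504 1048576 = true := by
  decide +kernel

/-- A part of the boxes. -/
def part31_13 : Tree :=
  .cut₁ (.cut₂ (.cut₁ (.cut₂ (.box 1036486 577838) (.cut₁ (.box 1036486 288919) (.box 1036486 467481)))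
  (.box 1031602 467481)) (.cut₁ (.box 1036486 0) (.box 1031602 0))) (.box 1023698 0)

theorem part31_13_ok : part31_13.check data31 983040 1015808 917504 950272 = true := by
  decide +kernel

/-- A part of the boxes. -/
def part31_14 : Tree :=
  .cut₁ (.box 1036486 0) (.box 1023698 0)

theorem part31_14_ok : part31_14.check data31 983040 1015808 950272 983040 = true := by
  decide +kernel

/-- A part of the boxes. -/
def part31_15 : Tree :=
  .box 1023698 0

theorem part31_15_ok : part31_15.check data31 1015808 1048576 917504 983040 = true := by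
  decide +kernel

/-- A part of the boxes. -/
def part31_16 : Tree :=
  .cut₁ (.box 1023698 0) (.box 1023698 0)

theorem part31_16_ok : part31_16.check data31 983040 1048576 983040 1048576 = true := by
  decide +kernel

/-- All the cuts in dimension 31. -/
def tree31 : Tree :=
  (Tree.cut₁ part31_0 (Tree.cut₂ part31_1 (Tree.cut₁ part31_2 (Tree.cut₂ (Tree.cut₁ part31_3
  (Tree.cut₂ part31_4 (Tree.cut₁ part31_5 (Tree.cut₂ part31_6 part31_7)))) (Tree.cut₁ part31_8
  (Tree.cut₂ (Tree.cut₁ part31_9 (Tree.cut₂ part31_10 part31_11)) (Tree.cut₁ part31_12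
  (Tree.cut₂ (Tree.cut₁ (Tree.cut₂ part31_13 part31_14) part31_15) part31_16))))))))

theorem tree31_ok : tree31.check data31 0 unit 0 unit = true :=
    (check_cut₁ (c := 524288) (by norm_num [unit]) part31_0_ok (check_cut₂ (c := 524288) (by
    norm_num [unit]) part31_1_ok (check_cut₁ (c := 786432) (by norm_num [unit]) part31_2_ok
    (check_cut₂ (c := 786432) (by norm_num [unit]) (check_cut₁ (c := 917504) (by norm_num
    [unit]) part31_3_ok (check_cut₂ (c := 655360) (by norm_num [unit]) part31_4_ok (check_cut₁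
    (c := 983040) (by norm_num [unit]) part31_5_ok (check_cut₂ (c := 720896) (by norm_num
    [unit]) part31_6_ok part31_7_ok)))) (check_cut₁ (c := 917504) (by norm_num [unit])
    part31_8_ok (check_cut₂ (c := 917504) (by norm_num [unit]) (check_cut₁ (c := 983040) (by
    norm_num [unit]) part31_9_ok (check_cut₂ (c := 851968) (by norm_num [unit]) part31_10_ok
    part31_11_ok)) (check_cut₁ (c := 983040) (by norm_num [unit]) part31_12_ok (check_cut₂ (c := 983040)
    (by norm_num [unit]) (check_cut₁ (c := 1015808) (by norm_num [unit]) (check_cut₂ (c := 950272)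
    (by norm_num [unit]) part31_13_ok part31_14_ok) part31_15_ok) part31_16_ok))))))))

end Vale.Agent.P237.Quant.WindowCert
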