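import Vale.Agent.P237.Quant.WindowCheck

/-!
The window certificate of the moment excess in dimension 32. The cuts are checked in parts, so
that no kernel computation grows too large.
-/

namespace Vale.Agent.P237.Quant.WindowCert

/-- The shared data in dimension 32. -/
def data32 : Cert where
  m := 31
  s := 322832
  q := 589762
  c := 1072408
  κ := 374130
  I := 65437
  zone₀ := [
    ⟨0, 1048577⟩, ⟨8968, 1048615⟩, ⟨17935, 1048730⟩, ⟨26903, 1048922⟩, ⟨35870, 1049191⟩,
    ⟨44838, 1049536⟩, ⟨53805, 1049960⟩, ⟨62773, 1050461⟩, ⟨71740, 1051039⟩, ⟨80708, 1051696⟩,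
    ⟨89676, 1052432⟩, ⟨98643, 1053247⟩, ⟨107611, 1054142⟩, ⟨116578, 1055118⟩, ⟨125546, 1056174⟩,
    ⟨134513, 1057312⟩, ⟨143481, 1058533⟩, ⟨152448, 1059837⟩, ⟨161416, 1061226⟩, ⟨170384, 1062700⟩,
    ⟨179351, 1064260⟩, ⟨188319, 1065907⟩, ⟨197286, 1067644⟩, ⟨206254, 1069470⟩, ⟨215221, 1071387⟩,
    ⟨224189, 1073397⟩, ⟨233156, 1075501⟩, ⟨242124, 1077701⟩, ⟨251092, 1079998⟩, ⟨260059, 1082394⟩,
    ⟨269027, 1084891⟩, ⟨277994, 1087491⟩, ⟨286962, 1090196⟩, ⟨295929, 1093008⟩, ⟨304897, 1095929⟩,
    ⟨313864, 1098962⟩, ⟨322832, 1102110⟩]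
  zone₁ := [
    ⟨322832, 1102110⟩, ⟨328171, 1104039⟩, ⟨333509, 1106011⟩, ⟨338848, 1108025⟩, ⟨344186, 1110082⟩,
    ⟨349525, 1112183⟩, ⟨354864, 1114329⟩, ⟨360202, 1116520⟩, ⟨365541, 1118757⟩, ⟨370879, 1121041⟩,
    ⟨376218, 1123372⟩, ⟨381557, 1125752⟩, ⟨386895, 1128180⟩, ⟨392234, 1130659⟩, ⟨397572, 1133188⟩,
    ⟨402911, 1135769⟩, ⟨408250, 1138402⟩, ⟨413588, 1141088⟩, ⟨418927, 1143829⟩, ⟨424265, 1146625⟩,
    ⟨429604, 1149479⟩, ⟨434943, 1152389⟩, ⟨440281, 1155358⟩, ⟨445620, 1158386⟩, ⟨450958, 1161475⟩,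
    ⟨456297, 1164627⟩, ⟨461636, 1167842⟩, ⟨466974, 1171121⟩, ⟨472313, 1174467⟩, ⟨477651, 1177880⟩,
    ⟨482990, 1181362⟩, ⟨488329, 1184914⟩, ⟨493667, 1188537⟩, ⟨499006, 1192234⟩, ⟨504344, 1196006⟩,
    ⟨509683, 1199855⟩, ⟨515022, 1203783⟩, ⟨520360, 1207791⟩, ⟨525699, 1211881⟩, ⟨531037, 1216055⟩,
    ⟨536376, 1220316⟩, ⟨541715, 1224665⟩, ⟨547053, 1229104⟩, ⟨552392, 1233637⟩, ⟨557730, 1238264⟩,
    ⟨563069, 1242990⟩, ⟨568408, 1247816⟩, ⟨573746, 1252744⟩, ⟨579085, 1257779⟩, ⟨584423, 1262922⟩,
    ⟨589762, 1268177⟩]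
  zone₂ := [
    ⟨589762, 1268177⟩, ⟨608236, 1287269⟩, ⟨626456, 1307587⟩, ⟨644417, 1329218⟩, ⟨662116, 1352265⟩,
    ⟨679548, 1376838⟩, ⟨696711, 1403067⟩, ⟨713598, 1431092⟩, ⟨730207, 1461077⟩, ⟨746531, 1493203⟩,
    ⟨762567, 1527685⟩, ⟨778308, 1564758⟩, ⟨793750, 1604704⟩, ⟨808885, 1647837⟩, ⟨823709, 1694537⟩,
    ⟨838214, 1745237⟩, ⟨852392, 1800449⟩, ⟨866237, 1860788⟩, ⟨879740, 1926985⟩, ⟨892892, 1999921⟩,
    ⟨905684, 2080678⟩, ⟨918105, 2170581⟩, ⟨930143, 2271284⟩, ⟨941787, 2384902⟩, ⟨953022, 2514126⟩,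
    ⟨963833, 2662502⟩, ⟨974202, 2834753⟩, ⟨984110, 3037382⟩, ⟨993534, 3279542⟩, ⟨1002448, 3574639⟩,
    ⟨1010820, 3943092⟩, ⟨1018615, 4418058⟩, ⟨1025784, 5056693⟩, ⟨1032267, 5968518⟩,
    ⟨1037983, 7395628⟩, ⟨1042810, 10012567⟩, ⟨1046537, 16822382⟩]

theorem data32_wf : data32.wf = true := by decide +kernel

theorem data32_const : constOkLarge data32 = true := by decide +kernel

/-- A part of the boxes. -/
def part32_0 : Tree :=
  .cut₂ (.cut₁ (.out) (.out)) (.out)

theorem part32_0_ok : part32_0.check data32 0 524288 0 1048576 = true := by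
  decide +kernel

/-- A part of the boxes. -/
def part32_1 : Tree :=
  .cut₁ (.box 1144831 5184445) (.cut₂ (.out) (.cut₁ (.box 1057178 5184445) (.out)))

theorem part32_1_ok : part32_1.check data32 524288 1048576 0 524288 = true := by
  decide +kernel

/-- A part of the boxes. -/
def part32_2 : Tree :=
  .box 1144831 5184445

theorem part32_2_ok : part32_2.check data32 524288 786432 524288 1048576 = true := by
  decide +kernel

/-- A part of the boxes. -/
def part32_3 : Tree :=
  .box 1057178 5184445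

theorem part32_3_ok : part32_3.check data32 786432 917504 524288 786432 = true := by
  decide +kernel

/-- A part of the boxes. -/
def part32_4 : Tree :=
  .cut₁ (.box 1057178 5184445) (.box 1023698 5184445)

theorem part32_4_ok : part32_4.check data32 917504 1048576 524288 655360 = true := by
  decide +kernel

/-- A part of the boxes. -/
def part32_5 : Tree :=
  .cut₂ (.box 1044390 7164727) (.cut₁ (.box 1057178 3204163) (.box 1036486 3204163))

theorem part32_5_ok : part32_5.check data32 917504 983040 655360 786432 = true := by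
  decide +kernel

/-- A part of the boxes. -/
def part32_6 : Tree :=
  .cut₂ (.cut₁ (.box 1023698 3204163) (.box 1023698 3204163)) (.cut₁ (.box 1023698 3204163)
  (.box 1023698 1223881))

theorem part32_6_ok : part32_6.check data32 983040 1015808 655360 720896 = true := by
  decide +kernel

/-- A part of the boxes. -/
def part32_7 : Tree :=
  .cut₂ (.cut₁ (.box 1023698 3204163) (.box 1015794 1223881)) (.cut₁ (.box 1023698 756400)
  (.cut₂ (.cut₁ (.box 1015794 1223881) (.box 1015794 756400)) (.box 1018813 467481)))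

theorem part32_7_ok : part32_7.check data32 1015808 1048576 655360 720896 = true := by
  decide +kernel

/-- A part of the boxes. -/
def part32_8 : Tree :=
  .cut₁ (.cut₂ (.cut₁ (.box 1036486 3204163) (.box 1028583 1045320)) (.cut₁ (.box 1036486 1223881)
  (.box 1028583 866758))) (.cut₂ (.cut₁ (.box 1023698 646043) (.box 1016948 467481)) (.cut₁
  (.box 1023698 577838) (.box 1018813 288919)))

theorem part32_8_ok : part32_8.check data32 983040 1048576 720896 786432 = true := by
  decide +kernel

/-- A part of the boxes. -/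
def part32_9 : Tree :=
  .box 1057178 3204163

theorem part32_9_ok : part32_9.check data32 786432 917504 786432 1048576 = true := by
  decide +kernel

/-- A part of the boxes. -/
def part32_10 : Tree :=
  .cut₂ (.cut₁ (.box 1057178 3204163) (.box 1036486 3204163)) (.cut₁ (.box 1057178 3204163)
  (.cut₂ (.box 1057178 3204163) (.cut₁ (.box 1057178 3204163) (.cut₂ (.box 1057178 3204163)
  (.cut₁ (.box 1057178 3204163) (.box 1044390 1223881))))))

theorem part32_10_ok : part32_10.check data32 917504 983040 786432 917504 = true := by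
  decide +kernel

/-- A part of the boxes. -/
def part32_11 : Tree :=
  .cut₁ (.cut₂ (.cut₁ (.box 1036486 1223881) (.box 1028583 756400)) (.cut₁ (.box 1036486 1223881)
  (.box 1028583 756400))) (.cut₂ (.cut₁ (.box 1023698 467481) (.box 1020679 0)) (.box 1023698 220715))

theorem part32_11_ok : part32_11.check data32 983040 1048576 786432 851968 = true := by
  decide +kernel

/-- A part of the boxes. -/
def part32_12 : Tree :=
  .cut₁ (.cut₂ (.cut₁ (.box 1036486 1223881) (.box 1028583 756400)) (.cut₁ (.box 1036486 756400)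
  (.box 1028583 467481))) (.box 1023698 178562)

theorem part32_12_ok : part32_12.check data32 983040 1048576 851968 917504 = true := by
  decide +kernel

/-- A part of the boxes. -/
def part32_13 : Tree :=
  .cut₂ (.cut₁ (.out) (.cut₂ (.cut₁ (.out) (.cut₂ (.cut₁ (.out) (.cut₂ (.cut₁ (.box 1044390 1223881)
  (.cut₂ (.box 1036486 756400) (.box 1044390 577838))) (.cut₁ (.out) (.box 1044390 467481))))
  (.out))) (.out))) (.out)

theorem part32_13_ok : part32_13.check data32 917504 983040 917504 1048576 = true := by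
  decide +kernel

/-- A part of the boxes. -/
def part32_14 : Tree :=
  .cut₁ (.cut₂ (.box 1036486 756400) (.cut₁ (.cut₂ (.box 1036486 467481) (.box 1039505 467481))
  (.box 1036486 467481))) (.box 1036486 467481)

theorem part32_14_ok : part32_14.check data32 983040 999424 917504 933888 = true := by
  decide +kernel

/-- A part of the boxes. -/
def part32_15 : Tree :=
  .cut₁ (.cut₂ (.cut₁ (.box 1036486 0) (.box 1036486 0)) (.box 1036486 0)) (.box 1031602 110357)

theorem part32_15_ok : part32_15.check data32 983040 999424 933888 950272 = true := by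
  decide +kernel

/-- A part of the boxes. -/
def part32_16 : Tree :=
  .box 1028583 288919

theorem part32_16_ok : part32_16.check data32 999424 1015808 917504 950272 = true := by
  decide +kernel

/-- A part of the boxes. -/
def part32_17 : Tree :=
  .cut₁ (.box 1036486 0) (.box 1023698 0)

theorem part32_17_ok : part32_17.check data32 983040 1015808 950272 983040 = true := by
  decide +kernel

/-- A part of the boxes. -/
def part32_18 : Tree :=
  .box 1023698 0

theorem part32_18_ok : part32_18.check data32 1015808 1048576 917504 983040 = true := by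
  decide +kernel

/-- A part of the boxes. -/
def part32_19 : Tree :=
  .cut₁ (.box 1023698 0) (.box 1023698 0)

theorem part32_19_ok : part32_19.check data32 983040 1048576 983040 1048576 = true := by
  decide +kernel

/-- All the cuts in dimension 32. -/
def tree32 : Tree :=
  (Tree.cut₁ part32_0 (Tree.cut₂ part32_1 (Tree.cut₁ part32_2 (Tree.cut₂ (Tree.cut₁ part32_3
  (Tree.cut₂ part32_4 (Tree.cut₁ part32_5 (Tree.cut₂ (Tree.cut₁ part32_6 part32_7)
  part32_8)))) (Tree.cut₁ part32_9 (Tree.cut₂ (Tree.cut₁ part32_10 (Tree.cut₂ part32_11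
  part32_12)) (Tree.cut₁ part32_13 (Tree.cut₂ (Tree.cut₁ (Tree.cut₂ (Tree.cut₁ (Tree.cut₂
  part32_14 part32_15) part32_16) part32_17) part32_18) part32_19))))))))

theorem tree32_ok : tree32.check data32 0 unit 0 unit = true :=
    (check_cut₁ (c := 524288) (by norm_num [unit]) part32_0_ok (check_cut₂ (c := 524288) (by
    norm_num [unit]) part32_1_ok (check_cut₁ (c := 786432) (by norm_num [unit]) part32_2_ok
    (check_cut₂ (c := 786432) (by norm_num [unit]) (check_cut₁ (c := 917504) (by norm_num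
    [unit]) part32_3_ok (check_cut₂ (c := 655360) (by norm_num [unit]) part32_4_ok (check_cut₁
    (c := 983040) (by norm_num [unit]) part32_5_ok (check_cut₂ (c := 720896) (by norm_num
    [unit]) (check_cut₁ (c := 1015808) (by norm_num [unit]) part32_6_ok part32_7_ok)
    part32_8_ok)))) (check_cut₁ (c := 917504) (by norm_num [unit]) part32_9_ok (check_cut₂ (c := 917504)
    (by norm_num [unit]) (check_cut₁ (c := 983040) (by norm_num [unit]) part32_10_ok (check_cut₂
    (c := 851968) (by norm_num [unit]) part32_11_ok part32_12_ok)) (check_cut₁ (c := 983040) (by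
    norm_num [unit]) part32_13_ok (check_cut₂ (c := 983040) (by norm_num [unit]) (check_cut₁ (c
    := 1015808) (by norm_num [unit]) (check_cut₂ (c := 950272) (by norm_num [unit]) (check_cut₁
    (c := 999424) (by norm_num [unit]) (check_cut₂ (c := 933888) (by norm_num [unit])
    part32_14_ok part32_15_ok) part32_16_ok) part32_17_ok) part32_18_ok) part32_19_ok))))))))

end Vale.Agent.P237.Quant.WindowCert
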