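import Vale.Agent.P237.Quant.WindowCheck

/-!
The window certificate of the moment excess in dimension 33. The cuts are checked in parts, so
that no kernel computation grows too large.
-/

namespace Vale.Agent.P237.Quant.WindowCert

/-- The shared data in dimension 33. -/
def data33 : Cert where
  m := 32
  s := 318214
  q := 582758
  c := 1071679
  κ := 368681
  I := 65932
  zone₀ := [
    ⟨0, 1048577⟩, ⟨8839, 1048614⟩, ⟨17679, 1048726⟩, ⟨26518, 1048912⟩, ⟨35357, 1049173⟩,
    ⟨44196, 1049509⟩, ⟨53036, 1049920⟩, ⟨61875, 1050407⟩, ⟨70714, 1050969⟩, ⟨79554, 1051607⟩,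
    ⟨88393, 1052322⟩, ⟨97232, 1053114⟩, ⟨106071, 1053983⟩, ⟨114911, 1054930⟩, ⟨123750, 1055956⟩,
    ⟨132589, 1057061⟩, ⟨141428, 1058246⟩, ⟨150268, 1059512⟩, ⟨159107, 1060860⟩, ⟨167946, 1062291⟩,
    ⟨176786, 1063805⟩, ⟨185625, 1065403⟩, ⟨194464, 1067088⟩, ⟨203303, 1068859⟩, ⟨212143, 1070718⟩,
    ⟨220982, 1072667⟩, ⟨229821, 1074707⟩, ⟨238660, 1076839⟩, ⟨247500, 1079066⟩, ⟨256339, 1081388⟩,
    ⟨265178, 1083807⟩, ⟨274018, 1086325⟩, ⟨282857, 1088944⟩, ⟨291696, 1091667⟩, ⟨300535, 1094494⟩,
    ⟨309375, 1097430⟩, ⟨318214, 1100475⟩]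
  zone₁ := [
    ⟨318214, 1100475⟩, ⟨323505, 1102351⟩, ⟨328796, 1104268⟩, ⟨334087, 1106227⟩, ⟨339378, 1108227⟩,
    ⟨344668, 1110270⟩, ⟨349959, 1112356⟩, ⟨355250, 1114486⟩, ⟨360541, 1116661⟩, ⟨365832, 1118881⟩,
    ⟨371123, 1121146⟩, ⟨376414, 1123459⟩, ⟨381705, 1125819⟩, ⟨386995, 1128226⟩, ⟨392286, 1130683⟩,
    ⟨397577, 1133190⟩, ⟨402868, 1135748⟩, ⟨408159, 1138357⟩, ⟨413450, 1141018⟩, ⟨418741, 1143733⟩,
    ⟨424032, 1146502⟩, ⟨429322, 1149326⟩, ⟨434613, 1152207⟩, ⟨439904, 1155146⟩, ⟨445195, 1158143⟩,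
    ⟨450486, 1161200⟩, ⟨455777, 1164317⟩, ⟨461068, 1167497⟩, ⟨466359, 1170740⟩, ⟨471650, 1174048⟩,
    ⟨476940, 1177421⟩, ⟨482231, 1180862⟩, ⟨487522, 1184372⟩, ⟨492813, 1187952⟩, ⟨498104, 1191605⟩,
    ⟨503395, 1195330⟩, ⟨508686, 1199131⟩, ⟨513977, 1203008⟩, ⟨519267, 1206963⟩, ⟨524558, 1211000⟩,
    ⟨529849, 1215118⟩, ⟨535140, 1219321⟩, ⟨540431, 1223611⟩, ⟨545722, 1227988⟩, ⟨551013, 1232457⟩,
    ⟨556304, 1237018⟩, ⟨561594, 1241674⟩, ⟨566885, 1246429⟩, ⟨572176, 1251284⟩, ⟨577467, 1256242⟩,
    ⟨582758, 1261306⟩]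
  zone₂ := [
    ⟨582758, 1261306⟩, ⟨601514, 1280154⟩, ⟨620012, 1300222⟩, ⟨638247, 1321597⟩, ⟨656216, 1344380⟩,
    ⟨673915, 1368681⟩, ⟨691339, 1394626⟩, ⟨708485, 1422358⟩, ⟨725347, 1452036⟩, ⟨741921, 1483844⟩,
    ⟨758201, 1517987⟩, ⟨774183, 1554708⟩, ⟨789860, 1594278⟩, ⟨805226, 1637015⟩, ⟨820276, 1683292⟩,
    ⟨835002, 1733540⟩, ⟨849397, 1788270⟩, ⟨863454, 1848092⟩, ⟨877163, 1913724⟩, ⟨890516, 1986048⟩,
    ⟨903503, 2066131⟩, ⟨916113, 2155290⟩, ⟨928336, 2255183⟩, ⟨940157, 2367876⟩, ⟨951563, 2496059⟩,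
    ⟨962539, 2643254⟩, ⟨973066, 2814139⟩, ⟨983125, 3015170⟩, ⟨992693, 3255442⟩, ⟨1001743, 3548242⟩,
    ⟨1010244, 3913902⟩, ⟨1018157, 4385158⟩, ⟨1025436, 5018946⟩, ⟨1032018, 5923825⟩,
    ⟨1037821, 7340002⟩, ⟨1042722, 9937234⟩, ⟨1046506, 16696066⟩]

theorem data33_wf : data33.wf = true := by decide +kernel

theorem data33_const : constOkLarge data33 = true := by decide +kernel

/-- A part of the boxes. -/
def part33_0 : Tree :=
  .cut₂ (.cut₁ (.out) (.out)) (.out)

theorem part33_0_ok : part33_0.check data33 0 524288 0 1048576 = true := by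
  decide +kernel

/-- A part of the boxes. -/
def part33_1 : Tree :=
  .cut₁ (.box 1144831 5184445) (.cut₂ (.out) (.cut₁ (.box 1057178 5184445) (.out)))

theorem part33_1_ok : part33_1.check data33 524288 1048576 0 524288 = true := by
  decide +kernel

/-- A part of the boxes. -/
def part33_2 : Tree :=
  .box 1144831 5184445

theorem part33_2_ok : part33_2.check data33 524288 786432 524288 1048576 = true := by
  decide +kernel

/-- A part of the boxes. -/
def part33_3 : Tree :=
  .box 1057178 5184445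

theorem part33_3_ok : part33_3.check data33 786432 917504 524288 786432 = true := by
  decide +kernel

/-- A part of the boxes. -/
def part33_4 : Tree :=
  .cut₁ (.box 1057178 5184445) (.box 1036486 3204163)

theorem part33_4_ok : part33_4.check data33 917504 1048576 524288 655360 = true := by
  decide +kernel

/-- A part of the boxes. -/
def part33_5 : Tree :=
  .cut₂ (.box 1044390 6408326) (.cut₁ (.box 1057178 3204163) (.box 1036486 3204163))

theorem part33_5_ok : part33_5.check data33 917504 983040 655360 786432 = true := by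
  decide +kernel

/-- A part of the boxes. -/
def part33_6 : Tree :=
  .cut₂ (.box 1031602 7164727) (.cut₁ (.box 1023698 3204163) (.box 1028583 1223881))

theorem part33_6_ok : part33_6.check data33 983040 1015808 655360 720896 = true := by
  decide +kernel

/-- A part of the boxes. -/
def part33_7 : Tree :=
  .cut₂ (.cut₁ (.box 1023698 3204163) (.box 1023698 3204163)) (.cut₁ (.cut₂ (.box 1023698 1223881)
  (.box 1023698 756400)) (.cut₂ (.cut₁ (.box 1023698 1223881) (.box 1015794 1223881)) (.cut₁
  (.box 1023698 756400) (.box 1015794 756400))))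

theorem part33_7_ok : part33_7.check data33 1015808 1048576 655360 720896 = true := by
  decide +kernel

/-- A part of the boxes. -/
def part33_8 : Tree :=
  .cut₂ (.cut₁ (.box 1036486 3204163) (.box 1028583 1045320)) (.cut₁ (.box 1036486 1980282)
  (.cut₂ (.box 1028583 934962) (.box 1028583 934962)))

theorem part33_8_ok : part33_8.check data33 983040 1015808 720896 786432 = true := by
  decide +kernel

/-- A part of the boxes. -/
def part33_9 : Tree :=
  .cut₂ (.cut₁ (.cut₂ (.box 1023698 756400) (.box 1025564 646043)) (.box 1018813 467481))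
  (.cut₁ (.box 1025564 577838) (.box 1023698 288919))

theorem part33_9_ok : part33_9.check data33 1015808 1048576 720896 786432 = true := by
  decide +kernel

/-- A part of the boxes. -/
def part33_10 : Tree :=
  .box 1090659 3204163

theorem part33_10_ok : part33_10.check data33 786432 917504 786432 1048576 = true := by
  decide +kernel

/-- A part of the boxes. -/
def part33_11 : Tree :=
  .cut₂ (.cut₁ (.box 1057178 3204163) (.box 1036486 3204163)) (.cut₁ (.box 1057178 3204163)
  (.cut₂ (.box 1057178 3204163) (.cut₁ (.box 1057178 3204163) (.box 1044390 1223881))))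

theorem part33_11_ok : part33_11.check data33 917504 983040 786432 917504 = true := by
  decide +kernel

/-- A part of the boxes. -/
def part33_12 : Tree :=
  .cut₂ (.cut₁ (.box 1036486 1223881) (.cut₂ (.box 1028583 756400) (.box 1028583 756400)))
  (.cut₁ (.box 1036486 1223881) (.box 1028583 756400))

theorem part33_12_ok : part33_12.check data33 983040 1015808 786432 851968 = true := by
  decide +kernel

/-- A part of the boxes. -/
def part33_13 : Tree :=
  .cut₂ (.cut₁ (.box 1023698 467481) (.box 1023698 288919)) (.cut₁ (.box 1023698 467481) (.box 1023698 0))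

theorem part33_13_ok : part33_13.check data33 1015808 1048576 786432 851968 = true := by
  decide +kernel

/-- A part of the boxes. -/
def part33_14 : Tree :=
  .cut₁ (.cut₂ (.cut₁ (.box 1036486 1223881) (.box 1028583 756400)) (.cut₁ (.box 1036486 756400)
  (.box 1028583 467481))) (.box 1023698 178562)

theorem part33_14_ok : part33_14.check data33 983040 1048576 851968 917504 = true := by
  decide +kernel

/-- A part of the boxes. -/
def part33_15 : Tree :=
  .cut₂ (.cut₁ (.out) (.cut₂ (.cut₁ (.out) (.cut₂ (.cut₁ (.out) (.cut₂ (.cut₁ (.box 1049275 3204163)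
  (.box 1041371 756400)) (.cut₁ (.out) (.box 1044390 756400)))) (.out))) (.out))) (.out)

theorem part33_15_ok : part33_15.check data33 917504 983040 917504 1048576 = true := by
  decide +kernel

/-- A part of the boxes. -/
def part33_16 : Tree :=
  .cut₁ (.cut₂ (.box 1036486 756400) (.cut₁ (.cut₂ (.box 1040218 467481) (.box 1041371 467481))
  (.box 1036486 467481))) (.box 1036486 756400)

theorem part33_16_ok : part33_16.check data33 983040 999424 917504 933888 = true := by
  decide +kernel

/-- A part of the boxes. -/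
def part33_17 : Tree :=
  .cut₁ (.cut₂ (.cut₁ (.box 1044390 0) (.box 1039505 288919)) (.box 1036486 0)) (.cut₂ (.box 1033468 288919)
  (.box 1036486 0))

theorem part33_17_ok : part33_17.check data33 983040 999424 933888 950272 = true := by
  decide +kernel

/-- A part of the boxes. -/
def part33_18 : Tree :=
  .box 1028583 288919

theorem part33_18_ok : part33_18.check data33 999424 1015808 917504 950272 = true := by
  decide +kernel

/-- A part of the boxes. -/
def part33_19 : Tree :=
  .cut₁ (.cut₂ (.cut₁ (.out) (.box 1036486 0)) (.out)) (.box 1023698 0)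

theorem part33_19_ok : part33_19.check data33 983040 1015808 950272 983040 = true := by
  decide +kernel

/-- A part of the boxes. -/
def part33_20 : Tree :=
  .box 1023698 0

theorem part33_20_ok : part33_20.check data33 1015808 1048576 917504 983040 = true := by
  decide +kernel

/-- A part of the boxes. -/
def part33_21 : Tree :=
  .cut₁ (.box 1036486 0) (.box 1023698 0)

theorem part33_21_ok : part33_21.check data33 983040 1048576 983040 1048576 = true := by
  decide +kernel

/-- All the cuts in dimension 33. -/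
def tree33 : Tree :=
  (Tree.cut₁ part33_0 (Tree.cut₂ part33_1 (Tree.cut₁ part33_2 (Tree.cut₂ (Tree.cut₁ part33_3
  (Tree.cut₂ part33_4 (Tree.cut₁ part33_5 (Tree.cut₂ (Tree.cut₁ part33_6 part33_7) (Tree.cut₁
  part33_8 part33_9))))) (Tree.cut₁ part33_10 (Tree.cut₂ (Tree.cut₁ part33_11 (Tree.cut₂
  (Tree.cut₁ part33_12 part33_13) part33_14)) (Tree.cut₁ part33_15 (Tree.cut₂ (Tree.cut₁
  (Tree.cut₂ (Tree.cut₁ (Tree.cut₂ part33_16 part33_17) part33_18) part33_19) part33_20)
  part33_21))))))))

theorem tree33_ok : tree33.check data33 0 unit 0 unit = true :=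
    (check_cut₁ (c := 524288) (by norm_num [unit]) part33_0_ok (check_cut₂ (c := 524288) (by
    norm_num [unit]) part33_1_ok (check_cut₁ (c := 786432) (by norm_num [unit]) part33_2_ok
    (check_cut₂ (c := 786432) (by norm_num [unit]) (check_cut₁ (c := 917504) (by norm_num
    [unit]) part33_3_ok (check_cut₂ (c := 655360) (by norm_num [unit]) part33_4_ok (check_cut₁
    (c := 983040) (by norm_num [unit]) part33_5_ok (check_cut₂ (c := 720896) (by norm_num
    [unit]) (check_cut₁ (c := 1015808) (by norm_num [unit]) part33_6_ok part33_7_ok) (check_cut₁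
    (c := 1015808) (by norm_num [unit]) part33_8_ok part33_9_ok))))) (check_cut₁ (c := 917504)
    (by norm_num [unit]) part33_10_ok (check_cut₂ (c := 917504) (by norm_num [unit]) (check_cut₁
    (c := 983040) (by norm_num [unit]) part33_11_ok (check_cut₂ (c := 851968) (by norm_num
    [unit]) (check_cut₁ (c := 1015808) (by norm_num [unit]) part33_12_ok part33_13_ok)
    part33_14_ok)) (check_cut₁ (c := 983040) (by norm_num [unit]) part33_15_ok (check_cut₂ (c := 983040)
    (by norm_num [unit]) (check_cut₁ (c := 1015808) (by norm_num [unit]) (check_cut₂ (c := 950272)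
    (by norm_num [unit]) (check_cut₁ (c := 999424) (by norm_num [unit]) (check_cut₂ (c := 933888)
    (by norm_num [unit]) part33_16_ok part33_17_ok) part33_18_ok) part33_19_ok) part33_20_ok)
    part33_21_ok))))))))

end Vale.Agent.P237.Quant.WindowCert
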