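import Vale.Agent.P237.Quant.WindowCheck

/-!
The window certificate of the moment excess in dimension 34. The cuts are checked in parts, so
that no kernel computation grows too large.
-/

namespace Vale.Agent.P237.Quant.WindowCert

/-- The shared data in dimension 34. -/
def data34 : Cert where
  m := 33
  s := 313788
  q := 575995
  c := 1070993
  κ := 363464
  I := 66409
  zone₀ := [
    ⟨0, 1048577⟩, ⟨8716, 1048613⟩, ⟨17433, 1048721⟩, ⟨26149, 1048903⟩, ⟨34865, 1049157⟩,
    ⟨43582, 1049483⟩, ⟨52298, 1049883⟩, ⟨61014, 1050356⟩, ⟨69731, 1050903⟩, ⟨78447, 1051523⟩,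
    ⟨87163, 1052218⟩, ⟨95880, 1052988⟩, ⟨104596, 1053833⟩, ⟨113312, 1054753⟩, ⟨122029, 1055750⟩,
    ⟨130745, 1056824⟩, ⟨139461, 1057976⟩, ⟨148178, 1059206⟩, ⟨156894, 1060515⟩, ⟨165610, 1061904⟩,
    ⟨174327, 1063375⟩, ⟨183043, 1064927⟩, ⟨191759, 1066563⟩, ⟨200476, 1068283⟩, ⟨209192, 1070088⟩,
    ⟨217908, 1071979⟩, ⟨226625, 1073959⟩, ⟨235341, 1076028⟩, ⟨244057, 1078187⟩, ⟨252774, 1080440⟩,
    ⟨261490, 1082785⟩, ⟨270206, 1085227⟩, ⟨278923, 1087766⟩, ⟨287639, 1090404⟩, ⟨296355, 1093144⟩,
    ⟨305072, 1095987⟩, ⟨313788, 1098936⟩]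
  zone₁ := [
    ⟨313788, 1098936⟩, ⟨319032, 1100762⟩, ⟨324276, 1102628⟩, ⟨329520, 1104534⟩, ⟨334765, 1106481⟩,
    ⟨340009, 1108468⟩, ⟨345253, 1110498⟩, ⟨350497, 1112571⟩, ⟨355741, 1114686⟩, ⟨360985, 1116845⟩,
    ⟨366229, 1119049⟩, ⟨371474, 1121298⟩, ⟨376718, 1123593⟩, ⟨381962, 1125934⟩, ⟨387206, 1128323⟩,
    ⟨392450, 1130760⟩, ⟨397694, 1133246⟩, ⟨402938, 1135782⟩, ⟨408183, 1138369⟩, ⟨413427, 1141006⟩,
    ⟨418671, 1143697⟩, ⟨423915, 1146440⟩, ⟨429159, 1149239⟩, ⟨434403, 1152092⟩, ⟨439647, 1155002⟩,
    ⟨444892, 1157970⟩, ⟨450136, 1160996⟩, ⟨455380, 1164081⟩, ⟨460624, 1167228⟩, ⟨465868, 1170437⟩,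
    ⟨471112, 1173709⟩, ⟨476356, 1177046⟩, ⟨481600, 1180448⟩, ⟨486845, 1183919⟩, ⟨492089, 1187458⟩,
    ⟨497333, 1191068⟩, ⟨502577, 1194749⟩, ⟨507821, 1198504⟩, ⟨513065, 1202334⟩, ⟨518309, 1206241⟩,
    ⟨523554, 1210228⟩, ⟨528798, 1214294⟩, ⟨534042, 1218442⟩, ⟨539286, 1222675⟩, ⟨544530, 1226994⟩,
    ⟨549774, 1231402⟩, ⟨555018, 1235901⟩, ⟨560263, 1240494⟩, ⟨565507, 1245181⟩, ⟨570751, 1249966⟩,
    ⟨575995, 1254852⟩]
  zone₂ := [
    ⟨575995, 1254852⟩, ⟨595024, 1273469⟩, ⟨613790, 1293299⟩, ⟨632290, 1314430⟩, ⟨650520, 1336962⟩,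
    ⟨668475, 1361002⟩, ⟨686153, 1386680⟩, ⟨703547, 1414132⟩, ⟨720654, 1443519⟩, ⟨737468, 1475021⟩,
    ⟨753985, 1508847⟩, ⟨770199, 1545232⟩, ⟨786104, 1584449⟩, ⟨801693, 1626810⟩, ⟨816962, 1672690⟩,
    ⟨831902, 1722513⟩, ⟨846506, 1776786⟩, ⟨860766, 1836110⟩, ⟨874674, 1901209⟩, ⟨888221, 1972953⟩,
    ⟨901397, 2052403⟩, ⟨914190, 2140862⟩, ⟨926590, 2239975⟩, ⟨938583, 2351804⟩, ⟨950155, 2479013⟩,
    ⟨961290, 2625089⟩, ⟨971970, 2794693⟩, ⟨982175, 2994224⟩, ⟨991882, 3232716⟩, ⟨1001063, 3523343⟩,
    ⟨1009688, 3886347⟩, ⟨1017716, 4354177⟩, ⟨1025100, 4983304⟩, ⟨1031778, 5881694⟩,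
    ⟨1037665, 7287614⟩, ⟨1042637, 9866067⟩, ⟨1046476, 16576498⟩]

theorem data34_wf : data34.wf = true := by decide +kernel

theorem data34_const : constOkLarge data34 = true := by decide +kernel

/-- A part of the boxes. -/
def part34_0 : Tree :=
  .cut₂ (.cut₁ (.out) (.out)) (.out)

theorem part34_0_ok : part34_0.check data34 0 524288 0 1048576 = true := by
  decide +kernel

/-- A part of the boxes. -/
def part34_1 : Tree :=
  .cut₁ (.box 1144831 5184445) (.cut₂ (.out) (.cut₁ (.box 1057178 5184445) (.out)))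

theorem part34_1_ok : part34_1.check data34 524288 1048576 0 524288 = true := by
  decide +kernel

/-- A part of the boxes. -/
def part34_2 : Tree :=
  .box 1144831 5184445

theorem part34_2_ok : part34_2.check data34 524288 786432 524288 1048576 = true := by
  decide +kernel

/-- A part of the boxes. -/
def part34_3 : Tree :=
  .box 1057178 5184445

theorem part34_3_ok : part34_3.check data34 786432 917504 524288 786432 = true := by
  decide +kernel

/-- A part of the boxes. -/
def part34_4 : Tree :=
  .cut₁ (.box 1057178 5184445) (.box 1036486 3204163)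

theorem part34_4_ok : part34_4.check data34 917504 1048576 524288 655360 = true := by
  decide +kernel

/-- A part of the boxes. -/
def part34_5 : Tree :=
  .cut₂ (.box 1036486 6408326) (.cut₁ (.box 1057178 3204163) (.box 1036486 3204163))

theorem part34_5_ok : part34_5.check data34 917504 983040 655360 786432 = true := by
  decide +kernel

/-- A part of the boxes. -/
def part34_6 : Tree :=
  .cut₂ (.box 1036486 5184445) (.cut₁ (.box 1023698 3204163) (.box 1028583 1980282))

theorem part34_6_ok : part34_6.check data34 983040 1015808 655360 720896 = true := by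
  decide +kernel

/-- A part of the boxes. -/
def part34_7 : Tree :=
  .cut₁ (.box 1023698 3204163) (.box 1023698 3204163)

theorem part34_7_ok : part34_7.check data34 1015808 1048576 655360 688128 = true := by
  decide +kernel

/-- A part of the boxes. -/
def part34_8 : Tree :=
  .cut₁ (.cut₂ (.box 1023698 1223881) (.cut₁ (.box 1023698 1980282) (.box 1023698 1223881)))
  (.cut₂ (.cut₁ (.box 1023698 1980282) (.box 1018813 1980282)) (.cut₁ (.box 1023698 756400)
  (.box 1015794 756400)))

theorem part34_8_ok : part34_8.check data34 1015808 1048576 688128 720896 = true := by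
  decide +kernel

/-- A part of the boxes. -/
def part34_9 : Tree :=
  .cut₂ (.cut₁ (.box 1036486 3204163) (.box 1029736 1045320)) (.cut₁ (.box 1036486 3204163)
  (.cut₂ (.box 1028583 1045320) (.box 1030449 934962)))

theorem part34_9_ok : part34_9.check data34 983040 1015808 720896 786432 = true := by
  decide +kernel

/-- A part of the boxes. -/
def part34_10 : Tree :=
  .cut₁ (.cut₂ (.cut₁ (.box 1023698 1223881) (.box 1023698 756400)) (.box 1025564 714248))
  (.cut₂ (.cut₁ (.box 1020679 756400) (.box 1015794 467481)) (.box 1018813 467481))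

theorem part34_10_ok : part34_10.check data34 1015808 1048576 720896 753664 = true := by
  decide +kernel

/-- A part of the boxes. -/
def part34_11 : Tree :=
  .cut₁ (.cut₂ (.box 1025564 646043) (.box 1026717 577838)) (.box 1023698 288919)

theorem part34_11_ok : part34_11.check data34 1015808 1048576 753664 786432 = true := by
  decide +kernel

/-- A part of the boxes. -/
def part34_12 : Tree :=
  .box 1090659 3204163

theorem part34_12_ok : part34_12.check data34 786432 917504 786432 1048576 = true := by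
  decide +kernel

/-- A part of the boxes. -/
def part34_13 : Tree :=
  .cut₂ (.cut₁ (.box 1057178 3204163) (.box 1057178 3204163)) (.cut₁ (.box 1057178 3204163)
  (.cut₂ (.box 1057178 3204163) (.cut₁ (.box 1057178 3204163) (.box 1057178 3204163))))

theorem part34_13_ok : part34_13.check data34 917504 983040 786432 917504 = true := by
  decide +kernel

/-- A part of the boxes. -/
def part34_14 : Tree :=
  .cut₂ (.cut₁ (.box 1031602 1980282) (.cut₂ (.box 1031602 866758) (.box 1031602 756400)))
  (.cut₁ (.box 1036486 1223881) (.box 1031602 756400))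

theorem part34_14_ok : part34_14.check data34 983040 1015808 786432 851968 = true := by
  decide +kernel

/-- A part of the boxes. -/
def part34_15 : Tree :=
  .cut₂ (.cut₁ (.box 1025564 577838) (.box 1023698 288919)) (.cut₁ (.box 1023698 467481) (.box 1023698 0))

theorem part34_15_ok : part34_15.check data34 1015808 1048576 786432 851968 = true := by
  decide +kernel

/-- A part of the boxes. -/
def part34_16 : Tree :=
  .cut₁ (.cut₂ (.cut₁ (.box 1036486 1223881) (.box 1028583 756400)) (.cut₁ (.box 1036486 756400)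
  (.box 1030449 756400))) (.box 1025564 178562)

theorem part34_16_ok : part34_16.check data34 983040 1048576 851968 917504 = true := by
  decide +kernel

/-- A part of the boxes. -/
def part34_17 : Tree :=
  .cut₂ (.cut₁ (.out) (.cut₂ (.cut₁ (.out) (.cut₂ (.cut₁ (.out) (.cut₂ (.box 1044390 1223881)
  (.cut₁ (.out) (.box 1044390 1223881)))) (.out))) (.out))) (.out)

theorem part34_17_ok : part34_17.check data34 917504 983040 917504 1048576 = true := by
  decide +kernel

/-- A part of the boxes. -/
def part34_18 : Tree :=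
  .cut₁ (.cut₂ (.box 1044390 1223881) (.cut₁ (.cut₂ (.box 1044390 756400) (.box 1041371 577838))
  (.box 1039505 756400))) (.box 1036486 756400)

theorem part34_18_ok : part34_18.check data34 983040 999424 917504 933888 = true := by
  decide +kernel

/-- A part of the boxes. -/
def part34_19 : Tree :=
  .cut₁ (.cut₂ (.cut₁ (.box 1044390 467481) (.cut₂ (.box 1039505 467481) (.box 1036486 288919)))
  (.box 1044390 0)) (.cut₂ (.cut₁ (.box 1036486 467481) (.box 1036486 467481)) (.cut₁ (.box 1036486 0)
  (.box 1036486 0)))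

theorem part34_19_ok : part34_19.check data34 983040 999424 933888 950272 = true := by
  decide +kernel

/-- A part of the boxes. -/
def part34_20 : Tree :=
  .box 1030449 288919

theorem part34_20_ok : part34_20.check data34 999424 1015808 917504 950272 = true := by
  decide +kernel

/-- A part of the boxes. -/
def part34_21 : Tree :=
  .cut₁ (.cut₂ (.cut₁ (.out) (.box 1036486 0)) (.out)) (.box 1023698 0)

theorem part34_21_ok : part34_21.check data34 983040 1015808 950272 983040 = true := by
  decide +kernel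

/-- A part of the boxes. -/
def part34_22 : Tree :=
  .box 1023698 0

theorem part34_22_ok : part34_22.check data34 1015808 1048576 917504 983040 = true := by
  decide +kernel

/-- A part of the boxes. -/
def part34_23 : Tree :=
  .cut₁ (.box 1036486 0) (.box 1023698 0)

theorem part34_23_ok : part34_23.check data34 983040 1048576 983040 1048576 = true := by
  decide +kernel

/-- All the cuts in dimension 34. -/
def tree34 : Tree :=
  (Tree.cut₁ part34_0 (Tree.cut₂ part34_1 (Tree.cut₁ part34_2 (Tree.cut₂ (Tree.cut₁ part34_3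
  (Tree.cut₂ part34_4 (Tree.cut₁ part34_5 (Tree.cut₂ (Tree.cut₁ part34_6 (Tree.cut₂ part34_7
  part34_8)) (Tree.cut₁ part34_9 (Tree.cut₂ part34_10 part34_11)))))) (Tree.cut₁ part34_12
  (Tree.cut₂ (Tree.cut₁ part34_13 (Tree.cut₂ (Tree.cut₁ part34_14 part34_15) part34_16))
  (Tree.cut₁ part34_17 (Tree.cut₂ (Tree.cut₁ (Tree.cut₂ (Tree.cut₁ (Tree.cut₂ part34_18
  part34_19) part34_20) part34_21) part34_22) part34_23))))))))

theorem tree34_ok : tree34.check data34 0 unit 0 unit = true :=
    (check_cut₁ (c := 524288) (by norm_num [unit]) part34_0_ok (check_cut₂ (c := 524288) (by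
    norm_num [unit]) part34_1_ok (check_cut₁ (c := 786432) (by norm_num [unit]) part34_2_ok
    (check_cut₂ (c := 786432) (by norm_num [unit]) (check_cut₁ (c := 917504) (by norm_num
    [unit]) part34_3_ok (check_cut₂ (c := 655360) (by norm_num [unit]) part34_4_ok (check_cut₁
    (c := 983040) (by norm_num [unit]) part34_5_ok (check_cut₂ (c := 720896) (by norm_num
    [unit]) (check_cut₁ (c := 1015808) (by norm_num [unit]) part34_6_ok (check_cut₂ (c := 688128)
    (by norm_num [unit]) part34_7_ok part34_8_ok)) (check_cut₁ (c := 1015808) (by norm_num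
    [unit]) part34_9_ok (check_cut₂ (c := 753664) (by norm_num [unit]) part34_10_ok
    part34_11_ok)))))) (check_cut₁ (c := 917504) (by norm_num [unit]) part34_12_ok (check_cut₂
    (c := 917504) (by norm_num [unit]) (check_cut₁ (c := 983040) (by norm_num [unit])
    part34_13_ok (check_cut₂ (c := 851968) (by norm_num [unit]) (check_cut₁ (c := 1015808) (by
    norm_num [unit]) part34_14_ok part34_15_ok) part34_16_ok)) (check_cut₁ (c := 983040) (by
    norm_num [unit]) part34_17_ok (check_cut₂ (c := 983040) (by norm_num [unit]) (check_cut₁ (c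
    := 1015808) (by norm_num [unit]) (check_cut₂ (c := 950272) (by norm_num [unit]) (check_cut₁
    (c := 999424) (by norm_num [unit]) (check_cut₂ (c := 933888) (by norm_num [unit])
    part34_18_ok part34_19_ok) part34_20_ok) part34_21_ok) part34_22_ok) part34_23_ok))))))))

end Vale.Agent.P237.Quant.WindowCert
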