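import Vale.Agent.P237.Quant.WindowCheck

/-!
The window certificate of the moment excess in dimension 36. The cuts are checked in parts, so
that no kernel computation grows too large.
-/

namespace Vale.Agent.P237.Quant.WindowCert

/-- The shared data in dimension 36. -/
def data36 : Cert where
  m := 35
  s := 305463
  q := 563137
  c := 1069736
  κ := 353659
  I := 67304
  zone₀ := [
    ⟨0, 1048577⟩, ⟨8485, 1048611⟩, ⟨16970, 1048714⟩, ⟨25455, 1048886⟩, ⟨33940, 1049126⟩,
    ⟨42425, 1049436⟩, ⟨50910, 1049815⟩, ⟨59396, 1050263⟩, ⟨67881, 1050781⟩, ⟨76366, 1051368⟩,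
    ⟨84851, 1052027⟩, ⟨93336, 1052755⟩, ⟨101821, 1053555⟩, ⟨110306, 1054427⟩, ⟨118791, 1055371⟩,
    ⟨127276, 1056387⟩, ⟨135761, 1057477⟩, ⟨144246, 1058641⟩, ⟨152732, 1059880⟩, ⟨161217, 1061194⟩,
    ⟨169702, 1062585⟩, ⟨178187, 1064052⟩, ⟨186672, 1065598⟩, ⟨195157, 1067223⟩, ⟨203642, 1068929⟩,
    ⟨212127, 1070715⟩, ⟨220612, 1072584⟩, ⟨229097, 1074537⟩, ⟨237582, 1076574⟩, ⟨246067, 1078698⟩,
    ⟨254552, 1080910⟩, ⟨263038, 1083212⟩, ⟨271523, 1085604⟩, ⟨280008, 1088089⟩, ⟨288493, 1090668⟩,
    ⟨296978, 1093344⟩, ⟨305463, 1096117⟩]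
  zone₁ := [
    ⟨305463, 1096117⟩, ⟨310616, 1097851⟩, ⟨315770, 1099622⟩, ⟨320923, 1101430⟩, ⟨326077, 1103278⟩,
    ⟨331230, 1105164⟩, ⟨336384, 1107090⟩, ⟨341537, 1109056⟩, ⟨346691, 1111062⟩, ⟨351844, 1113110⟩,
    ⟨356998, 1115200⟩, ⟨362151, 1117331⟩, ⟨367305, 1119507⟩, ⟨372458, 1121725⟩, ⟨377612, 1123989⟩,
    ⟨382765, 1126297⟩, ⟨387919, 1128652⟩, ⟨393072, 1131052⟩, ⟨398226, 1133501⟩, ⟨403379, 1135997⟩,
    ⟨408533, 1138543⟩, ⟨413686, 1141138⟩, ⟨418840, 1143784⟩, ⟨423993, 1146482⟩, ⟨429147, 1149232⟩,
    ⟨434300, 1152035⟩, ⟨439453, 1154893⟩, ⟨444607, 1157807⟩, ⟨449760, 1160777⟩, ⟨454914, 1163805⟩,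
    ⟨460067, 1166891⟩, ⟨465221, 1170037⟩, ⟨470374, 1173244⟩, ⟨475528, 1176514⟩, ⟨480681, 1179847⟩,
    ⟨485835, 1183246⟩, ⟨490988, 1186710⟩, ⟨496142, 1190242⟩, ⟨501295, 1193843⟩, ⟨506449, 1197515⟩,
    ⟨511602, 1201258⟩, ⟨516756, 1205076⟩, ⟨521909, 1208969⟩, ⟨527063, 1212939⟩, ⟨532216, 1216988⟩,
    ⟨537370, 1221119⟩, ⟨542523, 1225331⟩, ⟨547677, 1229629⟩, ⟨552830, 1234013⟩, ⟨557984, 1238487⟩,
    ⟨563137, 1243051⟩]
  zone₂ := [
    ⟨563137, 1243051⟩, ⟨582683, 1261233⟩, ⟨601960, 1280620⟩, ⟨620963, 1301296⟩, ⟨639689, 1323360⟩,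
    ⟨658134, 1346920⟩, ⟨676292, 1372097⟩, ⟨694159, 1399030⟩, ⟨711732, 1427878⟩, ⟨729004, 1458818⟩,
    ⟨745970, 1492052⟩, ⟨762625, 1527815⟩, ⟨778962, 1566374⟩, ⟨794976, 1608043⟩, ⟨810660, 1653183⟩,
    ⟨826006, 1702215⟩, ⟨841008, 1755645⟩, ⟨855656, 1814059⟩, ⟨869943, 1878175⟩, ⟨883858, 1948844⟩,
    ⟨897392, 2027119⟩, ⟨910534, 2114292⟩, ⟨923271, 2211969⟩, ⟨935590, 2322195⟩, ⟨947477, 2447600⟩,
    ⟨958915, 2591620⟩, ⟨969886, 2758861⟩, ⟨980369, 2955632⟩, ⟨990339, 3190809⟩, ⟨999771, 3477491⟩,
    ⟨1008629, 3835474⟩, ⟨1016876, 4296974⟩, ⟨1024461, 4917594⟩, ⟨1031321, 5803921⟩,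
    ⟨1037368, 7190920⟩, ⟨1042475, 9734576⟩, ⟨1046419, 16356232⟩]

theorem data36_wf : data36.wf = true := by decide +kernel

theorem data36_const : constOkLarge data36 = true := by decide +kernel

/-- A part of the boxes. -/
def part36_0 : Tree :=
  .cut₂ (.cut₁ (.out) (.out)) (.out)

theorem part36_0_ok : part36_0.check data36 0 524288 0 1048576 = true := by
  decide +kernel

/-- A part of the boxes. -/
def part36_1 : Tree :=
  .cut₁ (.box 1111351 5184445) (.cut₂ (.out) (.cut₁ (.box 1057178 5184445) (.out)))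

theorem part36_1_ok : part36_1.check data36 524288 1048576 0 524288 = true := by
  decide +kernel

/-- A part of the boxes. -/
def part36_2 : Tree :=
  .box 1144831 5184445

theorem part36_2_ok : part36_2.check data36 524288 786432 524288 1048576 = true := by
  decide +kernel

/-- A part of the boxes. -/
def part36_3 : Tree :=
  .box 1057178 5184445

theorem part36_3_ok : part36_3.check data36 786432 917504 524288 786432 = true := by
  decide +kernel

/-- A part of the boxes. -/
def part36_4 : Tree :=
  .cut₁ (.box 1057178 5184445) (.box 1036486 3204163)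

theorem part36_4_ok : part36_4.check data36 917504 1048576 524288 655360 = true := by
  decide +kernel

/-- A part of the boxes. -/
def part36_5 : Tree :=
  .cut₂ (.box 1044390 5184445) (.box 1044390 6408326)

theorem part36_5_ok : part36_5.check data36 917504 983040 655360 786432 = true := by
  decide +kernel

/-- A part of the boxes. -/
def part36_6 : Tree :=
  .cut₂ (.box 1036486 3204163) (.cut₁ (.box 1036486 3204163) (.box 1036486 3204163))

theorem part36_6_ok : part36_6.check data36 983040 1015808 655360 720896 = true := by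
  decide +kernel

/-- A part of the boxes. -/
def part36_7 : Tree :=
  .cut₂ (.box 1023698 3204163) (.cut₁ (.cut₂ (.box 1023698 3204163) (.cut₁ (.box 1023698 3204163)
  (.box 1023698 1980282))) (.cut₂ (.box 1023698 3204163) (.cut₁ (.box 1023698 1223881) (.box 1023698 756400))))

theorem part36_7_ok : part36_7.check data36 1015808 1048576 655360 720896 = true := by
  decide +kernel

/-- A part of the boxes. -/
def part36_8 : Tree :=
  .cut₂ (.cut₁ (.box 1036486 3204163) (.cut₂ (.box 1031602 1223881) (.box 1031161 1155677)))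
  (.cut₁ (.box 1036486 3204163) (.cut₂ (.cut₁ (.box 1036486 3204163) (.box 1028583 1223881))
  (.cut₁ (.box 1036486 1980282) (.box 1028583 1223881))))

theorem part36_8_ok : part36_8.check data36 983040 1015808 720896 786432 = true := by
  decide +kernel

/-- A part of the boxes. -/
def part36_9 : Tree :=
  .cut₁ (.cut₂ (.cut₁ (.box 1026717 1980282) (.box 1023698 1223881)) (.cut₁ (.box 1023698 1223881)
  (.box 1023698 756400))) (.cut₂ (.cut₁ (.box 1023698 756400) (.box 1023698 467481)) (.cut₁
  (.box 1023698 756400) (.box 1020679 467481)))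

theorem part36_9_ok : part36_9.check data36 1015808 1048576 720896 753664 = true := by
  decide +kernel

/-- A part of the boxes. -/
def part36_10 : Tree :=
  .cut₁ (.cut₂ (.cut₁ (.box 1028583 756400) (.box 1023698 756400)) (.cut₁ (.box 1028583 756400)
  (.box 1023698 756400))) (.box 1023698 357124)

theorem part36_10_ok : part36_10.check data36 1015808 1048576 753664 786432 = true := by
  decide +kernel

/-- A part of the boxes. -/
def part36_11 : Tree :=
  .box 1090659 3204163

theorem part36_11_ok : part36_11.check data36 786432 917504 786432 1048576 = true := by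
  decide +kernel

/-- A part of the boxes. -/
def part36_12 : Tree :=
  .cut₂ (.box 1057178 5184445) (.cut₁ (.box 1057178 3204163) (.box 1057178 3204163))

theorem part36_12_ok : part36_12.check data36 917504 983040 786432 917504 = true := by
  decide +kernel

/-- A part of the boxes. -/
def part36_13 : Tree :=
  .cut₁ (.box 1036486 3204163) (.cut₂ (.cut₁ (.box 1031602 1980282) (.box 1028583 1223881))
  (.cut₁ (.box 1036486 1223881) (.box 1031602 756400)))

theorem part36_13_ok : part36_13.check data36 983040 1015808 786432 819200 = true := by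
  decide +kernel

/-- A part of the boxes. -/
def part36_14 : Tree :=
  .cut₁ (.box 1036486 1980282) (.cut₂ (.cut₁ (.box 1036486 1223881) (.box 1031602 756400))
  (.box 1031602 756400))

theorem part36_14_ok : part36_14.check data36 983040 1015808 819200 851968 = true := by
  decide +kernel

/-- A part of the boxes. -/
def part36_15 : Tree :=
  .cut₂ (.cut₁ (.cut₂ (.cut₁ (.box 1023698 756400) (.box 1023698 756400)) (.box 1028583 577838))
  (.box 1023698 288919)) (.cut₁ (.box 1028583 467481) (.box 1023698 0))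

theorem part36_15_ok : part36_15.check data36 1015808 1048576 786432 851968 = true := by
  decide +kernel

/-- A part of the boxes. -/
def part36_16 : Tree :=
  .cut₁ (.cut₂ (.cut₁ (.box 1036486 1980282) (.box 1031602 756400)) (.cut₁ (.box 1036486 1223881)
  (.box 1031602 756400))) (.cut₂ (.cut₁ (.box 1028583 467481) (.box 1023698 0)) (.box 1028583 178562))

theorem part36_16_ok : part36_16.check data36 983040 1048576 851968 917504 = true := by
  decide +kernel

/-- A part of the boxes. -/
def part36_17 : Tree :=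
  .cut₂ (.cut₁ (.out) (.cut₂ (.cut₁ (.out) (.box 1057178 3204163)) (.out))) (.out)

theorem part36_17_ok : part36_17.check data36 917504 983040 917504 1048576 = true := by
  decide +kernel

/-- A part of the boxes. -/
def part36_18 : Tree :=
  .cut₁ (.box 1043237 1045320) (.box 1036486 756400)

theorem part36_18_ok : part36_18.check data36 983040 999424 917504 933888 = true := by
  decide +kernel

/-- A part of the boxes. -/
def part36_19 : Tree :=
  .cut₂ (.cut₁ (.box 1044390 756400) (.cut₂ (.box 1042524 756400) (.cut₁ (.box 1044390 756400)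
  (.box 1044390 467481)))) (.cut₁ (.out) (.box 1044390 0))

theorem part36_19_ok : part36_19.check data36 983040 991232 933888 950272 = true := by
  decide +kernel

/-- A part of the boxes. -/
def part36_20 : Tree :=
  .cut₂ (.cut₁ (.cut₂ (.box 1036486 756400) (.box 1039505 467481)) (.box 1036486 756400))
  (.cut₁ (.cut₂ (.box 1039505 288919) (.box 1036486 0)) (.box 1036486 288919))

theorem part36_20_ok : part36_20.check data36 991232 999424 933888 950272 = true := by
  decide +kernel

/-- A part of the boxes. -/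
def part36_21 : Tree :=
  .cut₂ (.box 1036486 467481) (.box 1031602 467481)

theorem part36_21_ok : part36_21.check data36 999424 1015808 917504 950272 = true := by
  decide +kernel

/-- A part of the boxes. -/
def part36_22 : Tree :=
  .cut₁ (.cut₂ (.cut₁ (.out) (.box 1039505 110357)) (.out)) (.box 1031602 0)

theorem part36_22_ok : part36_22.check data36 983040 1015808 950272 983040 = true := by
  decide +kernel

/-- A part of the boxes. -/
def part36_23 : Tree :=
  .box 1023698 0

theorem part36_23_ok : part36_23.check data36 1015808 1048576 917504 983040 = true := by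
  decide +kernel

/-- A part of the boxes. -/
def part36_24 : Tree :=
  .cut₁ (.box 1036486 0) (.cut₂ (.box 1023698 0) (.box 1023698 0))

theorem part36_24_ok : part36_24.check data36 983040 1048576 983040 1048576 = true := by
  decide +kernel

/-- All the cuts in dimension 36. -/
def tree36 : Tree :=
  (Tree.cut₁ part36_0 (Tree.cut₂ part36_1 (Tree.cut₁ part36_2 (Tree.cut₂ (Tree.cut₁ part36_3
  (Tree.cut₂ part36_4 (Tree.cut₁ part36_5 (Tree.cut₂ (Tree.cut₁ part36_6 part36_7) (Tree.cut₁
  part36_8 (Tree.cut₂ part36_9 part36_10)))))) (Tree.cut₁ part36_11 (Tree.cut₂ (Tree.cut₁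
  part36_12 (Tree.cut₂ (Tree.cut₁ (Tree.cut₂ part36_13 part36_14) part36_15) part36_16))
  (Tree.cut₁ part36_17 (Tree.cut₂ (Tree.cut₁ (Tree.cut₂ (Tree.cut₁ (Tree.cut₂ part36_18
  (Tree.cut₁ part36_19 part36_20)) part36_21) part36_22) part36_23) part36_24))))))))

theorem tree36_ok : tree36.check data36 0 unit 0 unit = true :=
    (check_cut₁ (c := 524288) (by norm_num [unit]) part36_0_ok (check_cut₂ (c := 524288) (by
    norm_num [unit]) part36_1_ok (check_cut₁ (c := 786432) (by norm_num [unit]) part36_2_ok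
    (check_cut₂ (c := 786432) (by norm_num [unit]) (check_cut₁ (c := 917504) (by norm_num
    [unit]) part36_3_ok (check_cut₂ (c := 655360) (by norm_num [unit]) part36_4_ok (check_cut₁
    (c := 983040) (by norm_num [unit]) part36_5_ok (check_cut₂ (c := 720896) (by norm_num
    [unit]) (check_cut₁ (c := 1015808) (by norm_num [unit]) part36_6_ok part36_7_ok) (check_cut₁
    (c := 1015808) (by norm_num [unit]) part36_8_ok (check_cut₂ (c := 753664) (by norm_num
    [unit]) part36_9_ok part36_10_ok)))))) (check_cut₁ (c := 917504) (by norm_num [unit])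
    part36_11_ok (check_cut₂ (c := 917504) (by norm_num [unit]) (check_cut₁ (c := 983040) (by
    norm_num [unit]) part36_12_ok (check_cut₂ (c := 851968) (by norm_num [unit]) (check_cut₁ (c
    := 1015808) (by norm_num [unit]) (check_cut₂ (c := 819200) (by norm_num [unit]) part36_13_ok
    part36_14_ok) part36_15_ok) part36_16_ok)) (check_cut₁ (c := 983040) (by norm_num [unit])
    part36_17_ok (check_cut₂ (c := 983040) (by norm_num [unit]) (check_cut₁ (c := 1015808) (by
    norm_num [unit]) (check_cut₂ (c := 950272) (by norm_num [unit]) (check_cut₁ (c := 999424)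
    (by norm_num [unit]) (check_cut₂ (c := 933888) (by norm_num [unit]) part36_18_ok (check_cut₁
    (c := 991232) (by norm_num [unit]) part36_19_ok part36_20_ok)) part36_21_ok) part36_22_ok)
    part36_23_ok) part36_24_ok))))))))

end Vale.Agent.P237.Quant.WindowCert
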