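import Vale.Agent.P237.Quant.WindowCheck

/-!
The window certificate of the moment excess in dimension 37. The cuts are checked in parts, so
that no kernel computation grows too large.
-/

namespace Vale.Agent.P237.Quant.WindowCert

/-- The shared data in dimension 37. -/
def data37 : Cert where
  m := 36
  s := 301542
  q := 557019
  c := 1069159
  κ := 349044
  I := 67724
  zone₀ := [
    ⟨0, 1048577⟩, ⟨8376, 1048610⟩, ⟨16752, 1048710⟩, ⟨25128, 1048878⟩, ⟨33505, 1049112⟩,
    ⟨41881, 1049414⟩, ⟨50257, 1049783⟩, ⟨58633, 1050220⟩, ⟨67009, 1050724⟩, ⟨75386, 1051297⟩,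
    ⟨83762, 1051938⟩, ⟨92138, 1052648⟩, ⟨100514, 1053427⟩, ⟨108890, 1054277⟩, ⟨117266, 1055196⟩,
    ⟨125642, 1056186⟩, ⟨134019, 1057247⟩, ⟨142395, 1058381⟩, ⟨150771, 1059587⟩, ⟨159147, 1060866⟩,
    ⟨167523, 1062220⟩, ⟨175900, 1063649⟩, ⟨184276, 1065154⟩, ⟨192652, 1066735⟩, ⟨201028, 1068395⟩,
    ⟨209404, 1070133⟩, ⟨217780, 1071951⟩, ⟨226156, 1073850⟩, ⟨234533, 1075832⟩, ⟨242909, 1077898⟩,
    ⟨251285, 1080048⟩, ⟨259661, 1082285⟩, ⟨268037, 1084610⟩, ⟨276414, 1087025⟩, ⟨284790, 1089531⟩,
    ⟨293166, 1092130⟩, ⟨301542, 1094823⟩]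
  zone₁ := [
    ⟨301542, 1094823⟩, ⟨306652, 1096514⟩, ⟨311761, 1098241⟩, ⟨316871, 1100005⟩, ⟨321980, 1101806⟩,
    ⟨327090, 1103645⟩, ⟨332199, 1105523⟩, ⟨337309, 1107440⟩, ⟨342418, 1109396⟩, ⟨347528, 1111392⟩,
    ⟨352637, 1113429⟩, ⟨357747, 1115507⟩, ⟨362856, 1117626⟩, ⟨367966, 1119789⟩, ⟨373076, 1121994⟩,
    ⟨378185, 1124243⟩, ⟨383295, 1126537⟩, ⟨388404, 1128876⟩, ⟨393514, 1131261⟩, ⟨398623, 1133692⟩,
    ⟨403733, 1136170⟩, ⟨408842, 1138697⟩, ⟨413952, 1141273⟩, ⟨419061, 1143899⟩, ⟨424171, 1146576⟩,
    ⟨429280, 1149304⟩, ⟨434390, 1152085⟩, ⟨439500, 1154920⟩, ⟨444609, 1157808⟩, ⟨449719, 1160753⟩,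
    ⟨454828, 1163754⟩, ⟨459938, 1166813⟩, ⟨465047, 1169930⟩, ⟨470157, 1173108⟩, ⟨475266, 1176347⟩,
    ⟨480376, 1179648⟩, ⟨485485, 1183013⟩, ⟨490595, 1186443⟩, ⟨495705, 1189940⟩, ⟨500814, 1193503⟩,
    ⟨505924, 1197137⟩, ⟨511033, 1200841⟩, ⟨516143, 1204618⟩, ⟨521252, 1208468⟩, ⟨526362, 1212395⟩,
    ⟨531471, 1216398⟩, ⟨536581, 1220481⟩, ⟨541690, 1224644⟩, ⟨546800, 1228891⟩, ⟨551909, 1233223⟩,
    ⟨557019, 1237642⟩]
  zone₂ := [
    ⟨557019, 1237642⟩, ⟨576812, 1255622⟩, ⟨596331, 1274801⟩, ⟨615574, 1295266⟩, ⟨634536, 1317111⟩,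
    ⟨653213, 1340445⟩, ⟨671600, 1365390⟩, ⟨689693, 1392083⟩, ⟨707487, 1420679⟩, ⟨724976, 1451355⟩,
    ⟨742156, 1484315⟩, ⟨759021, 1519790⟩, ⟨775564, 1558045⟩, ⟨791780, 1599392⟩, ⟨807661, 1644187⟩,
    ⟨823201, 1692856⟩, ⟨838392, 1745894⟩, ⟨853225, 1803888⟩, ⟨867691, 1867543⟩, ⟨881782, 1937719⟩,
    ⟨895487, 2015453⟩, ⟨908794, 2102025⟩, ⟨921692, 2199044⟩, ⟨934166, 2308526⟩, ⟨946203, 2433099⟩,
    ⟨957785, 2576167⟩, ⟨968894, 2742308⟩, ⟨979509, 2937795⟩, ⟨989605, 3171460⟩, ⟨999156, 3456304⟩,
    ⟨1008126, 3812018⟩, ⟨1016477, 4270596⟩, ⟨1024157, 4887247⟩, ⟨1031103, 5767903⟩,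
    ⟨1037227, 7146352⟩, ⟨1042398, 9673900⟩, ⟨1046392, 16254920⟩]

theorem data37_wf : data37.wf = true := by decide +kernel

theorem data37_const : constOkLarge data37 = true := by decide +kernel

/-- A part of the boxes. -/
def part37_0 : Tree :=
  .cut₂ (.cut₁ (.out) (.out)) (.out)

theorem part37_0_ok : part37_0.check data37 0 524288 0 1048576 = true := by
  decide +kernel

/-- A part of the boxes. -/
def part37_1 : Tree :=
  .cut₁ (.box 1090659 5184445) (.cut₂ (.out) (.cut₁ (.box 1057178 5184445) (.out)))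

theorem part37_1_ok : part37_1.check data37 524288 1048576 0 524288 = true := by
  decide +kernel

/-- A part of the boxes. -/
def part37_2 : Tree :=
  .box 1090659 5184445

theorem part37_2_ok : part37_2.check data37 524288 786432 524288 1048576 = true := by
  decide +kernel

/-- A part of the boxes. -/
def part37_3 : Tree :=
  .box 1057178 5184445

theorem part37_3_ok : part37_3.check data37 786432 917504 524288 786432 = true := by
  decide +kernel

/-- A part of the boxes. -/
def part37_4 : Tree :=
  .cut₁ (.box 1057178 5184445) (.box 1036486 3204163)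

theorem part37_4_ok : part37_4.check data37 917504 1048576 524288 655360 = true := by
  decide +kernel

/-- A part of the boxes. -/
def part37_5 : Tree :=
  .cut₂ (.box 1044390 5184445) (.box 1044390 5184445)

theorem part37_5_ok : part37_5.check data37 917504 983040 655360 786432 = true := by
  decide +kernel

/-- A part of the boxes. -/
def part37_6 : Tree :=
  .cut₂ (.box 1036486 3204163) (.cut₁ (.box 1036486 3204163) (.box 1036486 3204163))

theorem part37_6_ok : part37_6.check data37 983040 1015808 655360 720896 = true := by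
  decide +kernel

/-- A part of the boxes. -/
def part37_7 : Tree :=
  .cut₂ (.box 1023698 3204163) (.cut₁ (.cut₂ (.box 1023698 3204163) (.cut₁ (.box 1023698 3204163)
  (.box 1023698 3204163))) (.cut₂ (.box 1023698 3204163) (.cut₁ (.box 1023698 1980282) (.box 1023698 1223881))))

theorem part37_7_ok : part37_7.check data37 1015808 1048576 655360 720896 = true := by
  decide +kernel

/-- A part of the boxes. -/
def part37_8 : Tree :=
  .cut₁ (.box 1036486 3204163) (.cut₂ (.box 1031602 1980282) (.cut₁ (.box 1023698 3204163)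
  (.box 1028583 1980282)))

theorem part37_8_ok : part37_8.check data37 983040 1015808 720896 753664 = true := by
  decide +kernel

/-- A part of the boxes. -/
def part37_9 : Tree :=
  .cut₁ (.box 1036486 3204163) (.cut₂ (.cut₁ (.box 1036486 3204163) (.box 1031602 1223881))
  (.cut₁ (.box 1036486 3204163) (.box 1028583 1223881)))

theorem part37_9_ok : part37_9.check data37 983040 1015808 753664 786432 = true := by
  decide +kernel

/-- A part of the boxes. -/
def part37_10 : Tree :=
  .cut₁ (.cut₂ (.cut₁ (.box 1023698 1980282) (.box 1023698 1223881)) (.cut₁ (.box 1023698 1223881)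
  (.box 1023698 756400))) (.cut₂ (.cut₁ (.box 1023698 756400) (.box 1023698 467481)) (.cut₁
  (.box 1023698 756400) (.box 1023698 467481)))

theorem part37_10_ok : part37_10.check data37 1015808 1048576 720896 753664 = true := by
  decide +kernel

/-- A part of the boxes. -/
def part37_11 : Tree :=
  .cut₁ (.cut₂ (.cut₁ (.box 1026717 1223881) (.box 1023698 756400)) (.cut₁ (.box 1028583 756400)
  (.box 1023698 756400))) (.cut₂ (.cut₁ (.box 1021832 756400) (.box 1023698 467481)) (.box 1024411 288919))

theorem part37_11_ok : part37_11.check data37 1015808 1048576 753664 786432 = true := by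
  decide +kernel

/-- A part of the boxes. -/
def part37_12 : Tree :=
  .box 1090659 3204163

theorem part37_12_ok : part37_12.check data37 786432 917504 786432 1048576 = true := by
  decide +kernel

/-- A part of the boxes. -/
def part37_13 : Tree :=
  .cut₂ (.box 1057178 5184445) (.cut₁ (.box 1057178 3204163) (.box 1057178 3204163))

theorem part37_13_ok : part37_13.check data37 917504 983040 786432 917504 = true := by
  decide +kernel

/-- A part of the boxes. -/
def part37_14 : Tree :=
  .cut₁ (.box 1036486 3204163) (.cut₂ (.cut₁ (.box 1036486 1980282) (.box 1028583 1223881))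
  (.cut₁ (.box 1031602 1980282) (.box 1028583 1223881)))

theorem part37_14_ok : part37_14.check data37 983040 1015808 786432 819200 = true := by
  decide +kernel

/-- A part of the boxes. -/
def part37_15 : Tree :=
  .cut₁ (.box 1036486 3204163) (.cut₂ (.cut₁ (.box 1036486 1223881) (.box 1031602 756400))
  (.cut₁ (.box 1036486 1223881) (.box 1036486 756400)))

theorem part37_15_ok : part37_15.check data37 983040 1015808 819200 851968 = true := by
  decide +kernel

/-- A part of the boxes. -/
def part37_16 : Tree :=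
  .cut₂ (.cut₁ (.cut₂ (.cut₁ (.box 1028583 756400) (.box 1023698 756400)) (.cut₁ (.box 1028583 756400)
  (.box 1023698 756400))) (.box 1023698 288919)) (.cut₁ (.box 1028583 509634) (.box 1023698 288919))

theorem part37_16_ok : part37_16.check data37 1015808 1048576 786432 851968 = true := by
  decide +kernel

/-- A part of the boxes. -/
def part37_17 : Tree :=
  .cut₁ (.cut₂ (.cut₁ (.box 1036486 1980282) (.box 1033468 714248)) (.cut₁ (.box 1036486 1223881)
  (.box 1031602 756400))) (.cut₂ (.cut₁ (.box 1028583 467481) (.box 1023698 0)) (.box 1028583 178562))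

theorem part37_17_ok : part37_17.check data37 983040 1048576 851968 917504 = true := by
  decide +kernel

/-- A part of the boxes. -/
def part37_18 : Tree :=
  .cut₂ (.cut₁ (.out) (.box 1057178 3204163)) (.out)

theorem part37_18_ok : part37_18.check data37 917504 983040 917504 1048576 = true := by
  decide +kernel

/-- A part of the boxes. -/
def part37_19 : Tree :=
  .cut₁ (.box 1044390 1223881) (.box 1044390 1223881)

theorem part37_19_ok : part37_19.check data37 983040 999424 917504 933888 = true := by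
  decide +kernel

/-- A part of the boxes. -/
def part37_20 : Tree :=
  .cut₂ (.cut₁ (.box 1044390 1980282) (.cut₂ (.box 1044390 756400) (.cut₁ (.box 1044390 756400)
  (.box 1044390 756400)))) (.cut₁ (.out) (.box 1044390 467481))

theorem part37_20_ok : part37_20.check data37 983040 991232 933888 950272 = true := by
  decide +kernel

/-- A part of the boxes. -/
def part37_21 : Tree :=
  .cut₂ (.cut₁ (.box 1040114 756400) (.box 1036486 756400)) (.cut₁ (.cut₂ (.cut₁ (.box 1044390 467481)
  (.box 1036486 467481)) (.box 1044390 288919)) (.cut₂ (.box 1036486 467481) (.box 1039505 467481)))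

theorem part37_21_ok : part37_21.check data37 991232 999424 933888 950272 = true := by
  decide +kernel

/-- A part of the boxes. -/
def part37_22 : Tree :=
  .cut₂ (.box 1033468 756400) (.box 1033468 467481)

theorem part37_22_ok : part37_22.check data37 999424 1015808 917504 950272 = true := by
  decide +kernel

/-- A part of the boxes. -/
def part37_23 : Tree :=
  .cut₁ (.cut₂ (.cut₁ (.out) (.cut₂ (.cut₁ (.out) (.box 1036486 0)) (.out))) (.out)) (.cut₂
  (.cut₁ (.box 1033468 110357) (.box 1023698 0)) (.box 1036486 0))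

theorem part37_23_ok : part37_23.check data37 983040 1015808 950272 983040 = true := by
  decide +kernel

/-- A part of the boxes. -/
def part37_24 : Tree :=
  .box 1028583 0

theorem part37_24_ok : part37_24.check data37 1015808 1048576 917504 983040 = true := by
  decide +kernel

/-- A part of the boxes. -/
def part37_25 : Tree :=
  .cut₁ (.cut₂ (.cut₁ (.out) (.box 1023698 0)) (.out)) (.cut₂ (.box 1023698 0) (.cut₁ (.box 1023698 0)
  (.box 1023698 0)))

theorem part37_25_ok : part37_25.check data37 983040 1048576 983040 1048576 = true := by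
  decide +kernel

/-- All the cuts in dimension 37. -/
def tree37 : Tree :=
  (Tree.cut₁ part37_0 (Tree.cut₂ part37_1 (Tree.cut₁ part37_2 (Tree.cut₂ (Tree.cut₁ part37_3
  (Tree.cut₂ part37_4 (Tree.cut₁ part37_5 (Tree.cut₂ (Tree.cut₁ part37_6 part37_7) (Tree.cut₁
  (Tree.cut₂ part37_8 part37_9) (Tree.cut₂ part37_10 part37_11)))))) (Tree.cut₁ part37_12
  (Tree.cut₂ (Tree.cut₁ part37_13 (Tree.cut₂ (Tree.cut₁ (Tree.cut₂ part37_14 part37_15)
  part37_16) part37_17)) (Tree.cut₁ part37_18 (Tree.cut₂ (Tree.cut₁ (Tree.cut₂ (Tree.cut₁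
  (Tree.cut₂ part37_19 (Tree.cut₁ part37_20 part37_21)) part37_22) part37_23) part37_24)
  part37_25))))))))

theorem tree37_ok : tree37.check data37 0 unit 0 unit = true :=
    (check_cut₁ (c := 524288) (by norm_num [unit]) part37_0_ok (check_cut₂ (c := 524288) (by
    norm_num [unit]) part37_1_ok (check_cut₁ (c := 786432) (by norm_num [unit]) part37_2_ok
    (check_cut₂ (c := 786432) (by norm_num [unit]) (check_cut₁ (c := 917504) (by norm_num
    [unit]) part37_3_ok (check_cut₂ (c := 655360) (by norm_num [unit]) part37_4_ok (check_cut₁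
    (c := 983040) (by norm_num [unit]) part37_5_ok (check_cut₂ (c := 720896) (by norm_num
    [unit]) (check_cut₁ (c := 1015808) (by norm_num [unit]) part37_6_ok part37_7_ok) (check_cut₁
    (c := 1015808) (by norm_num [unit]) (check_cut₂ (c := 753664) (by norm_num [unit])
    part37_8_ok part37_9_ok) (check_cut₂ (c := 753664) (by norm_num [unit]) part37_10_ok
    part37_11_ok)))))) (check_cut₁ (c := 917504) (by norm_num [unit]) part37_12_ok (check_cut₂
    (c := 917504) (by norm_num [unit]) (check_cut₁ (c := 983040) (by norm_num [unit])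
    part37_13_ok (check_cut₂ (c := 851968) (by norm_num [unit]) (check_cut₁ (c := 1015808) (by
    norm_num [unit]) (check_cut₂ (c := 819200) (by norm_num [unit]) part37_14_ok part37_15_ok)
    part37_16_ok) part37_17_ok)) (check_cut₁ (c := 983040) (by norm_num [unit]) part37_18_ok
    (check_cut₂ (c := 983040) (by norm_num [unit]) (check_cut₁ (c := 1015808) (by norm_num
    [unit]) (check_cut₂ (c := 950272) (by norm_num [unit]) (check_cut₁ (c := 999424) (by
    norm_num [unit]) (check_cut₂ (c := 933888) (by norm_num [unit]) part37_19_ok (check_cut₁ (c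
    := 991232) (by norm_num [unit]) part37_20_ok part37_21_ok)) part37_22_ok) part37_23_ok)
    part37_24_ok) part37_25_ok))))))))

end Vale.Agent.P237.Quant.WindowCert
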