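import Vale.Agent.P237.Quant.WindowCheck

/-!
The window certificate of the moment excess in dimension 38. The cuts are checked in parts, so
that no kernel computation grows too large.
-/

namespace Vale.Agent.P237.Quant.WindowCert

/-- The shared data in dimension 38. -/
def data38 : Cert where
  m := 37
  s := 258238
  q := 473500
  c := 1068613
  κ := 344607
  I := 50318
  zone₀ := [
    ⟨0, 1048577⟩, ⟨4304, 1048585⟩, ⟨8608, 1048612⟩, ⟨12912, 1048656⟩, ⟨17216, 1048718⟩,
    ⟨21520, 1048797⟩, ⟨25824, 1048895⟩, ⟨30128, 1049010⟩, ⟨34432, 1049142⟩, ⟨38736, 1049293⟩,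
    ⟨43040, 1049461⟩, ⟨47344, 1049647⟩, ⟨51648, 1049851⟩, ⟨55952, 1050072⟩, ⟨60256, 1050312⟩,
    ⟨64560, 1050570⟩, ⟨68863, 1050845⟩, ⟨73167, 1051139⟩, ⟨77471, 1051450⟩, ⟨81775, 1051780⟩,
    ⟨86079, 1052128⟩, ⟨90383, 1052494⟩, ⟨94687, 1052878⟩, ⟨98991, 1053281⟩, ⟨103295, 1053702⟩,
    ⟨107599, 1054141⟩, ⟨111903, 1054599⟩, ⟨116207, 1055076⟩, ⟨120511, 1055571⟩, ⟨124815, 1056085⟩,
    ⟨129119, 1056618⟩, ⟨133423, 1057169⟩, ⟨137727, 1057740⟩, ⟨142031, 1058330⟩, ⟨146335, 1058939⟩,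
    ⟨150639, 1059567⟩, ⟨154943, 1060215⟩, ⟨159247, 1060882⟩, ⟨163551, 1061569⟩, ⟨167855, 1062275⟩,
    ⟨172159, 1063002⟩, ⟨176463, 1063748⟩, ⟨180767, 1064514⟩, ⟨185071, 1065301⟩, ⟨189375, 1066107⟩,
    ⟨193678, 1066934⟩, ⟨197982, 1067782⟩, ⟨202286, 1068651⟩, ⟨206590, 1069540⟩, ⟨210894, 1070450⟩,
    ⟨215198, 1071382⟩, ⟨219502, 1072335⟩, ⟨223806, 1073309⟩, ⟨228110, 1074305⟩, ⟨232414, 1075323⟩,
    ⟨236718, 1076363⟩, ⟨241022, 1077425⟩, ⟨245326, 1078509⟩, ⟨249630, 1079616⟩, ⟨253934, 1080746⟩,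
    ⟨258238, 1081899⟩]
  zone₁ := [
    ⟨258238, 1081899⟩, ⟨260929, 1082631⟩, ⟨263620, 1083373⟩, ⟨266310, 1084123⟩, ⟨269001, 1084883⟩,
    ⟨271692, 1085653⟩, ⟨274383, 1086431⟩, ⟨277073, 1087219⟩, ⟨279764, 1088016⟩, ⟨282455, 1088823⟩,
    ⟨285146, 1089639⟩, ⟨287837, 1090465⟩, ⟨290527, 1091301⟩, ⟨293218, 1092146⟩, ⟨295909, 1093001⟩,
    ⟨298600, 1093866⟩, ⟨301290, 1094741⟩, ⟨303981, 1095626⟩, ⟨306672, 1096521⟩, ⟨309363, 1097426⟩,
    ⟨312054, 1098341⟩, ⟨314744, 1099266⟩, ⟨317435, 1100202⟩, ⟨320126, 1101148⟩, ⟨322817, 1102105⟩,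
    ⟨325507, 1103072⟩, ⟨328198, 1104049⟩, ⟨330889, 1105038⟩, ⟨333580, 1106037⟩, ⟨336270, 1107047⟩,
    ⟨338961, 1108068⟩, ⟨341652, 1109100⟩, ⟨344343, 1110143⟩, ⟨347034, 1111197⟩, ⟨349724, 1112262⟩,
    ⟨352415, 1113339⟩, ⟨355106, 1114427⟩, ⟨357797, 1115527⟩, ⟨360487, 1116638⟩, ⟨363178, 1117761⟩,
    ⟨365869, 1118896⟩, ⟨368560, 1120043⟩, ⟨371251, 1121202⟩, ⟨373941, 1122372⟩, ⟨376632, 1123555⟩,
    ⟨379323, 1124750⟩, ⟨382014, 1125958⟩, ⟨384704, 1127178⟩, ⟨387395, 1128410⟩, ⟨390086, 1129656⟩,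
    ⟨392777, 1130914⟩, ⟨395468, 1132185⟩, ⟨398158, 1133468⟩, ⟨400849, 1134766⟩, ⟨403540, 1136076⟩,
    ⟨406231, 1137400⟩, ⟨408921, 1138737⟩, ⟨411612, 1140088⟩, ⟨414303, 1141452⟩, ⟨416994, 1142831⟩,
    ⟨419684, 1144223⟩, ⟨422375, 1145629⟩, ⟨425066, 1147050⟩, ⟨427757, 1148485⟩, ⟨430448, 1149935⟩,
    ⟨433138, 1151399⟩, ⟨435829, 1152878⟩, ⟨438520, 1154372⟩, ⟨441211, 1155881⟩, ⟨443901, 1157405⟩,
    ⟨446592, 1158944⟩, ⟨449283, 1160499⟩, ⟨451974, 1162070⟩, ⟨454665, 1163657⟩, ⟨457355, 1165259⟩,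
    ⟨460046, 1166878⟩, ⟨462737, 1168513⟩, ⟨465428, 1170165⟩, ⟨468118, 1171833⟩, ⟨470809, 1173518⟩,
    ⟨473500, 1175220⟩]
  zone₂ := [
    ⟨473500, 1175220⟩, ⟨487583, 1184413⟩, ⟨501549, 1194022⟩, ⟨515398, 1204063⟩, ⟨529127, 1214551⟩,
    ⟨542737, 1225508⟩, ⟨556225, 1236950⟩, ⟨569592, 1248900⟩, ⟨582835, 1261380⟩, ⟨595954, 1274416⟩,
    ⟨608948, 1288034⟩, ⟨621814, 1302261⟩, ⟨634553, 1317131⟩, ⟨647162, 1332675⟩, ⟨659641, 1348932⟩,
    ⟨671987, 1365938⟩, ⟨684200, 1383738⟩, ⟨696279, 1402380⟩, ⟨708220, 1421912⟩, ⟨720024, 1442391⟩,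
    ⟨731688, 1463878⟩, ⟨743210, 1486437⟩, ⟨754589, 1510143⟩, ⟨765824, 1535079⟩, ⟨776911, 1561327⟩,
    ⟨787850, 1588990⟩, ⟨798638, 1618174⟩, ⟨809273, 1649000⟩, ⟨819752, 1681600⟩, ⟨830074, 1716127⟩,
    ⟨840236, 1752747⟩, ⟨850235, 1791649⟩, ⟨860069, 1833047⟩, ⟨869735, 1877184⟩, ⟨879230, 1924336⟩,
    ⟨888550, 1974812⟩, ⟨897693, 2028983⟩, ⟨906655, 2087265⟩, ⟨915432, 2150144⟩, ⟨924020, 2218189⟩,
    ⟨932415, 2292073⟩, ⟨940613, 2372599⟩, ⟨948608, 2460710⟩, ⟨956395, 2557556⟩, ⟨963969, 2664551⟩,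
    ⟨971324, 2783429⟩, ⟨978452, 2916330⟩, ⟨985346, 3065993⟩, ⟨991998, 3235936⟩, ⟨998399, 3430767⟩,
    ⟨1004539, 3656658⟩, ⟨1010405, 3921994⟩, ⟨1015985, 4238744⟩, ⟨1021263, 4624309⟩,
    ⟨1026221, 5105341⟩, ⟨1030836, 5724701⟩, ⟨1035081, 6556926⟩, ⟨1038919, 7744012⟩,
    ⟨1042304, 9601349⟩, ⟨1045162, 13004897⟩, ⟨1047369, 21860307⟩]

theorem data38_wf : data38.wf = true := by decide +kernel

theorem data38_const : constOkLarge data38 = true := by decide +kernel

/-- A part of the boxes. -/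
def part38_0 : Tree :=
  .cut₂ (.cut₁ (.out) (.out)) (.out)

theorem part38_0_ok : part38_0.check data38 0 524288 0 1048576 = true := by
  decide +kernel

/-- A part of the boxes. -/
def part38_1 : Tree :=
  .cut₁ (.box 1144831 5184445) (.out)

theorem part38_1_ok : part38_1.check data38 524288 1048576 0 524288 = true := by
  decide +kernel

/-- A part of the boxes. -/
def part38_2 : Tree :=
  .box 1144831 5184445

theorem part38_2_ok : part38_2.check data38 524288 786432 524288 1048576 = true := by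
  decide +kernel

/-- A part of the boxes. -/
def part38_3 : Tree :=
  .cut₁ (.box 1090659 3204163) (.cut₂ (.out) (.cut₁ (.box 1057178 3204163) (.box 1036486 5184445)))

theorem part38_3_ok : part38_3.check data38 786432 1048576 524288 786432 = true := by
  decide +kernel

/-- A part of the boxes. -/
def part38_4 : Tree :=
  .box 1090659 3204163

theorem part38_4_ok : part38_4.check data38 786432 917504 786432 1048576 = true := by
  decide +kernel

/-- A part of the boxes. -/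
def part38_5 : Tree :=
  .box 1057178 3204163

theorem part38_5_ok : part38_5.check data38 917504 983040 786432 917504 = true := by
  decide +kernel

/-- A part of the boxes. -/
def part38_6 : Tree :=
  .box 1036486 3204163

theorem part38_6_ok : part38_6.check data38 983040 1015808 786432 851968 = true := by
  decide +kernel

/-- A part of the boxes. -/
def part38_7 : Tree :=
  .cut₂ (.cut₁ (.box 1023698 3204163) (.box 1023698 3204163)) (.cut₁ (.box 1028583 3204163)
  (.cut₂ (.cut₁ (.box 1023698 3204163) (.box 1021832 1980282)) (.cut₁ (.box 1023698 1980282)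
  (.cut₂ (.box 1023698 756400) (.box 1022545 646043)))))

theorem part38_7_ok : part38_7.check data38 1015808 1048576 786432 851968 = true := by
  decide +kernel

/-- A part of the boxes. -/
def part38_8 : Tree :=
  .cut₂ (.box 1036486 3204163) (.cut₁ (.box 1057178 3204163) (.box 1036486 3204163))

theorem part38_8_ok : part38_8.check data38 983040 1015808 851968 917504 = true := by
  decide +kernel

/-- A part of the boxes. -/
def part38_9 : Tree :=
  .cut₁ (.box 1028583 1223881) (.cut₂ (.cut₁ (.box 1023698 1223881) (.box 1022545 577838))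
  (.cut₁ (.box 1023698 756400) (.box 1023698 467481)))

theorem part38_9_ok : part38_9.check data38 1015808 1048576 851968 884736 = true := by
  decide +kernel

/-- A part of the boxes. -/
def part38_10 : Tree :=
  .cut₁ (.box 1031602 756400) (.cut₂ (.cut₁ (.box 1023698 756400) (.box 1023698 467481)) (.box 1026277 357124))

theorem part38_10_ok : part38_10.check data38 1015808 1048576 884736 917504 = true := by
  decide +kernel

/-- A part of the boxes. -/
def part38_11 : Tree :=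
  .box 1057178 3204163

theorem part38_11_ok : part38_11.check data38 917504 983040 917504 1048576 = true := by
  decide +kernel

/-- A part of the boxes. -/
def part38_12 : Tree :=
  .cut₁ (.box 1049275 1691363) (.box 1039505 1223881)

theorem part38_12_ok : part38_12.check data38 983040 1015808 917504 950272 = true := by
  decide +kernel

/-- A part of the boxes. -/
def part38_13 : Tree :=
  .cut₂ (.cut₁ (.out) (.cut₂ (.cut₁ (.box 1057178 3204163) (.cut₂ (.box 1044390 1223881)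
  (.cut₁ (.box 1044390 1980282) (.box 1044390 756400)))) (.out))) (.out)

theorem part38_13_ok : part38_13.check data38 983040 999424 950272 983040 = true := by
  decide +kernel

/-- A part of the boxes. -/
def part38_14 : Tree :=
  .cut₂ (.box 1039505 756400) (.cut₁ (.cut₂ (.cut₁ (.box 1043237 577838) (.box 1041371 577838))
  (.cut₁ (.out) (.box 1041371 288919))) (.cut₂ (.box 1036486 756400) (.cut₁ (.cut₂ (.box 1041371 467481)
  (.box 1041371 467481)) (.box 1036486 467481))))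

theorem part38_14_ok : part38_14.check data38 999424 1007616 950272 966656 = true := by
  decide +kernel

/-- A part of the boxes. -/
def part38_15 : Tree :=
  .box 1037640 756400

theorem part38_15_ok : part38_15.check data38 1007616 1015808 950272 966656 = true := by
  decide +kernel

/-- A part of the boxes. -/
def part38_16 : Tree :=
  .cut₁ (.cut₂ (.cut₁ (.out) (.cut₂ (.cut₁ (.box 1044390 288919) (.box 1039505 288919)) (.box 1044390 0)))
  (.out)) (.cut₂ (.cut₁ (.cut₂ (.box 1036486 288919) (.box 1036486 178562)) (.box 1034621 467481))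
  (.box 1035333 0))

theorem part38_16_ok : part38_16.check data38 999424 1015808 966656 983040 = true := by
  decide +kernel

/-- A part of the boxes. -/
def part38_17 : Tree :=
  .cut₂ (.cut₁ (.box 1031602 756400) (.box 1028583 288919)) (.cut₁ (.cut₂ (.box 1031602 467481)
  (.box 1029736 0)) (.box 1023698 0))

theorem part38_17_ok : part38_17.check data38 1015808 1048576 917504 983040 = true := by
  decide +kernel

/-- A part of the boxes. -/
def part38_18 : Tree :=
  .cut₁ (.cut₂ (.cut₁ (.out) (.box 1038793 16101)) (.out)) (.cut₂ (.box 1023698 0) (.box 1028583 0))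

theorem part38_18_ok : part38_18.check data38 983040 1048576 983040 1048576 = true := by
  decide +kernel

/-- All the cuts in dimension 38. -/
def tree38 : Tree :=
  (Tree.cut₁ part38_0 (Tree.cut₂ part38_1 (Tree.cut₁ part38_2 (Tree.cut₂ part38_3 (Tree.cut₁
  part38_4 (Tree.cut₂ (Tree.cut₁ part38_5 (Tree.cut₂ (Tree.cut₁ part38_6 part38_7) (Tree.cut₁
  part38_8 (Tree.cut₂ part38_9 part38_10)))) (Tree.cut₁ part38_11 (Tree.cut₂ (Tree.cut₁
  (Tree.cut₂ part38_12 (Tree.cut₁ part38_13 (Tree.cut₂ (Tree.cut₁ part38_14 part38_15)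
  part38_16))) part38_17) part38_18))))))))

theorem tree38_ok : tree38.check data38 0 unit 0 unit = true :=
    (check_cut₁ (c := 524288) (by norm_num [unit]) part38_0_ok (check_cut₂ (c := 524288) (by
    norm_num [unit]) part38_1_ok (check_cut₁ (c := 786432) (by norm_num [unit]) part38_2_ok
    (check_cut₂ (c := 786432) (by norm_num [unit]) part38_3_ok (check_cut₁ (c := 917504) (by
    norm_num [unit]) part38_4_ok (check_cut₂ (c := 917504) (by norm_num [unit]) (check_cut₁ (c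
    := 983040) (by norm_num [unit]) part38_5_ok (check_cut₂ (c := 851968) (by norm_num [unit])
    (check_cut₁ (c := 1015808) (by norm_num [unit]) part38_6_ok part38_7_ok) (check_cut₁ (c := 1015808)
    (by norm_num [unit]) part38_8_ok (check_cut₂ (c := 884736) (by norm_num [unit]) part38_9_ok
    part38_10_ok)))) (check_cut₁ (c := 983040) (by norm_num [unit]) part38_11_ok (check_cut₂ (c
    := 983040) (by norm_num [unit]) (check_cut₁ (c := 1015808) (by norm_num [unit]) (check_cut₂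
    (c := 950272) (by norm_num [unit]) part38_12_ok (check_cut₁ (c := 999424) (by norm_num
    [unit]) part38_13_ok (check_cut₂ (c := 966656) (by norm_num [unit]) (check_cut₁ (c := 1007616)
    (by norm_num [unit]) part38_14_ok part38_15_ok) part38_16_ok))) part38_17_ok)
    part38_18_ok))))))))

end Vale.Agent.P237.Quant.WindowCert
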