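import Vale.Agent.P237.Quant.WindowCheck

/-!
The window certificate of the moment excess in dimension 39. The cuts are checked in parts, so
that no kernel computation grows too large.
-/

namespace Vale.Agent.P237.Quant.WindowCert

/-- The shared data in dimension 39. -/
def data39 : Cert where
  m := 38
  s := 294131
  q := 545353
  c := 1068095
  κ := 340332
  I := 68527
  zone₀ := [
    ⟨0, 1048577⟩, ⟨8170, 1048608⟩, ⟨16341, 1048704⟩, ⟨24511, 1048863⟩, ⟨32681, 1049086⟩,
    ⟨40852, 1049373⟩, ⟨49022, 1049724⟩, ⟨57192, 1050140⟩, ⟨65362, 1050620⟩, ⟨73533, 1051164⟩,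
    ⟨81703, 1051774⟩, ⟨89873, 1052449⟩, ⟨98044, 1053190⟩, ⟨106214, 1053998⟩, ⟨114384, 1054872⟩,
    ⟨122555, 1055813⟩, ⟨130725, 1056821⟩, ⟨138895, 1057898⟩, ⟨147066, 1059044⟩, ⟨155236, 1060260⟩,
    ⟨163406, 1061545⟩, ⟨171576, 1062902⟩, ⟨179747, 1064331⟩, ⟨187917, 1065832⟩, ⟨196087, 1067406⟩,
    ⟨204258, 1069055⟩, ⟨212428, 1070780⟩, ⟨220598, 1072581⟩, ⟨228769, 1074460⟩, ⟨236939, 1076417⟩,
    ⟨245109, 1078454⟩, ⟨253279, 1080573⟩, ⟨261450, 1082774⟩, ⟨269620, 1085060⟩, ⟨277790, 1087430⟩,
    ⟨285961, 1089888⟩, ⟨294131, 1092435⟩]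
  zone₁ := [
    ⟨294131, 1092435⟩, ⟨299155, 1094046⟩, ⟨304180, 1095691⟩, ⟨309204, 1097372⟩, ⟨314229, 1099088⟩,
    ⟨319253, 1100840⟩, ⟨324278, 1102628⟩, ⟨329302, 1104454⟩, ⟨334327, 1106316⟩, ⟨339351, 1108217⟩,
    ⟨344375, 1110155⟩, ⟨349400, 1112133⟩, ⟨354424, 1114151⟩, ⟨359449, 1116208⟩, ⟨364473, 1118306⟩,
    ⟨369498, 1120446⟩, ⟨374522, 1122626⟩, ⟨379546, 1124850⟩, ⟨384571, 1127117⟩, ⟨389595, 1129427⟩,
    ⟨394620, 1131783⟩, ⟨399644, 1134183⟩, ⟨404669, 1136630⟩, ⟨409693, 1139123⟩, ⟨414718, 1141664⟩,
    ⟨419742, 1144253⟩, ⟨424766, 1146891⟩, ⟨429791, 1149579⟩, ⟨434815, 1152319⟩, ⟨439840, 1155110⟩,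
    ⟨444864, 1157954⟩, ⟨449889, 1160852⟩, ⟨454913, 1163804⟩, ⟨459938, 1166813⟩, ⟨464962, 1169878⟩,
    ⟨469986, 1173001⟩, ⟨475011, 1176183⟩, ⟨480035, 1179426⟩, ⟨485060, 1182730⟩, ⟨490084, 1186097⟩,
    ⟨495109, 1189528⟩, ⟨500133, 1193024⟩, ⟨505157, 1196587⟩, ⟨510182, 1200219⟩, ⟨515206, 1203920⟩,
    ⟨520231, 1207693⟩, ⟨525255, 1211538⟩, ⟨530280, 1215458⟩, ⟨535304, 1219453⟩, ⟨540329, 1223527⟩,
    ⟨545353, 1227680⟩]
  zone₂ := [
    ⟨545353, 1227680⟩, ⟨565615, 1245279⟩, ⟨585598, 1264069⟩, ⟨605298, 1284135⟩, ⟨624710, 1305571⟩,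
    ⟨643830, 1328484⟩, ⟨662653, 1352993⟩, ⟨681175, 1379234⟩, ⟨699392, 1407363⟩, ⟨717296, 1437549⟩,
    ⟨734884, 1469997⟩, ⟨752149, 1504934⟩, ⟨769085, 1542622⟩, ⟨785686, 1583369⟩, ⟨801944, 1627528⟩,
    ⟨817852, 1675514⟩, ⟨833403, 1727821⟩, ⟨848588, 1785030⟩, ⟨863398, 1847840⟩, ⟨877824, 1917096⟩,
    ⟨891854, 1993820⟩, ⟨905477, 2079282⟩, ⟨918680, 2175062⟩, ⟨931451, 2283177⟩, ⟨943773, 2406192⟩,
    ⟨955630, 2547495⟩, ⟨967003, 2711607⟩, ⟨977870, 2904720⟩, ⟨988206, 3135574⟩, ⟨997983, 3416981⟩,
    ⟨1007166, 3768452⟩, ⟨1015715, 4221570⟩, ⟨1023578, 4830991⟩, ⟨1030689, 5701330⟩,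
    ⟨1036958, 7063591⟩, ⟨1042252, 9561912⟩, ⟨1046340, 16064996⟩]

theorem data39_wf : data39.wf = true := by decide +kernel

theorem data39_const : constOkLarge data39 = true := by decide +kernel

/-- A part of the boxes. -/
def part39_0 : Tree :=
  .cut₂ (.cut₁ (.out) (.out)) (.out)

theorem part39_0_ok : part39_0.check data39 0 524288 0 1048576 = true := by
  decide +kernel

/-- A part of the boxes. -/
def part39_1 : Tree :=
  .cut₁ (.box 1090659 5184445) (.out)

theorem part39_1_ok : part39_1.check data39 524288 1048576 0 524288 = true := by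
  decide +kernel

/-- A part of the boxes. -/
def part39_2 : Tree :=
  .box 1090659 5184445

theorem part39_2_ok : part39_2.check data39 524288 786432 524288 1048576 = true := by
  decide +kernel

/-- A part of the boxes. -/
def part39_3 : Tree :=
  .box 1057178 5184445

theorem part39_3_ok : part39_3.check data39 786432 917504 524288 786432 = true := by
  decide +kernel

/-- A part of the boxes. -/
def part39_4 : Tree :=
  .cut₁ (.box 1057178 5184445) (.out)

theorem part39_4_ok : part39_4.check data39 917504 1048576 524288 655360 = true := by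
  decide +kernel

/-- A part of the boxes. -/
def part39_5 : Tree :=
  .box 1049275 7921127

theorem part39_5_ok : part39_5.check data39 917504 983040 655360 786432 = true := by
  decide +kernel

/-- A part of the boxes. -/
def part39_6 : Tree :=
  .cut₁ (.cut₂ (.box 1036486 3204163) (.cut₁ (.box 1036486 3204163) (.box 1023698 3204163)))
  (.cut₂ (.box 1023698 3204163) (.cut₁ (.box 1028583 3204163) (.cut₂ (.box 1023698 3204163)
  (.box 1024851 1223881))))

theorem part39_6_ok : part39_6.check data39 983040 1048576 655360 720896 = true := by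
  decide +kernel

/-- A part of the boxes. -/
def part39_7 : Tree :=
  .cut₁ (.box 1036486 3204163) (.cut₂ (.box 1036486 3204163) (.cut₁ (.box 1023698 3204163)
  (.box 1036486 3204163)))

theorem part39_7_ok : part39_7.check data39 983040 1015808 720896 753664 = true := by
  decide +kernel

/-- A part of the boxes. -/
def part39_8 : Tree :=
  .cut₁ (.box 1036486 3204163) (.cut₂ (.cut₁ (.box 1036486 3204163) (.box 1031602 1980282))
  (.cut₁ (.box 1036486 3204163) (.box 1036486 1223881)))

theorem part39_8_ok : part39_8.check data39 983040 1015808 753664 786432 = true := by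
  decide +kernel

/-- A part of the boxes. -/
def part39_9 : Tree :=
  .cut₁ (.cut₂ (.cut₁ (.box 1023698 3204163) (.box 1026717 1980282)) (.cut₁ (.box 1028583 1223881)
  (.box 1028583 756400))) (.cut₂ (.cut₁ (.box 1023698 1223881) (.box 1023698 756400)) (.cut₁
  (.box 1023698 756400) (.box 1023698 467481)))

theorem part39_9_ok : part39_9.check data39 1015808 1048576 720896 753664 = true := by
  decide +kernel

/-- A part of the boxes. -/
def part39_10 : Tree :=
  .cut₁ (.cut₂ (.cut₁ (.box 1028583 1223881) (.box 1028583 756400)) (.cut₁ (.box 1031602 756400)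
  (.box 1028583 756400))) (.cut₂ (.cut₁ (.box 1023698 756400) (.box 1023698 467481)) (.cut₁
  (.box 1023698 467481) (.box 1023698 467481)))

theorem part39_10_ok : part39_10.check data39 1015808 1048576 753664 786432 = true := by
  decide +kernel

/-- A part of the boxes. -/
def part39_11 : Tree :=
  .box 1090659 3204163

theorem part39_11_ok : part39_11.check data39 786432 917504 786432 1048576 = true := by
  decide +kernel

/-- A part of the boxes. -/
def part39_12 : Tree :=
  .cut₂ (.box 1049275 3204163) (.box 1057178 3204163)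

theorem part39_12_ok : part39_12.check data39 917504 983040 786432 917504 = true := by
  decide +kernel

/-- A part of the boxes. -/
def part39_13 : Tree :=
  .cut₁ (.box 1036486 3204163) (.cut₂ (.cut₁ (.box 1036486 3204163) (.box 1031602 1223881))
  (.cut₁ (.box 1036486 1980282) (.box 1031602 1223881)))

theorem part39_13_ok : part39_13.check data39 983040 1015808 786432 819200 = true := by
  decide +kernel

/-- A part of the boxes. -/
def part39_14 : Tree :=
  .cut₁ (.box 1036486 3204163) (.cut₂ (.cut₁ (.box 1036486 1980282) (.box 1031602 1223881))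
  (.cut₁ (.box 1036486 1980282) (.box 1036486 756400)))

theorem part39_14_ok : part39_14.check data39 983040 1015808 819200 851968 = true := by
  decide +kernel

/-- A part of the boxes. -/
def part39_15 : Tree :=
  .cut₁ (.cut₂ (.cut₁ (.box 1031602 756400) (.box 1023698 756400)) (.cut₁ (.box 1031602 756400)
  (.box 1023698 756400))) (.box 1025564 357124)

theorem part39_15_ok : part39_15.check data39 1015808 1048576 786432 819200 = true := by
  decide +kernel

/-- A part of the boxes. -/
def part39_16 : Tree :=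
  .cut₁ (.cut₂ (.cut₁ (.box 1028583 756400) (.box 1025564 756400)) (.cut₁ (.box 1028583 756400)
  (.box 1028583 467481))) (.box 1023698 288919)

theorem part39_16_ok : part39_16.check data39 1015808 1048576 819200 851968 = true := by
  decide +kernel

/-- A part of the boxes. -/
def part39_17 : Tree :=
  .cut₂ (.cut₁ (.box 1036486 3204163) (.cut₂ (.cut₁ (.box 1036486 1223881) (.box 1036486 756400))
  (.box 1036486 756400))) (.cut₁ (.box 1041371 3204163) (.box 1036486 756400))

theorem part39_17_ok : part39_17.check data39 983040 1015808 851968 917504 = true := by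
  decide +kernel

/-- A part of the boxes. -/
def part39_18 : Tree :=
  .cut₂ (.cut₁ (.box 1031602 467481) (.box 1028583 0)) (.cut₁ (.box 1028583 467481) (.box 1023698 0))

theorem part39_18_ok : part39_18.check data39 1015808 1048576 851968 917504 = true := by
  decide +kernel

/-- A part of the boxes. -/
def part39_19 : Tree :=
  .box 1062063 6408326

theorem part39_19_ok : part39_19.check data39 917504 983040 917504 1048576 = true := by
  decide +kernel

/-- A part of the boxes. -/
def part39_20 : Tree :=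
  .box 1044390 1223881

theorem part39_20_ok : part39_20.check data39 983040 999424 917504 933888 = true := by
  decide +kernel

/-- A part of the boxes. -/
def part39_21 : Tree :=
  .cut₂ (.cut₁ (.box 1057178 3204163) (.box 1044390 1223881)) (.cut₁ (.out) (.box 1049275 1223881))

theorem part39_21_ok : part39_21.check data39 983040 991232 933888 950272 = true := by
  decide +kernel

/-- A part of the boxes. -/
def part39_22 : Tree :=
  .cut₂ (.box 1041371 756400) (.cut₁ (.cut₂ (.cut₁ (.box 1044390 756400) (.box 1044390 756400))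
  (.cut₁ (.out) (.box 1044390 467481))) (.cut₂ (.box 1044390 756400) (.cut₁ (.box 1044390 467481)
  (.box 1039505 756400))))

theorem part39_22_ok : part39_22.check data39 991232 999424 933888 950272 = true := by
  decide +kernel

/-- A part of the boxes. -/
def part39_23 : Tree :=
  .cut₂ (.box 1036486 756400) (.box 1034621 467481)

theorem part39_23_ok : part39_23.check data39 999424 1015808 917504 950272 = true := by
  decide +kernel

/-- A part of the boxes. -/
def part39_24 : Tree :=
  .cut₁ (.cut₂ (.cut₁ (.out) (.cut₂ (.cut₁ (.out) (.cut₂ (.box 1040658 288919) (.box 1044390 0)))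
  (.out))) (.out)) (.cut₂ (.cut₁ (.cut₂ (.cut₁ (.cut₂ (.box 1036486 467481) (.box 1036486 0))
  (.box 1036486 467481)) (.box 1036486 110357)) (.box 1031602 0)) (.box 1034621 0))

theorem part39_24_ok : part39_24.check data39 983040 1015808 950272 983040 = true := by
  decide +kernel

/-- A part of the boxes. -/
def part39_25 : Tree :=
  .box 1029736 68205

theorem part39_25_ok : part39_25.check data39 1015808 1048576 917504 983040 = true := by
  decide +kernel

/-- A part of the boxes. -/
def part39_26 : Tree :=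
  .cut₁ (.cut₂ (.cut₁ (.out) (.box 1036486 0)) (.out)) (.cut₂ (.box 1023698 0) (.cut₁ (.box 1023698 0)
  (.box 1023698 0)))

theorem part39_26_ok : part39_26.check data39 983040 1048576 983040 1048576 = true := by
  decide +kernel

/-- All the cuts in dimension 39. -/
def tree39 : Tree :=
  (Tree.cut₁ part39_0 (Tree.cut₂ part39_1 (Tree.cut₁ part39_2 (Tree.cut₂ (Tree.cut₁ part39_3
  (Tree.cut₂ part39_4 (Tree.cut₁ part39_5 (Tree.cut₂ part39_6 (Tree.cut₁ (Tree.cut₂ part39_7
  part39_8) (Tree.cut₂ part39_9 part39_10)))))) (Tree.cut₁ part39_11 (Tree.cut₂ (Tree.cut₁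
  part39_12 (Tree.cut₂ (Tree.cut₁ (Tree.cut₂ part39_13 part39_14) (Tree.cut₂ part39_15
  part39_16)) (Tree.cut₁ part39_17 part39_18))) (Tree.cut₁ part39_19 (Tree.cut₂ (Tree.cut₁
  (Tree.cut₂ (Tree.cut₁ (Tree.cut₂ part39_20 (Tree.cut₁ part39_21 part39_22)) part39_23)
  part39_24) part39_25) part39_26))))))))

theorem tree39_ok : tree39.check data39 0 unit 0 unit = true :=
    (check_cut₁ (c := 524288) (by norm_num [unit]) part39_0_ok (check_cut₂ (c := 524288) (by
    norm_num [unit]) part39_1_ok (check_cut₁ (c := 786432) (by norm_num [unit]) part39_2_ok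
    (check_cut₂ (c := 786432) (by norm_num [unit]) (check_cut₁ (c := 917504) (by norm_num
    [unit]) part39_3_ok (check_cut₂ (c := 655360) (by norm_num [unit]) part39_4_ok (check_cut₁
    (c := 983040) (by norm_num [unit]) part39_5_ok (check_cut₂ (c := 720896) (by norm_num
    [unit]) part39_6_ok (check_cut₁ (c := 1015808) (by norm_num [unit]) (check_cut₂ (c := 753664)
    (by norm_num [unit]) part39_7_ok part39_8_ok) (check_cut₂ (c := 753664) (by norm_num [unit])
    part39_9_ok part39_10_ok)))))) (check_cut₁ (c := 917504) (by norm_num [unit]) part39_11_ok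
    (check_cut₂ (c := 917504) (by norm_num [unit]) (check_cut₁ (c := 983040) (by norm_num
    [unit]) part39_12_ok (check_cut₂ (c := 851968) (by norm_num [unit]) (check_cut₁ (c := 1015808)
    (by norm_num [unit]) (check_cut₂ (c := 819200) (by norm_num [unit]) part39_13_ok
    part39_14_ok) (check_cut₂ (c := 819200) (by norm_num [unit]) part39_15_ok part39_16_ok))
    (check_cut₁ (c := 1015808) (by norm_num [unit]) part39_17_ok part39_18_ok))) (check_cut₁ (c
    := 983040) (by norm_num [unit]) part39_19_ok (check_cut₂ (c := 983040) (by norm_num [unit])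
    (check_cut₁ (c := 1015808) (by norm_num [unit]) (check_cut₂ (c := 950272) (by norm_num
    [unit]) (check_cut₁ (c := 999424) (by norm_num [unit]) (check_cut₂ (c := 933888) (by
    norm_num [unit]) part39_20_ok (check_cut₁ (c := 991232) (by norm_num [unit]) part39_21_ok
    part39_22_ok)) part39_23_ok) part39_24_ok) part39_25_ok) part39_26_ok))))))))

end Vale.Agent.P237.Quant.WindowCert
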