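import Vale.Agent.P237.Quant.WindowCheck

/-!
The window certificate of the moment excess in dimension 5. The cuts are checked in parts, so
that no kernel computation grows too large.
-/

namespace Vale.Agent.P237.Quant.WindowCert

/-- The shared data in dimension 5. -/
def data5 : Cert where
  m := 4
  s := 629168
  q := 991575
  c := 1204441
  κ := 832164
  I := 27669
  zone₀ := [
    ⟨0, 1048577⟩, ⟨24199, 1048856⟩, ⟨48398, 1049695⟩, ⟨72596, 1051099⟩, ⟨96795, 1053073⟩,
    ⟨120994, 1055628⟩, ⟨145193, 1058776⟩, ⟨169391, 1062532⟩, ⟨193590, 1066917⟩, ⟨217789, 1071953⟩,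
    ⟨241988, 1077666⟩, ⟨266186, 1084089⟩, ⟨290385, 1091256⟩, ⟨314584, 1099211⟩, ⟨338783, 1108000⟩,
    ⟨362982, 1117679⟩, ⟨387180, 1128311⟩, ⟨411379, 1139970⟩, ⟨435578, 1152739⟩, ⟨459777, 1166716⟩,
    ⟨483975, 1182012⟩, ⟨508174, 1198760⟩, ⟨532373, 1217113⟩, ⟨556572, 1237252⟩, ⟨580770, 1259391⟩,
    ⟨604969, 1283786⟩, ⟨629168, 1310747⟩]
  zone₁ := [
    ⟨629168, 1310747⟩, ⟨637405, 1320573⟩, ⟨645641, 1330755⟩, ⟨653878, 1341312⟩, ⟨662114, 1352262⟩,
    ⟨670351, 1363629⟩, ⟨678587, 1375431⟩, ⟨686824, 1387697⟩, ⟨695060, 1400450⟩, ⟨703297, 1413721⟩,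
    ⟨711533, 1427538⟩, ⟨719770, 1441938⟩, ⟨728006, 1456954⟩, ⟨736243, 1472631⟩, ⟨744479, 1489008⟩,
    ⟨752716, 1506138⟩, ⟨760952, 1524069⟩, ⟨769189, 1542865⟩, ⟨777425, 1562586⟩, ⟨785662, 1583307⟩,
    ⟨793898, 1605105⟩, ⟨802135, 1628074⟩, ⟨810372, 1652311⟩, ⟨818608, 1677926⟩, ⟨826845, 1705051⟩,
    ⟨835081, 1733825⟩, ⟨843318, 1764418⟩, ⟨851554, 1797012⟩, ⟨859791, 1831830⟩, ⟨868027, 1869116⟩,
    ⟨876264, 1909171⟩, ⟨884500, 1952329⟩, ⟨892737, 1999006⟩, ⟨900973, 2049676⟩, ⟨909210, 2104936⟩,
    ⟨917446, 2165483⟩, ⟨925683, 2232206⟩, ⟨933919, 2306182⟩, ⟨942156, 2388812⟩, ⟨950392, 2481856⟩,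
    ⟨958629, 2587681⟩, ⟨966865, 2709409⟩, ⟨975102, 2851428⟩, ⟨983338, 3019930⟩, ⟨991575, 3224241⟩]
  zone₂ := [
    ⟨991575, 3224241⟩, ⟨994498, 3307863⟩, ⟨997369, 3396943⟩, ⟨1000187, 3492052⟩,
    ⟨1002952, 3593888⟩, ⟨1005662, 3703182⟩, ⟨1008316, 3820826⟩, ⟨1010913, 3947869⟩,
    ⟨1013451, 4085494⟩, ⟨1015930, 4235228⟩, ⟨1018348, 4398787⟩, ⟨1020702, 4578158⟩,
    ⟨1022993, 4776111⟩, ⟨1025216, 4995522⟩, ⟨1027372, 5240621⟩, ⟨1029456, 5516070⟩,
    ⟨1031468, 5828596⟩, ⟨1033403, 6186229⟩, ⟨1035260, 6600566⟩, ⟨1037034, 7086679⟩,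
    ⟨1038721, 7666187⟩, ⟨1040317, 8371013⟩, ⟨1041816, 9249380⟩, ⟨1043212, 10379983⟩,
    ⟨1044495, 11896647⟩, ⟨1045656, 14060346⟩, ⟨1046679, 17440050⟩, ⟨1047544, 23640242⟩,
    ⟨1048211, 39744427⟩]

theorem data5_wf : data5.wf = true := by decide +kernel

theorem data5_const : constOk data5 = true := by decide +kernel

/-- A part of the boxes. -/
def part5_0 : Tree :=
  .box 1286656 5184445

theorem part5_0_ok : part5_0.check data5 0 524288 0 1048576 = true := by
  decide +kernel

/-- A part of the boxes. -/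
def part5_1 : Tree :=
  .box 969526 3204163

theorem part5_1_ok : part5_1.check data5 524288 786432 0 262144 = true := by
  decide +kernel

/-- A part of the boxes. -/
def part5_2 : Tree :=
  .box 1286656 5184445

theorem part5_2_ok : part5_2.check data5 524288 655360 262144 524288 = true := by
  decide +kernel

/-- A part of the boxes. -/
def part5_3 : Tree :=
  .cut₁ (.box 915353 5184445) (.box 915353 1980282)

theorem part5_3_ok : part5_3.check data5 655360 786432 262144 393216 = true := by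
  decide +kernel

/-- A part of the boxes. -/
def part5_4 : Tree :=
  .cut₂ (.box 915353 5184445) (.cut₁ (.box 915353 5184445) (.cut₂ (.box 915353 5184445) (.cut₁
  (.box 915353 5184445) (.box 948834 1045320))))

theorem part5_4_ok : part5_4.check data5 655360 720896 393216 524288 = true := by
  decide +kernel

/-- A part of the boxes. -/
def part5_5 : Tree :=
  .cut₂ (.box 915353 756400) (.cut₁ (.cut₂ (.box 915353 1223881) (.cut₁ (.box 936045 756400)
  (.box 915353 756400))) (.box 902565 577838))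

theorem part5_5_ok : part5_5.check data5 720896 786432 393216 524288 = true := by
  decide +kernel

/-- A part of the boxes. -/
def part5_6 : Tree :=
  .cut₁ (.box 878854 756400) (.cut₂ (.box 915353 5184445) (.cut₁ (.box 827701 756400) (.cut₂
  (.box 773528 3204163) (.box 794220 467481))))

theorem part5_6_ok : part5_6.check data5 786432 1048576 0 262144 = true := by
  decide +kernel

/-- A part of the boxes. -/
def part5_7 : Tree :=
  .cut₁ (.cut₂ (.cut₁ (.box 915353 756400) (.box 861181 467481)) (.cut₁ (.cut₂ (.box 881873 467481)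
  (.box 881873 467481)) (.box 861181 288919))) (.cut₂ (.cut₁ (.box 827701 467481) (.box 807009 288919))
  (.box 827701 178562))

theorem part5_7_ok : part5_7.check data5 786432 1048576 262144 524288 = true := by
  decide +kernel

/-- A part of the boxes. -/
def part5_8 : Tree :=
  .out

theorem part5_8_ok : part5_8.check data5 524288 655360 524288 786432 = true := by
  decide +kernel

/-- A part of the boxes. -/
def part5_9 : Tree :=
  .cut₂ (.cut₁ (.out) (.cut₂ (.cut₁ (.out) (.box 948834 756400)) (.out))) (.out)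

theorem part5_9_ok : part5_9.check data5 655360 720896 524288 655360 = true := by
  decide +kernel

/-- A part of the boxes. -/
def part5_10 : Tree :=
  .cut₂ (.cut₁ (.cut₂ (.cut₁ (.box 936045 467481) (.box 915353 467481)) (.box 915353 288919))
  (.cut₂ (.box 915353 467481) (.box 915353 467481))) (.cut₁ (.box 915353 0) (.box 923257 0))

theorem part5_10_ok : part5_10.check data5 720896 753664 524288 589824 = true := by
  decide +kernel

/-- A part of the boxes. -/
def part5_11 : Tree :=
  .cut₂ (.cut₁ (.box 915353 467481) (.box 915353 467481)) (.box 902565 288919)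

theorem part5_11_ok : part5_11.check data5 753664 786432 524288 589824 = true := by
  decide +kernel

/-- A part of the boxes. -/
def part5_12 : Tree :=
  .cut₁ (.out) (.box 915353 0)

theorem part5_12_ok : part5_12.check data5 720896 786432 589824 655360 = true := by
  decide +kernel

/-- A part of the boxes. -/
def part5_13 : Tree :=
  .out

theorem part5_13_ok : part5_13.check data5 655360 786432 655360 786432 = true := by
  decide +kernel

/-- A part of the boxes. -/
def part5_14 : Tree :=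
  .out

theorem part5_14_ok : part5_14.check data5 524288 786432 786432 1048576 = true := by
  decide +kernel

/-- A part of the boxes. -/
def part5_15 : Tree :=
  .cut₂ (.cut₁ (.cut₂ (.cut₁ (.cut₂ (.box 881873 288919) (.box 861181 0)) (.box 827701 0))
  (.box 827701 0)) (.box 827701 0)) (.box 827701 0)

theorem part5_15_ok : part5_15.check data5 786432 1048576 524288 1048576 = true := by
  decide +kernel

/-- All the cuts in dimension 5. -/
def tree5 : Tree :=
  (Tree.cut₁ part5_0 (Tree.cut₂ (Tree.cut₁ (Tree.cut₂ part5_1 (Tree.cut₁ part5_2 (Tree.cut₂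
  part5_3 (Tree.cut₁ part5_4 part5_5)))) (Tree.cut₂ part5_6 part5_7)) (Tree.cut₁ (Tree.cut₂
  (Tree.cut₁ part5_8 (Tree.cut₂ (Tree.cut₁ part5_9 (Tree.cut₂ (Tree.cut₁ part5_10 part5_11)
  part5_12)) part5_13)) part5_14) part5_15)))

theorem tree5_ok : tree5.check data5 0 unit 0 unit = true :=
    (check_cut₁ (c := 524288) (by norm_num [unit]) part5_0_ok (check_cut₂ (c := 524288) (by
    norm_num [unit]) (check_cut₁ (c := 786432) (by norm_num [unit]) (check_cut₂ (c := 262144)
    (by norm_num [unit]) part5_1_ok (check_cut₁ (c := 655360) (by norm_num [unit]) part5_2_ok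
    (check_cut₂ (c := 393216) (by norm_num [unit]) part5_3_ok (check_cut₁ (c := 720896) (by
    norm_num [unit]) part5_4_ok part5_5_ok)))) (check_cut₂ (c := 262144) (by norm_num [unit])
    part5_6_ok part5_7_ok)) (check_cut₁ (c := 786432) (by norm_num [unit]) (check_cut₂ (c := 786432)
    (by norm_num [unit]) (check_cut₁ (c := 655360) (by norm_num [unit]) part5_8_ok (check_cut₂
    (c := 655360) (by norm_num [unit]) (check_cut₁ (c := 720896) (by norm_num [unit]) part5_9_ok
    (check_cut₂ (c := 589824) (by norm_num [unit]) (check_cut₁ (c := 753664) (by norm_num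
    [unit]) part5_10_ok part5_11_ok) part5_12_ok)) part5_13_ok)) part5_14_ok) part5_15_ok)))

end Vale.Agent.P237.Quant.WindowCert
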