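import Vale.Agent.P237.Quant.WindowCheck

/-!
The window certificate of the moment excess in dimension 10. The cuts are checked in parts, so
that no kernel computation grows too large.
-/

namespace Vale.Agent.P237.Quant.WindowCert

/-- The shared data in dimension 10. -/
def data10 : Cert where
  m := 9
  s := 476408
  q := 893819
  c := 1124291
  κ := 635232
  I := 45593
  zone₀ := [
    ⟨0, 1048577⟩, ⟨18323, 1048737⟩, ⟨36647, 1049217⟩, ⟨54970, 1050020⟩, ⟨73294, 1051147⟩,
    ⟨91617, 1052602⟩, ⟨109940, 1054388⟩, ⟨128264, 1056510⟩, ⟨146587, 1058975⟩, ⟨164910, 1061790⟩,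
    ⟨183234, 1064962⟩, ⟨201557, 1068502⟩, ⟨219881, 1072420⟩, ⟨238204, 1076727⟩, ⟨256527, 1081438⟩,
    ⟨274851, 1086568⟩, ⟨293174, 1092132⟩, ⟨311498, 1098151⟩, ⟨329821, 1104644⟩, ⟨348144, 1111635⟩,
    ⟨366468, 1119150⟩, ⟨384791, 1127217⟩, ⟨403114, 1135868⟩, ⟨421438, 1145138⟩, ⟨439761, 1155066⟩,
    ⟨458085, 1165697⟩, ⟨476408, 1177079⟩]
  zone₁ := [
    ⟨476408, 1177079⟩, ⟨485895, 1183285⟩, ⟨495381, 1189716⟩, ⟨504868, 1196381⟩, ⟨514354, 1203287⟩,
    ⟨523841, 1210448⟩, ⟨533328, 1217872⟩, ⟨542814, 1225571⟩, ⟨552301, 1233559⟩, ⟨561788, 1241847⟩,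
    ⟨571274, 1250449⟩, ⟨580761, 1259382⟩, ⟨590247, 1268660⟩, ⟨599734, 1278303⟩, ⟨609221, 1288328⟩,
    ⟨618707, 1298755⟩, ⟨628194, 1309608⟩, ⟨637680, 1320907⟩, ⟨647167, 1332682⟩, ⟨656654, 1344958⟩,
    ⟨666140, 1357765⟩, ⟨675627, 1371138⟩, ⟨685114, 1385112⟩, ⟨694600, 1399724⟩, ⟨704087, 1415022⟩,
    ⟨713573, 1431048⟩, ⟨723060, 1447860⟩, ⟨732547, 1465513⟩, ⟨742033, 1484068⟩, ⟨751520, 1503602⟩,
    ⟨761006, 1524190⟩, ⟨770493, 1545924⟩, ⟨779980, 1568903⟩, ⟨789466, 1593236⟩, ⟨798953, 1619057⟩,
    ⟨808439, 1646504⟩, ⟨817926, 1675749⟩, ⟨827413, 1706981⟩, ⟨836899, 1740415⟩, ⟨846386, 1776314⟩,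
    ⟨855873, 1814977⟩, ⟨865359, 1856750⟩, ⟨874846, 1902065⟩, ⟨884332, 1951415⟩, ⟨893819, 2005423⟩]
  zone₂ := [
    ⟨893819, 2005423⟩, ⟨901754, 2054709⟩, ⟨909549, 2107318⟩, ⟨917201, 2163597⟩, ⟨924707, 2223944⟩,
    ⟨932064, 2288821⟩, ⟨939270, 2358775⟩, ⟨946320, 2434419⟩, ⟨953212, 2516510⟩, ⟨959942, 2605925⟩,
    ⟨966506, 2703718⟩, ⟨972899, 2811148⟩, ⟨979117, 2929777⟩, ⟨985155, 3061516⟩, ⟨991007, 3208742⟩,
    ⟨996667, 3374474⟩, ⟨1002128, 3562582⟩, ⟨1007383, 3778165⟩, ⟨1012423, 4027994⟩,
    ⟨1017239, 4321410⟩, ⟨1021820, 4671567⟩, ⟨1026153, 5097677⟩, ⟨1030223, 5629115⟩,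
    ⟨1034012, 6313321⟩, ⟨1037497, 7232440⟩, ⟨1040648, 8543297⟩, ⟨1043427, 10593934⟩,
    ⟨1045773, 14350392⟩, ⟨1047585, 24124076⟩]

theorem data10_wf : data10.wf = true := by decide +kernel

theorem data10_const : constOk data10 = true := by decide +kernel

/-- A part of the boxes. -/
def part10_0 : Tree :=
  .box 1286656 5184445

theorem part10_0_ok : part10_0.check data10 0 524288 0 1048576 = true := by
  decide +kernel

/-- A part of the boxes. -/
def part10_1 : Tree :=
  .box 1057178 3204163

theorem part10_1_ok : part10_1.check data10 524288 786432 0 524288 = true := by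
  decide +kernel

/-- A part of the boxes. -/
def part10_2 : Tree :=
  .box 1057178 3204163

theorem part10_2_ok : part10_2.check data10 786432 1048576 0 262144 = true := by
  decide +kernel

/-- A part of the boxes. -/
def part10_3 : Tree :=
  .cut₂ (.box 1015794 1980282) (.cut₁ (.box 1057178 3204163) (.cut₂ (.box 1003006 3204163)
  (.box 1003006 1223881)))

theorem part10_3_ok : part10_3.check data10 786432 917504 262144 524288 = true := by
  decide +kernel

/-- A part of the boxes. -/
def part10_4 : Tree :=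
  .cut₁ (.box 977429 934962) (.cut₂ (.box 969526 3204163) (.cut₁ (.box 948834 756400) (.cut₂
  (.box 940930 756400) (.cut₁ (.box 936045 756400) (.box 936045 467481)))))

theorem part10_4_ok : part10_4.check data10 917504 1048576 262144 393216 = true := by
  decide +kernel

/-- A part of the boxes. -/
def part10_5 : Tree :=
  .cut₂ (.cut₁ (.box 969526 1223881) (.box 969526 756400)) (.cut₁ (.box 982314 756400) (.box 969526 467481))

theorem part10_5_ok : part10_5.check data10 917504 983040 393216 524288 = true := by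
  decide +kernel

/-- A part of the boxes. -/
def part10_6 : Tree :=
  .cut₂ (.cut₁ (.box 961622 467481) (.cut₂ (.box 945815 399277) (.box 948834 357124))) (.cut₁
  (.box 956737 467481) (.box 948834 288919))

theorem part10_6_ok : part10_6.check data10 983040 1048576 393216 524288 = true := by
  decide +kernel

/-- A part of the boxes. -/
def part10_7 : Tree :=
  .box 1286656 5184445

theorem part10_7_ok : part10_7.check data10 524288 786432 524288 1048576 = true := by
  decide +kernel

/-- A part of the boxes. -/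
def part10_8 : Tree :=
  .cut₁ (.box 1057178 3204163) (.cut₂ (.cut₁ (.box 1057178 3204163) (.box 1003006 1223881))
  (.cut₁ (.box 1023698 1223881) (.box 1003006 756400)))

theorem part10_8_ok : part10_8.check data10 786432 917504 524288 655360 = true := by
  decide +kernel

/-- A part of the boxes. -/
def part10_9 : Tree :=
  .cut₂ (.cut₁ (.out) (.cut₂ (.cut₁ (.out) (.box 1057178 3204163)) (.out))) (.out)

theorem part10_9_ok : part10_9.check data10 786432 851968 655360 786432 = true := by
  decide +kernel

/-- A part of the boxes. -/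
def part10_10 : Tree :=
  .cut₂ (.box 1023698 1980282) (.cut₁ (.cut₂ (.box 1023698 3204163) (.cut₁ (.box 1036486 1223881)
  (.cut₂ (.box 1023698 1980282) (.box 1023698 934962)))) (.cut₂ (.box 1023698 1223881) (.cut₁
  (.box 1026717 1223881) (.box 1023698 1223881))))

theorem part10_10_ok : part10_10.check data10 851968 868352 655360 688128 = true := by
  decide +kernel

/-- A part of the boxes. -/
def part10_11 : Tree :=
  .cut₂ (.box 1023698 1223881) (.cut₁ (.box 1015794 934962) (.box 1003006 756400))

theorem part10_11_ok : part10_11.check data10 868352 884736 655360 688128 = true := by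
  decide +kernel

/-- A part of the boxes. -/
def part10_12 : Tree :=
  .cut₂ (.cut₁ (.out) (.cut₂ (.cut₁ (.box 1023698 756400) (.box 1023698 467481)) (.box 1023698 467481)))
  (.out)

theorem part10_12_ok : part10_12.check data10 851968 860160 688128 704512 = true := by
  decide +kernel

/-- A part of the boxes. -/
def part10_13 : Tree :=
  .cut₁ (.cut₂ (.cut₁ (.box 1023698 756400) (.box 1023698 756400)) (.cut₁ (.box 1023698 467481)
  (.box 1023698 467481))) (.cut₂ (.box 1018813 714248) (.cut₁ (.box 1023698 467481) (.box 1023698 467481)))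

theorem part10_13_ok : part10_13.check data10 860160 868352 688128 696320 = true := by
  decide +kernel

/-- A part of the boxes. -/
def part10_14 : Tree :=
  .cut₁ (.cut₂ (.box 1023698 467481) (.box 1023698 467481)) (.cut₂ (.cut₁ (.box 1023698 467481)
  (.box 1023698 467481)) (.box 1023698 467481))

theorem part10_14_ok : part10_14.check data10 860160 868352 696320 704512 = true := by
  decide +kernel

/-- A part of the boxes. -/
def part10_15 : Tree :=
  .cut₁ (.out) (.cut₂ (.cut₁ (.out) (.box 1023698 467481)) (.out))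

theorem part10_15_ok : part10_15.check data10 851968 868352 704512 720896 = true := by
  decide +kernel

/-- A part of the boxes. -/
def part10_16 : Tree :=
  .cut₂ (.cut₁ (.cut₂ (.box 1023698 756400) (.cut₁ (.box 1015794 756400) (.box 1015794 756400)))
  (.box 1010910 646043)) (.cut₁ (.cut₂ (.box 1015898 485931) (.box 1015794 467481)) (.cut₂
  (.box 1010910 467481) (.box 1010910 467481)))

theorem part10_16_ok : part10_16.check data10 868352 876544 688128 704512 = true := by
  decide +kernel

/-- A part of the boxes. -/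
def part10_17 : Tree :=
  .cut₂ (.box 1007891 756400) (.cut₁ (.box 1010910 467481) (.box 1003006 467481))

theorem part10_17_ok : part10_17.check data10 876544 884736 688128 704512 = true := by
  decide +kernel

/-- A part of the boxes. -/
def part10_18 : Tree :=
  .cut₁ (.cut₂ (.cut₁ (.box 1023698 288919) (.box 1010910 357124)) (.box 1023698 288919))
  (.cut₂ (.cut₁ (.box 1010910 467481) (.box 1003006 467481)) (.box 1010910 288919))

theorem part10_18_ok : part10_18.check data10 868352 884736 704512 720896 = true := by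
  decide +kernel

/-- A part of the boxes. -/
def part10_19 : Tree :=
  .cut₂ (.cut₁ (.box 1003006 756400) (.box 1003006 756400)) (.cut₁ (.cut₂ (.cut₁ (.box 998121 467481)
  (.box 998121 756400)) (.cut₁ (.cut₂ (.box 1003006 467481) (.box 1003006 467481)) (.box 1003006 467481)))
  (.box 990218 467481))

theorem part10_19_ok : part10_19.check data10 884736 917504 655360 720896 = true := by
  decide +kernel

/-- A part of the boxes. -/
def part10_20 : Tree :=
  .cut₁ (.cut₂ (.cut₁ (.out) (.cut₂ (.cut₁ (.box 1003006 0) (.box 1003006 0)) (.box 1003006 0)))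
  (.out)) (.cut₂ (.cut₁ (.cut₂ (.cut₁ (.box 1003006 288919) (.box 995102 0)) (.box 1003006 0))
  (.box 990218 288919)) (.box 1003006 0))

theorem part10_20_ok : part10_20.check data10 851968 917504 720896 786432 = true := by
  decide +kernel

/-- A part of the boxes. -/
def part10_21 : Tree :=
  .cut₁ (.cut₂ (.cut₁ (.box 982314 756400) (.box 969526 467481)) (.cut₁ (.box 982314 467481)
  (.box 969526 467481))) (.cut₂ (.cut₁ (.box 969526 288919) (.box 936045 288919)) (.box 956025 0))

theorem part10_21_ok : part10_21.check data10 917504 1048576 524288 655360 = true := by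
  decide +kernel

/-- A part of the boxes. -/
def part10_22 : Tree :=
  .cut₁ (.cut₂ (.cut₁ (.box 982314 467481) (.box 969526 0)) (.box 969526 0)) (.box 969526 0)

theorem part10_22_ok : part10_22.check data10 917504 1048576 655360 786432 = true := by
  decide +kernel

/-- A part of the boxes. -/
def part10_23 : Tree :=
  .cut₁ (.cut₂ (.cut₁ (.out) (.box 1003006 0)) (.out)) (.box 969526 0)

theorem part10_23_ok : part10_23.check data10 786432 1048576 786432 1048576 = true := by
  decide +kernel

/-- All the cuts in dimension 10. -/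
def tree10 : Tree :=
  (Tree.cut₁ part10_0 (Tree.cut₂ (Tree.cut₁ part10_1 (Tree.cut₂ part10_2 (Tree.cut₁ part10_3
  (Tree.cut₂ part10_4 (Tree.cut₁ part10_5 part10_6))))) (Tree.cut₁ part10_7 (Tree.cut₂
  (Tree.cut₁ (Tree.cut₂ part10_8 (Tree.cut₁ part10_9 (Tree.cut₂ (Tree.cut₁ (Tree.cut₂
  (Tree.cut₁ part10_10 part10_11) (Tree.cut₁ (Tree.cut₂ (Tree.cut₁ part10_12 (Tree.cut₂
  part10_13 part10_14)) part10_15) (Tree.cut₂ (Tree.cut₁ part10_16 part10_17) part10_18)))
  part10_19) part10_20))) (Tree.cut₂ part10_21 part10_22)) part10_23))))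

theorem tree10_ok : tree10.check data10 0 unit 0 unit = true :=
    (check_cut₁ (c := 524288) (by norm_num [unit]) part10_0_ok (check_cut₂ (c := 524288) (by
    norm_num [unit]) (check_cut₁ (c := 786432) (by norm_num [unit]) part10_1_ok (check_cut₂ (c
    := 262144) (by norm_num [unit]) part10_2_ok (check_cut₁ (c := 917504) (by norm_num [unit])
    part10_3_ok (check_cut₂ (c := 393216) (by norm_num [unit]) part10_4_ok (check_cut₁ (c := 983040)
    (by norm_num [unit]) part10_5_ok part10_6_ok))))) (check_cut₁ (c := 786432) (by norm_num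
    [unit]) part10_7_ok (check_cut₂ (c := 786432) (by norm_num [unit]) (check_cut₁ (c := 917504)
    (by norm_num [unit]) (check_cut₂ (c := 655360) (by norm_num [unit]) part10_8_ok (check_cut₁
    (c := 851968) (by norm_num [unit]) part10_9_ok (check_cut₂ (c := 720896) (by norm_num
    [unit]) (check_cut₁ (c := 884736) (by norm_num [unit]) (check_cut₂ (c := 688128) (by
    norm_num [unit]) (check_cut₁ (c := 868352) (by norm_num [unit]) part10_10_ok part10_11_ok)
    (check_cut₁ (c := 868352) (by norm_num [unit]) (check_cut₂ (c := 704512) (by norm_num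
    [unit]) (check_cut₁ (c := 860160) (by norm_num [unit]) part10_12_ok (check_cut₂ (c := 696320)
    (by norm_num [unit]) part10_13_ok part10_14_ok)) part10_15_ok) (check_cut₂ (c := 704512) (by
    norm_num [unit]) (check_cut₁ (c := 876544) (by norm_num [unit]) part10_16_ok part10_17_ok)
    part10_18_ok))) part10_19_ok) part10_20_ok))) (check_cut₂ (c := 655360) (by norm_num [unit])
    part10_21_ok part10_22_ok)) part10_23_ok))))

end Vale.Agent.P237.Quant.WindowCert
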