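import Vale.Agent.P237.Quant.WindowCheck

/-!
The window certificate of the moment excess in dimension 11. The cuts are checked in parts, so
that no kernel computation grows too large.
-/

namespace Vale.Agent.P237.Quant.WindowCert

/-- The shared data in dimension 11. -/
def data11 : Cert where
  m := 10
  s := 457231
  q := 876074
  c := 1117220
  κ := 609881
  I := 48145
  zone₀ := [
    ⟨0, 1048577⟩, ⟨17586, 1048724⟩, ⟨35172, 1049167⟩, ⟨52757, 1049906⟩, ⟨70343, 1050944⟩,
    ⟨87929, 1052283⟩, ⟨105515, 1053926⟩, ⟨123101, 1055878⟩, ⟨140686, 1058144⟩, ⟨158272, 1060729⟩,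
    ⟨175858, 1063642⟩, ⟨193444, 1066889⟩, ⟨211030, 1070479⟩, ⟨228616, 1074424⟩, ⟨246201, 1078733⟩,
    ⟨263787, 1083419⟩, ⟨281373, 1088497⟩, ⟨298959, 1093982⟩, ⟨316545, 1099891⟩, ⟨334130, 1106243⟩,
    ⟨351716, 1113058⟩, ⟨369302, 1120361⟩, ⟨386888, 1128177⟩, ⟨404474, 1136534⟩, ⟨422059, 1145463⟩,
    ⟨439645, 1155001⟩, ⟨457231, 1165185⟩]
  zone₁ := [
    ⟨457231, 1165185⟩, ⟨466750, 1170983⟩, ⟨476269, 1176990⟩, ⟨485788, 1183214⟩, ⟨495308, 1189666⟩,
    ⟨504827, 1196351⟩, ⟨514346, 1203281⟩, ⟨523865, 1210466⟩, ⟨533384, 1217917⟩, ⟨542903, 1225645⟩,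
    ⟨552423, 1233663⟩, ⟨561942, 1241984⟩, ⟨571461, 1250622⟩, ⟨580980, 1259592⟩, ⟨590499, 1268912⟩,
    ⟨600018, 1278597⟩, ⟨609538, 1288670⟩, ⟨619057, 1299148⟩, ⟨628576, 1310054⟩, ⟨638095, 1321412⟩,
    ⟨647614, 1333249⟩, ⟨657133, 1345592⟩, ⟨666652, 1358472⟩, ⟨676172, 1371924⟩, ⟨685691, 1385982⟩,
    ⟨695210, 1400687⟩, ⟨704729, 1416083⟩, ⟨714248, 1432218⟩, ⟨723767, 1449146⟩, ⟨733287, 1466927⟩,
    ⟨742806, 1485622⟩, ⟨752325, 1505307⟩, ⟨761844, 1526062⟩, ⟨771363, 1547978⟩, ⟨780882, 1571156⟩,
    ⟨790402, 1595715⟩, ⟨799921, 1621780⟩, ⟨809440, 1649502⟩, ⟨818959, 1679050⟩, ⟨828478, 1710620⟩,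
    ⟨837997, 1744438⟩, ⟨847517, 1780772⟩, ⟨857036, 1819923⟩, ⟨866555, 1862258⟩, ⟨876074, 1908214⟩]
  zone₂ := [
    ⟨876074, 1908214⟩, ⟨884919, 1954615⟩, ⟨893608, 2004166⟩, ⟨902137, 2057192⟩, ⟨910504, 2114078⟩,
    ⟨918704, 2175249⟩, ⟨926736, 2241234⟩, ⟨934595, 2312616⟩, ⟨942278, 2390109⟩, ⟨949779, 2474524⟩,
    ⟨957096, 2566888⟩, ⟨964222, 2668376⟩, ⟨971153, 2780471⟩, ⟨977883, 2904978⟩, ⟨984406, 3044157⟩,
    ⟨990715, 3200865⟩, ⟨996802, 3378759⟩, ⟨1002659, 3582659⟩, ⟨1008278, 3819059⟩,
    ⟨1013646, 4096688⟩, ⟨1018752, 4428047⟩, ⟨1023582, 4831373⟩, ⟨1028119, 5334485⟩,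
    ⟨1032342, 5982182⟩, ⟨1036226, 6852262⟩, ⟨1039739, 8093743⟩, ⟨1042836, 10035155⟩,
    ⟨1045452, 13594182⟩, ⟨1047471, 22846422⟩]

theorem data11_wf : data11.wf = true := by decide +kernel

theorem data11_const : constOk data11 = true := by decide +kernel

/-- A part of the boxes. -/
def part11_0 : Tree :=
  .box 1286656 5184445

theorem part11_0_ok : part11_0.check data11 0 524288 0 1048576 = true := by
  decide +kernel

/-- A part of the boxes. -/
def part11_1 : Tree :=
  .box 1057178 3204163

theorem part11_1_ok : part11_1.check data11 524288 786432 0 524288 = true := by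
  decide +kernel

/-- A part of the boxes. -/
def part11_2 : Tree :=
  .box 1057178 3204163

theorem part11_2_ok : part11_2.check data11 786432 1048576 0 262144 = true := by
  decide +kernel

/-- A part of the boxes. -/
def part11_3 : Tree :=
  .cut₂ (.box 1057178 3204163) (.cut₁ (.box 1057178 3204163) (.box 1015794 3204163))

theorem part11_3_ok : part11_3.check data11 786432 917504 262144 524288 = true := by
  decide +kernel

/-- A part of the boxes. -/
def part11_4 : Tree :=
  .cut₁ (.box 982314 1223881) (.cut₂ (.box 915353 5184445) (.cut₁ (.box 969526 1223881) (.cut₂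
  (.box 948834 3204163) (.cut₁ (.box 969526 756400) (.box 948834 756400)))))

theorem part11_4_ok : part11_4.check data11 917504 1048576 262144 393216 = true := by
  decide +kernel

/-- A part of the boxes. -/
def part11_5 : Tree :=
  .cut₂ (.cut₁ (.box 1003006 1980282) (.box 982314 756400)) (.cut₁ (.box 990218 1223881) (.box 982314 646043))

theorem part11_5_ok : part11_5.check data11 917504 983040 393216 524288 = true := by
  decide +kernel

/-- A part of the boxes. -/
def part11_6 : Tree :=
  .cut₁ (.box 969526 577838) (.cut₂ (.cut₁ (.box 948834 756400) (.box 948834 467481)) (.cut₁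
  (.box 969526 467481) (.box 948834 467481)))

theorem part11_6_ok : part11_6.check data11 983040 1048576 393216 458752 = true := by
  decide +kernel

/-- A part of the boxes. -/
def part11_7 : Tree :=
  .cut₁ (.cut₂ (.box 969526 467481) (.box 969526 467481)) (.cut₂ (.cut₁ (.box 948834 467481)
  (.box 956737 288919)) (.box 956737 288919))

theorem part11_7_ok : part11_7.check data11 983040 1048576 458752 524288 = true := by
  decide +kernel

/-- A part of the boxes. -/
def part11_8 : Tree :=
  .box 1286656 5184445

theorem part11_8_ok : part11_8.check data11 524288 786432 524288 1048576 = true := by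
  decide +kernel

/-- A part of the boxes. -/
def part11_9 : Tree :=
  .cut₁ (.box 1057178 3204163) (.cut₂ (.box 1023698 1223881) (.cut₁ (.box 1057178 3204163)
  (.box 1023698 1223881)))

theorem part11_9_ok : part11_9.check data11 786432 917504 524288 655360 = true := by
  decide +kernel

/-- A part of the boxes. -/
def part11_10 : Tree :=
  .box 1057178 3204163

theorem part11_10_ok : part11_10.check data11 786432 851968 655360 786432 = true := by
  decide +kernel

/-- A part of the boxes. -/
def part11_11 : Tree :=
  .box 1036486 1223881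

theorem part11_11_ok : part11_11.check data11 851968 884736 655360 688128 = true := by
  decide +kernel

/-- A part of the boxes. -/
def part11_12 : Tree :=
  .box 1057178 3204163

theorem part11_12_ok : part11_12.check data11 851968 868352 688128 720896 = true := by
  decide +kernel

/-- A part of the boxes. -/
def part11_13 : Tree :=
  .cut₁ (.box 1036486 1980282) (.box 1023698 1223881)

theorem part11_13_ok : part11_13.check data11 868352 884736 688128 704512 = true := by
  decide +kernel

/-- A part of the boxes. -/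
def part11_14 : Tree :=
  .cut₂ (.cut₁ (.cut₂ (.box 1036486 1980282) (.box 1033468 756400)) (.cut₂ (.box 1023698 1223881)
  (.cut₁ (.box 1031602 756400) (.box 1028583 756400)))) (.cut₁ (.out) (.cut₂ (.cut₁ (.box 1031602 756400)
  (.box 1028583 467481)) (.box 1036486 467481)))

theorem part11_14_ok : part11_14.check data11 868352 876544 704512 720896 = true := by
  decide +kernel

/-- A part of the boxes. -/
def part11_15 : Tree :=
  .cut₁ (.cut₂ (.box 1023698 1223881) (.cut₁ (.box 1023698 756400) (.box 1023698 756400)))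
  (.box 1023698 756400)

theorem part11_15_ok : part11_15.check data11 876544 884736 704512 712704 = true := by
  decide +kernel

/-- A part of the boxes. -/
def part11_16 : Tree :=
  .cut₁ (.cut₂ (.cut₁ (.box 1026717 467481) (.box 1023698 577838)) (.cut₁ (.box 1023698 467481)
  (.box 1023698 467481))) (.cut₂ (.cut₁ (.box 1023698 756400) (.box 1023698 756400)) (.cut₁
  (.box 1023698 467481) (.box 1023698 467481)))

theorem part11_16_ok : part11_16.check data11 876544 884736 712704 720896 = true := by
  decide +kernel

/-- A part of the boxes. -/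
def part11_17 : Tree :=
  .cut₁ (.box 1023698 1223881) (.box 1003006 756400)

theorem part11_17_ok : part11_17.check data11 884736 917504 655360 688128 = true := by
  decide +kernel

/-- A part of the boxes. -/
def part11_18 : Tree :=
  .cut₂ (.box 1010910 756400) (.cut₁ (.cut₂ (.box 1015794 756400) (.cut₁ (.cut₂ (.box 1023698 756400)
  (.box 1018813 535686)) (.box 1015794 646043))) (.cut₂ (.box 1003006 756400) (.box 1010910 646043)))

theorem part11_18_ok : part11_18.check data11 884736 901120 688128 720896 = true := by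
  decide +kernel

/-- A part of the boxes. -/
def part11_19 : Tree :=
  .cut₂ (.box 1003006 756400) (.box 1001140 467481)

theorem part11_19_ok : part11_19.check data11 901120 917504 688128 720896 = true := by
  decide +kernel

/-- A part of the boxes. -/
def part11_20 : Tree :=
  .cut₂ (.cut₁ (.out) (.cut₂ (.cut₁ (.out) (.cut₂ (.cut₁ (.box 1028583 357124) (.cut₂ (.cut₁
  (.box 1023698 467481) (.box 1023698 467481)) (.box 1023698 467481))) (.box 1023698 288919)))
  (.out))) (.out)

theorem part11_20_ok : part11_20.check data11 851968 884736 720896 786432 = true := by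
  decide +kernel

/-- A part of the boxes. -/
def part11_21 : Tree :=
  .cut₂ (.cut₁ (.cut₂ (.box 1018813 467481) (.box 1023698 467481)) (.cut₂ (.box 1015794 467481)
  (.box 1023698 467481))) (.cut₁ (.box 1023698 288919) (.box 1015794 288919))

theorem part11_21_ok : part11_21.check data11 884736 892928 720896 737280 = true := by
  decide +kernel

/-- A part of the boxes. -/
def part11_22 : Tree :=
  .cut₂ (.cut₁ (.box 1010910 467481) (.box 1003006 467481)) (.cut₁ (.box 1010910 467481) (.box 1003006 467481))

theorem part11_22_ok : part11_22.check data11 892928 901120 720896 737280 = true := by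
  decide +kernel

/-- A part of the boxes. -/
def part11_23 : Tree :=
  .cut₁ (.box 1023698 288919) (.box 1010910 178562)

theorem part11_23_ok : part11_23.check data11 884736 901120 737280 753664 = true := by
  decide +kernel

/-- A part of the boxes. -/
def part11_24 : Tree :=
  .cut₂ (.cut₁ (.box 1003006 467481) (.box 1003006 467481)) (.cut₁ (.box 1003006 288919) (.box 1003006 467481))

theorem part11_24_ok : part11_24.check data11 901120 917504 720896 753664 = true := by
  decide +kernel

/-- A part of the boxes. -/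
def part11_25 : Tree :=
  .cut₁ (.box 1003006 0) (.box 1003006 0)

theorem part11_25_ok : part11_25.check data11 884736 917504 753664 786432 = true := by
  decide +kernel

/-- A part of the boxes. -/
def part11_26 : Tree :=
  .cut₁ (.cut₂ (.cut₁ (.box 1003006 756400) (.box 982314 467481)) (.cut₁ (.box 995102 756400)
  (.box 982314 467481))) (.cut₂ (.cut₁ (.box 969526 357124) (.box 948834 288919)) (.box 969526 178562))

theorem part11_26_ok : part11_26.check data11 917504 1048576 524288 655360 = true := by
  decide +kernel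

/-- A part of the boxes. -/
def part11_27 : Tree :=
  .cut₁ (.cut₂ (.cut₁ (.cut₂ (.box 990218 467481) (.box 990218 467481)) (.box 982314 467481))
  (.cut₁ (.cut₂ (.box 990218 288919) (.box 990218 0)) (.box 969526 0))) (.box 969526 0)

theorem part11_27_ok : part11_27.check data11 917504 1048576 655360 786432 = true := by
  decide +kernel

/-- A part of the boxes. -/
def part11_28 : Tree :=
  .cut₁ (.cut₂ (.cut₁ (.out) (.cut₂ (.cut₁ (.out) (.box 1003006 0)) (.out))) (.out)) (.box 969526 0)

theorem part11_28_ok : part11_28.check data11 786432 1048576 786432 1048576 = true := by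
  decide +kernel

/-- All the cuts in dimension 11. -/
def tree11 : Tree :=
  (Tree.cut₁ part11_0 (Tree.cut₂ (Tree.cut₁ part11_1 (Tree.cut₂ part11_2 (Tree.cut₁ part11_3
  (Tree.cut₂ part11_4 (Tree.cut₁ part11_5 (Tree.cut₂ part11_6 part11_7)))))) (Tree.cut₁
  part11_8 (Tree.cut₂ (Tree.cut₁ (Tree.cut₂ part11_9 (Tree.cut₁ part11_10 (Tree.cut₂
  (Tree.cut₁ (Tree.cut₂ part11_11 (Tree.cut₁ part11_12 (Tree.cut₂ part11_13 (Tree.cut₁
  part11_14 (Tree.cut₂ part11_15 part11_16))))) (Tree.cut₂ part11_17 (Tree.cut₁ part11_18
  part11_19))) (Tree.cut₁ part11_20 (Tree.cut₂ (Tree.cut₁ (Tree.cut₂ (Tree.cut₁ part11_21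
  part11_22) part11_23) part11_24) part11_25))))) (Tree.cut₂ part11_26 part11_27))
  part11_28))))

theorem tree11_ok : tree11.check data11 0 unit 0 unit = true :=
    (check_cut₁ (c := 524288) (by norm_num [unit]) part11_0_ok (check_cut₂ (c := 524288) (by
    norm_num [unit]) (check_cut₁ (c := 786432) (by norm_num [unit]) part11_1_ok (check_cut₂ (c
    := 262144) (by norm_num [unit]) part11_2_ok (check_cut₁ (c := 917504) (by norm_num [unit])
    part11_3_ok (check_cut₂ (c := 393216) (by norm_num [unit]) part11_4_ok (check_cut₁ (c := 983040)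
    (by norm_num [unit]) part11_5_ok (check_cut₂ (c := 458752) (by norm_num [unit]) part11_6_ok
    part11_7_ok)))))) (check_cut₁ (c := 786432) (by norm_num [unit]) part11_8_ok (check_cut₂ (c
    := 786432) (by norm_num [unit]) (check_cut₁ (c := 917504) (by norm_num [unit]) (check_cut₂
    (c := 655360) (by norm_num [unit]) part11_9_ok (check_cut₁ (c := 851968) (by norm_num
    [unit]) part11_10_ok (check_cut₂ (c := 720896) (by norm_num [unit]) (check_cut₁ (c := 884736)
    (by norm_num [unit]) (check_cut₂ (c := 688128) (by norm_num [unit]) part11_11_ok (check_cut₁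
    (c := 868352) (by norm_num [unit]) part11_12_ok (check_cut₂ (c := 704512) (by norm_num
    [unit]) part11_13_ok (check_cut₁ (c := 876544) (by norm_num [unit]) part11_14_ok (check_cut₂
    (c := 712704) (by norm_num [unit]) part11_15_ok part11_16_ok))))) (check_cut₂ (c := 688128)
    (by norm_num [unit]) part11_17_ok (check_cut₁ (c := 901120) (by norm_num [unit])
    part11_18_ok part11_19_ok))) (check_cut₁ (c := 884736) (by norm_num [unit]) part11_20_ok
    (check_cut₂ (c := 753664) (by norm_num [unit]) (check_cut₁ (c := 901120) (by norm_num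
    [unit]) (check_cut₂ (c := 737280) (by norm_num [unit]) (check_cut₁ (c := 892928) (by
    norm_num [unit]) part11_21_ok part11_22_ok) part11_23_ok) part11_24_ok) part11_25_ok)))))
    (check_cut₂ (c := 655360) (by norm_num [unit]) part11_26_ok part11_27_ok)) part11_28_ok))))

end Vale.Agent.P237.Quant.WindowCert
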