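import Vale.Agent.P237.Quant.WindowCheck

/-!
The window certificate of the moment excess in dimension 12. The cuts are checked in parts, so
that no kernel computation grows too large.
-/

namespace Vale.Agent.P237.Quant.WindowCert

/-- The shared data in dimension 12. -/
def data12 : Cert where
  m := 11
  s := 440190
  q := 859104
  c := 1111356
  κ := 587295
  I := 50443
  zone₀ := [
    ⟨0, 1048577⟩, ⟨16930, 1048713⟩, ⟨33861, 1049124⟩, ⟨50791, 1049809⟩, ⟨67722, 1050770⟩,
    ⟨84652, 1052010⟩, ⟨101582, 1053532⟩, ⟨118513, 1055339⟩, ⟨135443, 1057435⟩, ⟨152373, 1059826⟩,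
    ⟨169304, 1062518⟩, ⟨186234, 1065517⟩, ⟨203165, 1068831⟩, ⟨220095, 1072468⟩, ⟨237025, 1076438⟩,
    ⟨253956, 1080752⟩, ⟨270886, 1085421⟩, ⟨287817, 1090459⟩, ⟨304747, 1095879⟩, ⟨321677, 1101698⟩,
    ⟨338608, 1107933⟩, ⟨355538, 1114603⟩, ⟨372468, 1121730⟩, ⟨389399, 1129336⟩, ⟨406329, 1137448⟩,
    ⟨423260, 1146095⟩, ⟨440190, 1155306⟩]
  zone₁ := [
    ⟨440190, 1155306⟩, ⟨449711, 1160748⟩, ⟨459232, 1166387⟩, ⟨468752, 1172228⟩, ⟨478273, 1178282⟩,
    ⟨487794, 1184555⟩, ⟨497315, 1191055⟩, ⟨506835, 1197792⟩, ⟨516356, 1204777⟩, ⟨525877, 1212019⟩,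
    ⟨535398, 1219529⟩, ⟨544918, 1227317⟩, ⟨554439, 1235400⟩, ⟨563960, 1243788⟩, ⟨573481, 1252497⟩,
    ⟨583002, 1261542⟩, ⟨592522, 1270939⟩, ⟨602043, 1280707⟩, ⟨611564, 1290865⟩, ⟨621085, 1301435⟩,
    ⟨630605, 1312436⟩, ⟨640126, 1323896⟩, ⟨649647, 1335841⟩, ⟨659168, 1348299⟩, ⟨668689, 1361301⟩,
    ⟨678209, 1374880⟩, ⟨687730, 1389076⟩, ⟨697251, 1403928⟩, ⟨706772, 1419482⟩, ⟨716292, 1435784⟩,
    ⟨725813, 1452893⟩, ⟨735334, 1470867⟩, ⟨744855, 1489773⟩, ⟨754376, 1509686⟩, ⟨763896, 1530685⟩,
    ⟨773417, 1552869⟩, ⟨782938, 1576339⟩, ⟨792459, 1601215⟩, ⟨801979, 1627628⟩, ⟨811500, 1655735⟩,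
    ⟨821021, 1685710⟩, ⟨830542, 1717753⟩, ⟨840062, 1752096⟩, ⟨849583, 1789018⟩, ⟨859104, 1828836⟩]
  zone₂ := [
    ⟨859104, 1828836⟩, ⟨868819, 1872842⟩, ⟨878363, 1919860⟩, ⟨887731, 1970194⟩, ⟨896921, 2024213⟩,
    ⟨905928, 2082326⟩, ⟨914750, 2145030⟩, ⟨923382, 2212888⟩, ⟨931821, 2286578⟩, ⟨940060, 2366875⟩,
    ⟨948096, 2454747⟩, ⟨955924, 2551347⟩, ⟨963536, 2658044⟩, ⟨970928, 2776594⟩, ⟨978093, 2909151⟩,
    ⟨985022, 3058411⟩, ⟨991709, 3227932⟩, ⟨998142, 3422230⟩, ⟨1004313, 3647512⟩,
    ⟨1010210, 3912200⟩, ⟨1015818, 4228097⟩, ⟨1021123, 4612659⟩, ⟨1026106, 5092401⟩,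
    ⟨1030745, 5710199⟩, ⟨1035012, 6540336⟩, ⟨1038870, 7724530⟩, ⟨1042272, 9577023⟩,
    ⟨1045144, 12970804⟩, ⟨1047363, 21806206⟩]

theorem data12_wf : data12.wf = true := by decide +kernel

theorem data12_const : constOk data12 = true := by decide +kernel

/-- A part of the boxes. -/
def part12_0 : Tree :=
  .box 1286656 5184445

theorem part12_0_ok : part12_0.check data12 0 524288 0 1048576 = true := by
  decide +kernel

/-- A part of the boxes. -/
def part12_1 : Tree :=
  .box 1144831 3204163

theorem part12_1_ok : part12_1.check data12 524288 786432 0 524288 = true := by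
  decide +kernel

/-- A part of the boxes. -/
def part12_2 : Tree :=
  .box 1057178 3204163

theorem part12_2_ok : part12_2.check data12 786432 1048576 0 262144 = true := by
  decide +kernel

/-- A part of the boxes. -/
def part12_3 : Tree :=
  .cut₂ (.box 1057178 3204163) (.cut₁ (.box 1057178 3204163) (.box 1057178 3204163))

theorem part12_3_ok : part12_3.check data12 786432 917504 262144 524288 = true := by
  decide +kernel

/-- A part of the boxes. -/
def part12_4 : Tree :=
  .cut₁ (.box 1003006 3204163) (.cut₂ (.box 915353 5184445) (.cut₁ (.box 969526 1980282)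
  (.cut₂ (.box 969526 3204163) (.cut₁ (.box 969526 1980282) (.box 969526 1223881)))))

theorem part12_4_ok : part12_4.check data12 917504 1048576 262144 393216 = true := by
  decide +kernel

/-- A part of the boxes. -/
def part12_5 : Tree :=
  .cut₂ (.cut₁ (.box 1003006 3204163) (.box 982314 1223881)) (.cut₁ (.box 1003006 1223881)
  (.box 990218 756400))

theorem part12_5_ok : part12_5.check data12 917504 983040 393216 524288 = true := by
  decide +kernel

/-- A part of the boxes. -/
def part12_6 : Tree :=
  .cut₁ (.box 982314 646043) (.cut₂ (.cut₁ (.box 969526 756400) (.box 961622 467481)) (.cut₁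
  (.box 969526 467481) (.box 961622 467481)))

theorem part12_6_ok : part12_6.check data12 983040 1048576 393216 458752 = true := by
  decide +kernel

/-- A part of the boxes. -/
def part12_7 : Tree :=
  .cut₁ (.cut₂ (.box 982314 577838) (.box 982314 467481)) (.cut₂ (.cut₁ (.box 969526 467481)
  (.box 956737 467481)) (.cut₁ (.box 969526 467481) (.box 969526 288919)))

theorem part12_7_ok : part12_7.check data12 983040 1048576 458752 524288 = true := by
  decide +kernel

/-- A part of the boxes. -/
def part12_8 : Tree :=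
  .box 1286656 5184445

theorem part12_8_ok : part12_8.check data12 524288 786432 524288 1048576 = true := by
  decide +kernel

/-- A part of the boxes. -/
def part12_9 : Tree :=
  .cut₁ (.box 1057178 3204163) (.cut₂ (.box 1036486 3204163) (.cut₁ (.box 1057178 3204163)
  (.box 1023698 1980282)))

theorem part12_9_ok : part12_9.check data12 786432 917504 524288 655360 = true := by
  decide +kernel

/-- A part of the boxes. -/
def part12_10 : Tree :=
  .box 1057178 3204163

theorem part12_10_ok : part12_10.check data12 786432 851968 655360 786432 = true := by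
  decide +kernel

/-- A part of the boxes. -/
def part12_11 : Tree :=
  .cut₁ (.cut₂ (.box 1057178 3204163) (.cut₁ (.box 1057178 3204163) (.box 1057178 3204163)))
  (.cut₂ (.box 1023698 1223881) (.cut₁ (.box 1031602 1223881) (.box 1015794 756400)))

theorem part12_11_ok : part12_11.check data12 851968 917504 655360 720896 = true := by
  decide +kernel

/-- A part of the boxes. -/
def part12_12 : Tree :=
  .cut₂ (.cut₁ (.out) (.cut₂ (.cut₁ (.out) (.cut₂ (.cut₁ (.out) (.box 1036486 1980282))
  (.out))) (.out))) (.out)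

theorem part12_12_ok : part12_12.check data12 851968 884736 720896 786432 = true := by
  decide +kernel

/-- A part of the boxes. -/
def part12_13 : Tree :=
  .cut₁ (.box 1036486 1223881) (.box 1036486 1223881)

theorem part12_13_ok : part12_13.check data12 884736 892928 720896 729088 = true := by
  decide +kernel

/-- A part of the boxes. -/
def part12_14 : Tree :=
  .cut₁ (.cut₂ (.cut₁ (.box 1036486 756400) (.box 1031602 756400)) (.cut₁ (.out) (.box 1036486 467481)))
  (.cut₂ (.cut₁ (.box 1031602 756400) (.box 1023698 756400)) (.cut₁ (.box 1031602 467481)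
  (.box 1028583 467481)))

theorem part12_14_ok : part12_14.check data12 884736 892928 729088 737280 = true := by
  decide +kernel

/-- A part of the boxes. -/
def part12_15 : Tree :=
  .cut₂ (.box 1023698 756400) (.cut₁ (.cut₂ (.box 1023698 756400) (.cut₁ (.box 1023698 577838)
  (.box 1023698 756400))) (.cut₂ (.box 1023698 756400) (.box 1023698 756400)))

theorem part12_15_ok : part12_15.check data12 892928 901120 720896 737280 = true := by
  decide +kernel

/-- A part of the boxes. -/
def part12_16 : Tree :=
  .cut₂ (.cut₁ (.out) (.cut₂ (.cut₁ (.box 1036486 467481) (.box 1023698 467481)) (.box 1036486 467481)))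
  (.out)

theorem part12_16_ok : part12_16.check data12 884736 892928 737280 753664 = true := by
  decide +kernel

/-- A part of the boxes. -/
def part12_17 : Tree :=
  .cut₁ (.cut₂ (.cut₁ (.box 1023698 467481) (.box 1023698 467481)) (.cut₁ (.box 1023698 467481)
  (.box 1023698 467481))) (.cut₂ (.cut₁ (.box 1023698 467481) (.box 1023698 467481)) (.box 1023698 467481))

theorem part12_17_ok : part12_17.check data12 892928 901120 737280 745472 = true := by
  decide +kernel

/-- A part of the boxes. -/
def part12_18 : Tree :=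
  .cut₁ (.box 1023698 288919) (.cut₂ (.box 1023698 467481) (.box 1023698 467481))

theorem part12_18_ok : part12_18.check data12 892928 901120 745472 753664 = true := by
  decide +kernel

/-- A part of the boxes. -/
def part12_19 : Tree :=
  .cut₁ (.cut₂ (.box 1023698 756400) (.cut₁ (.box 1023698 756400) (.box 1023698 756400)))
  (.box 1010910 756400)

theorem part12_19_ok : part12_19.check data12 901120 917504 720896 737280 = true := by
  decide +kernel

/-- A part of the boxes. -/
def part12_20 : Tree :=
  .cut₁ (.cut₂ (.cut₁ (.cut₂ (.box 1023698 467481) (.box 1023698 467481)) (.box 1015794 467481))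
  (.cut₁ (.cut₂ (.box 1023698 467481) (.box 1023698 467481)) (.box 1015794 467481))) (.cut₂
  (.box 1010910 467481) (.box 1010910 467481))

theorem part12_20_ok : part12_20.check data12 901120 917504 737280 753664 = true := by
  decide +kernel

/-- A part of the boxes. -/
def part12_21 : Tree :=
  .cut₁ (.cut₂ (.cut₁ (.out) (.box 1023698 288919)) (.out)) (.cut₂ (.cut₁ (.cut₂ (.cut₁ (.box 1023698 288919)
  (.box 1023698 288919)) (.box 1023698 0)) (.cut₂ (.box 1010910 288919) (.box 1010910 0)))
  (.box 1015794 0))

theorem part12_21_ok : part12_21.check data12 884736 917504 753664 786432 = true := by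
  decide +kernel

/-- A part of the boxes. -/
def part12_22 : Tree :=
  .cut₂ (.cut₁ (.box 1003006 756400) (.cut₂ (.box 990218 756400) (.box 990218 577838))) (.cut₁
  (.box 1003006 756400) (.box 990218 467481))

theorem part12_22_ok : part12_22.check data12 917504 983040 524288 655360 = true := by
  decide +kernel

/-- A part of the boxes. -/
def part12_23 : Tree :=
  .cut₂ (.cut₁ (.cut₂ (.box 982314 467481) (.box 982314 467481)) (.box 969526 246766)) (.cut₁
  (.box 982314 288919) (.box 961622 288919))

theorem part12_23_ok : part12_23.check data12 983040 1048576 524288 655360 = true := by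
  decide +kernel

/-- A part of the boxes. -/
def part12_24 : Tree :=
  .cut₁ (.cut₂ (.box 1003006 756400) (.box 1003006 577838)) (.box 990218 467481)

theorem part12_24_ok : part12_24.check data12 917504 983040 655360 720896 = true := by
  decide +kernel

/-- A part of the boxes. -/
def part12_25 : Tree :=
  .cut₁ (.cut₂ (.cut₁ (.cut₂ (.box 1010910 756400) (.box 1003006 467481)) (.box 1003006 467481))
  (.cut₁ (.cut₂ (.box 1003006 288919) (.box 1003006 0)) (.box 990218 0))) (.box 990218 288919)

theorem part12_25_ok : part12_25.check data12 917504 983040 720896 786432 = true := by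
  decide +kernel

/-- A part of the boxes. -/
def part12_26 : Tree :=
  .box 969526 178562

theorem part12_26_ok : part12_26.check data12 983040 1048576 655360 786432 = true := by
  decide +kernel

/-- A part of the boxes. -/
def part12_27 : Tree :=
  .cut₁ (.cut₂ (.cut₁ (.out) (.cut₂ (.cut₁ (.out) (.box 1023698 0)) (.out))) (.out)) (.cut₂
  (.cut₁ (.cut₂ (.box 990218 0) (.box 969526 0)) (.box 969526 0)) (.box 969526 0))

theorem part12_27_ok : part12_27.check data12 786432 1048576 786432 1048576 = true := by
  decide +kernel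

/-- All the cuts in dimension 12. -/
def tree12 : Tree :=
  (Tree.cut₁ part12_0 (Tree.cut₂ (Tree.cut₁ part12_1 (Tree.cut₂ part12_2 (Tree.cut₁ part12_3
  (Tree.cut₂ part12_4 (Tree.cut₁ part12_5 (Tree.cut₂ part12_6 part12_7)))))) (Tree.cut₁
  part12_8 (Tree.cut₂ (Tree.cut₁ (Tree.cut₂ part12_9 (Tree.cut₁ part12_10 (Tree.cut₂ part12_11
  (Tree.cut₁ part12_12 (Tree.cut₂ (Tree.cut₁ (Tree.cut₂ (Tree.cut₁ (Tree.cut₂ part12_13
  part12_14) part12_15) (Tree.cut₁ part12_16 (Tree.cut₂ part12_17 part12_18))) (Tree.cut₂
  part12_19 part12_20)) part12_21))))) (Tree.cut₂ (Tree.cut₁ part12_22 part12_23) (Tree.cut₁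
  (Tree.cut₂ part12_24 part12_25) part12_26))) part12_27))))

theorem tree12_ok : tree12.check data12 0 unit 0 unit = true :=
    (check_cut₁ (c := 524288) (by norm_num [unit]) part12_0_ok (check_cut₂ (c := 524288) (by
    norm_num [unit]) (check_cut₁ (c := 786432) (by norm_num [unit]) part12_1_ok (check_cut₂ (c
    := 262144) (by norm_num [unit]) part12_2_ok (check_cut₁ (c := 917504) (by norm_num [unit])
    part12_3_ok (check_cut₂ (c := 393216) (by norm_num [unit]) part12_4_ok (check_cut₁ (c := 983040)
    (by norm_num [unit]) part12_5_ok (check_cut₂ (c := 458752) (by norm_num [unit]) part12_6_ok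
    part12_7_ok)))))) (check_cut₁ (c := 786432) (by norm_num [unit]) part12_8_ok (check_cut₂ (c
    := 786432) (by norm_num [unit]) (check_cut₁ (c := 917504) (by norm_num [unit]) (check_cut₂
    (c := 655360) (by norm_num [unit]) part12_9_ok (check_cut₁ (c := 851968) (by norm_num
    [unit]) part12_10_ok (check_cut₂ (c := 720896) (by norm_num [unit]) part12_11_ok (check_cut₁
    (c := 884736) (by norm_num [unit]) part12_12_ok (check_cut₂ (c := 753664) (by norm_num
    [unit]) (check_cut₁ (c := 901120) (by norm_num [unit]) (check_cut₂ (c := 737280) (by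
    norm_num [unit]) (check_cut₁ (c := 892928) (by norm_num [unit]) (check_cut₂ (c := 729088)
    (by norm_num [unit]) part12_13_ok part12_14_ok) part12_15_ok) (check_cut₁ (c := 892928) (by
    norm_num [unit]) part12_16_ok (check_cut₂ (c := 745472) (by norm_num [unit]) part12_17_ok
    part12_18_ok))) (check_cut₂ (c := 737280) (by norm_num [unit]) part12_19_ok part12_20_ok))
    part12_21_ok))))) (check_cut₂ (c := 655360) (by norm_num [unit]) (check_cut₁ (c := 983040)
    (by norm_num [unit]) part12_22_ok part12_23_ok) (check_cut₁ (c := 983040) (by norm_num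
    [unit]) (check_cut₂ (c := 720896) (by norm_num [unit]) part12_24_ok part12_25_ok)
    part12_26_ok))) part12_27_ok))))

end Vale.Agent.P237.Quant.WindowCert
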