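import Vale.Agent.P237.Quant.WindowCheck

/-!
The window certificate of the moment excess in dimension 13. The cuts are checked in parts, so
that no kernel computation grows too large.
-/

namespace Vale.Agent.P237.Quant.WindowCert

/-- The shared data in dimension 13. -/
def data13 : Cert where
  m := 12
  s := 424916
  q := 842898
  c := 1106414
  κ := 567013
  I := 52588
  zone₀ := [
    ⟨0, 1048577⟩, ⟨16343, 1048704⟩, ⟨32686, 1049086⟩, ⟨49029, 1049725⟩, ⟨65372, 1050620⟩,
    ⟨81715, 1051775⟩, ⟨98058, 1053192⟩, ⟨114400, 1054873⟩, ⟨130743, 1056824⟩, ⟨147086, 1059047⟩,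
    ⟨163429, 1061549⟩, ⟨179772, 1064335⟩, ⟨196115, 1067412⟩, ⟨212458, 1070786⟩, ⟨228801, 1074467⟩,
    ⟨245144, 1078463⟩, ⟨261487, 1082784⟩, ⟨277830, 1087442⟩, ⟨294173, 1092448⟩, ⟨310516, 1097817⟩,
    ⟨326858, 1103561⟩, ⟨343201, 1109699⟩, ⟨359544, 1116247⟩, ⟨375887, 1123226⟩, ⟨392230, 1130657⟩,
    ⟨408573, 1138563⟩, ⟨424916, 1146970⟩]
  zone₁ := [
    ⟨424916, 1146970⟩, ⟨434416, 1152099⟩, ⟨443915, 1157413⟩, ⟨453415, 1162918⟩, ⟨462914, 1168621⟩,
    ⟨472414, 1174531⟩, ⟨481914, 1180654⟩, ⟨491413, 1186998⟩, ⟨500913, 1193573⟩, ⟨510412, 1200387⟩,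
    ⟨519912, 1207451⟩, ⟨529412, 1214775⟩, ⟨538911, 1222370⟩, ⟨548411, 1230248⟩, ⟨557910, 1238422⟩,
    ⟨567410, 1246906⟩, ⟨576909, 1255714⟩, ⟨586409, 1264863⟩, ⟨595909, 1274370⟩, ⟨605408, 1284252⟩,
    ⟨614908, 1294530⟩, ⟨624407, 1305223⟩, ⟨633907, 1316358⟩, ⟨643407, 1327957⟩, ⟨652906, 1340046⟩,
    ⟨662406, 1352658⟩, ⟨671905, 1365822⟩, ⟨681405, 1379574⟩, ⟨690905, 1393953⟩, ⟨700404, 1408999⟩,
    ⟨709904, 1424760⟩, ⟨719403, 1441283⟩, ⟨728903, 1458629⟩, ⟨738402, 1476854⟩, ⟨747902, 1496033⟩,
    ⟨757402, 1516238⟩, ⟨766901, 1537554⟩, ⟨776401, 1560081⟩, ⟨785900, 1583922⟩, ⟨795400, 1609204⟩,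
    ⟨804900, 1636063⟩, ⟨814399, 1664655⟩, ⟨823899, 1695168⟩, ⟨833398, 1727803⟩, ⟨842898, 1762811⟩]
  zone₂ := [
    ⟨842898, 1762811⟩, ⟨853444, 1804796⟩, ⟨863804, 1849672⟩, ⟨873973, 1897734⟩, ⟨883949, 1949337⟩,
    ⟨893727, 2004875⟩, ⟨903304, 2064821⟩, ⟨912674, 2129710⟩, ⟨921834, 2200196⟩, ⟨930779, 2277042⟩,
    ⟨939502, 2361145⟩, ⟨947999, 2453623⟩, ⟨956263, 2555811⟩, ⟨964287, 2669361⟩, ⟨972064, 2796344⟩,
    ⟨979587, 2939399⟩, ⟨986845, 3101852⟩, ⟨993829, 3288129⟩, ⟨1000527, 3504095⟩,
    ⟨1006928, 3757886⟩, ⟨1013017, 4060913⟩, ⟨1018775, 4429731⟩, ⟨1024185, 4890018⟩,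
    ⟨1029220, 5482651⟩, ⟨1033851, 6278954⟩, ⟨1038040, 7415505⟩, ⟨1041733, 9193298⟩,
    ⟨1044851, 12451102⟩, ⟨1047259, 20928033⟩]

theorem data13_wf : data13.wf = true := by decide +kernel

theorem data13_const : constOk data13 = true := by decide +kernel

/-- A part of the boxes. -/
def part13_0 : Tree :=
  .box 1286656 5184445

theorem part13_0_ok : part13_0.check data13 0 524288 0 1048576 = true := by
  decide +kernel

/-- A part of the boxes. -/
def part13_1 : Tree :=
  .box 1144831 3204163

theorem part13_1_ok : part13_1.check data13 524288 786432 0 524288 = true := by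
  decide +kernel

/-- A part of the boxes. -/
def part13_2 : Tree :=
  .box 1057178 3204163

theorem part13_2_ok : part13_2.check data13 786432 1048576 0 262144 = true := by
  decide +kernel

/-- A part of the boxes. -/
def part13_3 : Tree :=
  .box 1036486 3204163

theorem part13_3_ok : part13_3.check data13 786432 917504 262144 524288 = true := by
  decide +kernel

/-- A part of the boxes. -/
def part13_4 : Tree :=
  .cut₁ (.box 1003006 3204163) (.cut₂ (.box 1057178 3204163) (.cut₁ (.box 969526 3204163)
  (.box 969526 3204163)))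

theorem part13_4_ok : part13_4.check data13 917504 1048576 262144 393216 = true := by
  decide +kernel

/-- A part of the boxes. -/
def part13_5 : Tree :=
  .cut₂ (.cut₁ (.box 1057178 3204163) (.box 1003006 1223881)) (.cut₁ (.box 1003006 1980282)
  (.box 1003006 756400))

theorem part13_5_ok : part13_5.check data13 917504 983040 393216 524288 = true := by
  decide +kernel

/-- A part of the boxes. -/
def part13_6 : Tree :=
  .cut₁ (.box 982314 756400) (.cut₂ (.cut₁ (.box 969526 1223881) (.box 966507 646043)) (.cut₁
  (.box 969526 756400) (.cut₂ (.box 964641 577838) (.box 969526 467481))))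

theorem part13_6_ok : part13_6.check data13 983040 1048576 393216 458752 = true := by
  decide +kernel

/-- A part of the boxes. -/
def part13_7 : Tree :=
  .cut₁ (.cut₂ (.box 985333 646043) (.cut₁ (.box 982314 756400) (.box 982314 467481))) (.cut₂
  (.cut₁ (.box 982314 467481) (.box 969526 441429)) (.cut₁ (.box 969526 467481) (.box 969526 357124)))

theorem part13_7_ok : part13_7.check data13 983040 1048576 458752 524288 = true := by
  decide +kernel

/-- A part of the boxes. -/
def part13_8 : Tree :=
  .box 1286656 5184445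

theorem part13_8_ok : part13_8.check data13 524288 786432 524288 1048576 = true := by
  decide +kernel

/-- A part of the boxes. -/
def part13_9 : Tree :=
  .cut₁ (.box 1057178 3204163) (.box 1057178 3204163)

theorem part13_9_ok : part13_9.check data13 786432 917504 524288 655360 = true := by
  decide +kernel

/-- A part of the boxes. -/
def part13_10 : Tree :=
  .box 1057178 3204163

theorem part13_10_ok : part13_10.check data13 786432 851968 655360 786432 = true := by
  decide +kernel

/-- A part of the boxes. -/
def part13_11 : Tree :=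
  .cut₁ (.box 1057178 3204163) (.box 1036486 1223881)

theorem part13_11_ok : part13_11.check data13 851968 917504 655360 720896 = true := by
  decide +kernel

/-- A part of the boxes. -/
def part13_12 : Tree :=
  .box 1057178 3204163

theorem part13_12_ok : part13_12.check data13 851968 884736 720896 786432 = true := by
  decide +kernel

/-- A part of the boxes. -/
def part13_13 : Tree :=
  .cut₂ (.box 1036486 3204163) (.cut₁ (.box 1057178 3204163) (.cut₂ (.box 1036486 1223881)
  (.cut₁ (.box 1036486 1223881) (.cut₂ (.cut₁ (.box 1036486 756400) (.box 1036486 756400))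
  (.cut₁ (.box 1036486 756400) (.box 1036486 467481))))))

theorem part13_13_ok : part13_13.check data13 884736 901120 720896 753664 = true := by
  decide +kernel

/-- A part of the boxes. -/
def part13_14 : Tree :=
  .box 1036486 1223881

theorem part13_14_ok : part13_14.check data13 901120 917504 720896 737280 = true := by
  decide +kernel

/-- A part of the boxes. -/
def part13_15 : Tree :=
  .cut₂ (.box 1036486 1223881) (.cut₁ (.cut₂ (.box 1031602 756400) (.cut₁ (.box 1031602 577838)
  (.box 1031602 756400))) (.cut₂ (.box 1023698 756400) (.box 1027053 685847)))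

theorem part13_15_ok : part13_15.check data13 901120 909312 737280 753664 = true := by
  decide +kernel

/-- A part of the boxes. -/
def part13_16 : Tree :=
  .cut₂ (.box 1023698 756400) (.cut₁ (.box 1023698 756400) (.box 1023698 756400))

theorem part13_16_ok : part13_16.check data13 909312 917504 737280 753664 = true := by
  decide +kernel

/-- A part of the boxes. -/
def part13_17 : Tree :=
  .cut₂ (.cut₁ (.out) (.cut₂ (.cut₁ (.out) (.box 1036486 467481)) (.out))) (.out)

theorem part13_17_ok : part13_17.check data13 884736 901120 753664 786432 = true := by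
  decide +kernel

/-- A part of the boxes. -/
def part13_18 : Tree :=
  .cut₁ (.cut₂ (.cut₁ (.box 1036486 467481) (.box 1031602 467481)) (.box 1031602 467481))
  (.cut₂ (.cut₁ (.box 1028583 467481) (.box 1023698 467481)) (.cut₁ (.box 1023698 467481)
  (.box 1023698 467481)))

theorem part13_18_ok : part13_18.check data13 901120 909312 753664 761856 = true := by
  decide +kernel

/-- A part of the boxes. -/
def part13_19 : Tree :=
  .cut₁ (.box 1036486 467481) (.cut₂ (.box 1028583 467481) (.box 1036486 467481))

theorem part13_19_ok : part13_19.check data13 901120 909312 761856 770048 = true := by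
  decide +kernel

/-- A part of the boxes. -/
def part13_20 : Tree :=
  .cut₂ (.cut₁ (.cut₂ (.box 1023698 577838) (.box 1023698 467481)) (.box 1020679 577838))
  (.cut₁ (.cut₂ (.box 1023698 467481) (.box 1023698 467481)) (.cut₂ (.box 1023698 467481)
  (.box 1023698 467481)))

theorem part13_20_ok : part13_20.check data13 909312 917504 753664 770048 = true := by
  decide +kernel

/-- A part of the boxes. -/
def part13_21 : Tree :=
  .cut₁ (.box 1036486 0) (.cut₂ (.cut₁ (.box 1023698 0) (.box 1023698 288919)) (.box 1023698 0))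

theorem part13_21_ok : part13_21.check data13 901120 917504 770048 786432 = true := by
  decide +kernel

/-- A part of the boxes. -/
def part13_22 : Tree :=
  .cut₂ (.cut₁ (.box 1003006 1223881) (.cut₂ (.box 1003006 756400) (.box 1003006 646043)))
  (.cut₁ (.box 1010910 756400) (.cut₂ (.box 998121 577838) (.box 998121 467481)))

theorem part13_22_ok : part13_22.check data13 917504 983040 524288 655360 = true := by
  decide +kernel

/-- A part of the boxes. -/
def part13_23 : Tree :=
  .cut₂ (.cut₁ (.cut₂ (.cut₁ (.box 982314 756400) (.box 982314 467481)) (.box 987199 441429))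
  (.cut₂ (.cut₁ (.box 969526 467481) (.box 969526 288919)) (.box 974410 288919))) (.cut₁ (.box 985333 357124)
  (.box 971392 288919))

theorem part13_23_ok : part13_23.check data13 983040 1048576 524288 655360 = true := by
  decide +kernel

/-- A part of the boxes. -/
def part13_24 : Tree :=
  .cut₁ (.cut₂ (.box 1010910 756400) (.box 1010910 646043)) (.box 995102 467481)

theorem part13_24_ok : part13_24.check data13 917504 983040 655360 720896 = true := by
  decide +kernel

/-- A part of the boxes. -/
def part13_25 : Tree :=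
  .cut₁ (.cut₂ (.box 1023698 756400) (.box 1010910 646043)) (.box 1010910 756400)

theorem part13_25_ok : part13_25.check data13 917504 950272 720896 753664 = true := by
  decide +kernel

/-- A part of the boxes. -/
def part13_26 : Tree :=
  .cut₁ (.cut₂ (.cut₁ (.cut₂ (.box 1015794 467481) (.cut₁ (.box 1023698 467481) (.box 1023698 467481)))
  (.box 1003006 467481)) (.cut₁ (.cut₂ (.box 1015794 288919) (.box 1015794 0)) (.box 1010910 288919)))
  (.box 1003006 399277)

theorem part13_26_ok : part13_26.check data13 917504 950272 753664 786432 = true := by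
  decide +kernel

/-- A part of the boxes. -/
def part13_27 : Tree :=
  .box 995102 288919

theorem part13_27_ok : part13_27.check data13 950272 983040 720896 786432 = true := by
  decide +kernel

/-- A part of the boxes. -/
def part13_28 : Tree :=
  .cut₂ (.box 982314 178562) (.box 969526 0)

theorem part13_28_ok : part13_28.check data13 983040 1048576 655360 786432 = true := by
  decide +kernel

/-- A part of the boxes. -/
def part13_29 : Tree :=
  .cut₁ (.cut₂ (.cut₁ (.out) (.cut₂ (.cut₁ (.out) (.cut₂ (.cut₁ (.out) (.box 1036486 0))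
  (.out))) (.out))) (.out)) (.cut₂ (.cut₁ (.cut₂ (.cut₁ (.cut₂ (.cut₁ (.box 1015794 0) (.box 1003006 0))
  (.box 1003006 0)) (.box 1003006 0)) (.box 1003006 0)) (.box 969526 0)) (.box 969526 0))

theorem part13_29_ok : part13_29.check data13 786432 1048576 786432 1048576 = true := by
  decide +kernel

/-- All the cuts in dimension 13. -/
def tree13 : Tree :=
  (Tree.cut₁ part13_0 (Tree.cut₂ (Tree.cut₁ part13_1 (Tree.cut₂ part13_2 (Tree.cut₁ part13_3
  (Tree.cut₂ part13_4 (Tree.cut₁ part13_5 (Tree.cut₂ part13_6 part13_7)))))) (Tree.cut₁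
  part13_8 (Tree.cut₂ (Tree.cut₁ (Tree.cut₂ part13_9 (Tree.cut₁ part13_10 (Tree.cut₂ part13_11
  (Tree.cut₁ part13_12 (Tree.cut₂ (Tree.cut₁ part13_13 (Tree.cut₂ part13_14 (Tree.cut₁
  part13_15 part13_16))) (Tree.cut₁ part13_17 (Tree.cut₂ (Tree.cut₁ (Tree.cut₂ part13_18
  part13_19) part13_20) part13_21))))))) (Tree.cut₂ (Tree.cut₁ part13_22 part13_23) (Tree.cut₁
  (Tree.cut₂ part13_24 (Tree.cut₁ (Tree.cut₂ part13_25 part13_26) part13_27)) part13_28)))
  part13_29))))

theorem tree13_ok : tree13.check data13 0 unit 0 unit = true :=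
    (check_cut₁ (c := 524288) (by norm_num [unit]) part13_0_ok (check_cut₂ (c := 524288) (by
    norm_num [unit]) (check_cut₁ (c := 786432) (by norm_num [unit]) part13_1_ok (check_cut₂ (c
    := 262144) (by norm_num [unit]) part13_2_ok (check_cut₁ (c := 917504) (by norm_num [unit])
    part13_3_ok (check_cut₂ (c := 393216) (by norm_num [unit]) part13_4_ok (check_cut₁ (c := 983040)
    (by norm_num [unit]) part13_5_ok (check_cut₂ (c := 458752) (by norm_num [unit]) part13_6_ok
    part13_7_ok)))))) (check_cut₁ (c := 786432) (by norm_num [unit]) part13_8_ok (check_cut₂ (c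
    := 786432) (by norm_num [unit]) (check_cut₁ (c := 917504) (by norm_num [unit]) (check_cut₂
    (c := 655360) (by norm_num [unit]) part13_9_ok (check_cut₁ (c := 851968) (by norm_num
    [unit]) part13_10_ok (check_cut₂ (c := 720896) (by norm_num [unit]) part13_11_ok (check_cut₁
    (c := 884736) (by norm_num [unit]) part13_12_ok (check_cut₂ (c := 753664) (by norm_num
    [unit]) (check_cut₁ (c := 901120) (by norm_num [unit]) part13_13_ok (check_cut₂ (c := 737280)
    (by norm_num [unit]) part13_14_ok (check_cut₁ (c := 909312) (by norm_num [unit])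
    part13_15_ok part13_16_ok))) (check_cut₁ (c := 901120) (by norm_num [unit]) part13_17_ok
    (check_cut₂ (c := 770048) (by norm_num [unit]) (check_cut₁ (c := 909312) (by norm_num
    [unit]) (check_cut₂ (c := 761856) (by norm_num [unit]) part13_18_ok part13_19_ok)
    part13_20_ok) part13_21_ok))))))) (check_cut₂ (c := 655360) (by norm_num [unit]) (check_cut₁
    (c := 983040) (by norm_num [unit]) part13_22_ok part13_23_ok) (check_cut₁ (c := 983040) (by
    norm_num [unit]) (check_cut₂ (c := 720896) (by norm_num [unit]) part13_24_ok (check_cut₁ (c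
    := 950272) (by norm_num [unit]) (check_cut₂ (c := 753664) (by norm_num [unit]) part13_25_ok
    part13_26_ok) part13_27_ok)) part13_28_ok))) part13_29_ok))))

end Vale.Agent.P237.Quant.WindowCert
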