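import Vale.Agent.P237.Quant.WindowCheck

/-!
The window certificate of the moment excess in dimension 14. The cuts are checked in parts, so
that no kernel computation grows too large.
-/

namespace Vale.Agent.P237.Quant.WindowCert

/-- The shared data in dimension 14. -/
def data14 : Cert where
  m := 13
  s := 411125
  q := 827433
  c := 1102192
  κ := 548675
  I := 54529
  zone₀ := [
    ⟨0, 1048577⟩, ⟨15812, 1048696⟩, ⟨31625, 1049054⟩, ⟨47438, 1049651⟩, ⟨63250, 1050489⟩,
    ⟨79062, 1051570⟩, ⟨94875, 1052895⟩, ⟨110688, 1054468⟩, ⟨126500, 1056291⟩, ⟨142312, 1058369⟩,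
    ⟨158125, 1060706⟩, ⟨173938, 1063308⟩, ⟨189750, 1066179⟩, ⟨205562, 1069326⟩, ⟨221375, 1072756⟩,
    ⟨237187, 1076478⟩, ⟨253000, 1080499⟩, ⟨268812, 1084830⟩, ⟨284625, 1089480⟩, ⟨300438, 1094463⟩,
    ⟨316250, 1099788⟩, ⟨332062, 1105472⟩, ⟨347875, 1111529⟩, ⟨363688, 1117976⟩, ⟨379500, 1124829⟩,
    ⟨395312, 1132111⟩, ⟨411125, 1139842⟩]
  zone₁ := [
    ⟨411125, 1139842⟩, ⟨420587, 1144693⟩, ⟨430048, 1149718⟩, ⟨439510, 1154925⟩, ⟨448971, 1160318⟩,
    ⟨458433, 1165906⟩, ⟨467894, 1171693⟩, ⟨477356, 1177689⟩, ⟨486817, 1183901⟩, ⟨496279, 1190337⟩,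
    ⟨505740, 1197005⟩, ⟨515202, 1203917⟩, ⟨524664, 1211081⟩, ⟨534125, 1218508⟩, ⟨543587, 1226211⟩,
    ⟨553048, 1234200⟩, ⟨562510, 1242490⟩, ⟨571971, 1251094⟩, ⟨581433, 1260028⟩, ⟨590894, 1269306⟩,
    ⟨600356, 1278948⟩, ⟨609817, 1288971⟩, ⟨619279, 1299397⟩, ⟨628741, 1310247⟩, ⟨638202, 1321542⟩,
    ⟨647664, 1333312⟩, ⟨657125, 1345581⟩, ⟨666587, 1358382⟩, ⟨676048, 1371745⟩, ⟨685510, 1385708⟩,
    ⟨694971, 1400309⟩, ⟨704433, 1415593⟩, ⟨713894, 1431604⟩, ⟨723356, 1448398⟩, ⟨732818, 1466030⟩,
    ⟨742279, 1484562⟩, ⟨751741, 1504070⟩, ⟨761202, 1524627⟩, ⟨770664, 1546327⟩, ⟨780125, 1569264⟩,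
    ⟨789587, 1593556⟩, ⟨799048, 1619323⟩, ⟨808510, 1646716⟩, ⟨817971, 1675892⟩, ⟨827433, 1707049⟩]
  zone₂ := [
    ⟨827433, 1707049⟩, ⟨838772, 1747298⟩, ⟨849911, 1790340⟩, ⟨860845, 1836458⟩, ⟨871571, 1885992⟩,
    ⟨882084, 1939324⟩, ⟨892381, 1996910⟩, ⟨902456, 2059268⟩, ⟨912304, 2127018⟩, ⟨921921, 2200903⟩,
    ⟨931301, 2281803⟩, ⟨940436, 2370762⟩, ⟨949322, 2469103⟩, ⟨957949, 2578391⟩, ⟨966311, 2700642⟩,
    ⟨974399, 2838377⟩, ⟨982203, 2994835⟩, ⟨989712, 3174258⟩, ⟨996915, 3382359⟩, ⟨1003797, 3626891⟩,
    ⟨1010343, 3918872⟩, ⟨1016535, 4274400⟩, ⟨1022351, 4718019⟩, ⟨1027765, 5289371⟩,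
    ⟨1032744, 6057069⟩, ⟨1037248, 7152937⟩, ⟨1041218, 8866827⟩, ⟨1044571, 12008775⟩,
    ⟨1047160, 20183660⟩]

theorem data14_wf : data14.wf = true := by decide +kernel

theorem data14_const : constOk data14 = true := by decide +kernel

/-- A part of the boxes. -/
def part14_0 : Tree :=
  .out

theorem part14_0_ok : part14_0.check data14 0 524288 0 1048576 = true := by
  decide +kernel

/-- A part of the boxes. -/
def part14_1 : Tree :=
  .box 1144831 3204163

theorem part14_1_ok : part14_1.check data14 524288 786432 0 524288 = true := by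
  decide +kernel

/-- A part of the boxes. -/
def part14_2 : Tree :=
  .out

theorem part14_2_ok : part14_2.check data14 786432 1048576 0 262144 = true := by
  decide +kernel

/-- A part of the boxes. -/
def part14_3 : Tree :=
  .box 1057178 3204163

theorem part14_3_ok : part14_3.check data14 786432 917504 262144 524288 = true := by
  decide +kernel

/-- A part of the boxes. -/
def part14_4 : Tree :=
  .cut₁ (.box 1057178 3204163) (.box 969526 3204163)

theorem part14_4_ok : part14_4.check data14 917504 1048576 262144 393216 = true := by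
  decide +kernel

/-- A part of the boxes. -/
def part14_5 : Tree :=
  .cut₂ (.box 1010910 1223881) (.cut₁ (.box 1003006 3204163) (.box 1003006 1045320))

theorem part14_5_ok : part14_5.check data14 917504 983040 393216 524288 = true := by
  decide +kernel

/-- A part of the boxes. -/
def part14_6 : Tree :=
  .cut₁ (.box 990218 756400) (.cut₂ (.cut₁ (.box 969526 3204163) (.box 969526 1980282)) (.cut₁
  (.box 969526 756400) (.cut₂ (.box 972545 688196) (.cut₁ (.box 969526 756400) (.box 974410 467481)))))

theorem part14_6_ok : part14_6.check data14 983040 1048576 393216 458752 = true := by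
  decide +kernel

/-- A part of the boxes. -/
def part14_7 : Tree :=
  .cut₂ (.box 990218 756400) (.cut₁ (.box 1003006 756400) (.box 982314 756400))

theorem part14_7_ok : part14_7.check data14 983040 1015808 458752 524288 = true := by
  decide +kernel

/-- A part of the boxes. -/
def part14_8 : Tree :=
  .cut₂ (.cut₁ (.box 982314 577838) (.cut₂ (.cut₁ (.box 982314 467481) (.box 974410 467481))
  (.box 975123 467481))) (.cut₁ (.box 982314 467481) (.cut₂ (.box 977429 425328) (.box 974410 399277)))

theorem part14_8_ok : part14_8.check data14 1015808 1048576 458752 524288 = true := by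
  decide +kernel

/-- A part of the boxes. -/
def part14_9 : Tree :=
  .out

theorem part14_9_ok : part14_9.check data14 524288 786432 524288 1048576 = true := by
  decide +kernel

/-- A part of the boxes. -/
def part14_10 : Tree :=
  .cut₁ (.box 1057178 3204163) (.box 1057178 3204163)

theorem part14_10_ok : part14_10.check data14 786432 917504 524288 655360 = true := by
  decide +kernel

/-- A part of the boxes. -/
def part14_11 : Tree :=
  .out

theorem part14_11_ok : part14_11.check data14 786432 851968 655360 786432 = true := by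
  decide +kernel

/-- A part of the boxes. -/
def part14_12 : Tree :=
  .cut₁ (.box 1057178 3204163) (.box 1057178 3204163)

theorem part14_12_ok : part14_12.check data14 851968 917504 655360 720896 = true := by
  decide +kernel

/-- A part of the boxes. -/
def part14_13 : Tree :=
  .out

theorem part14_13_ok : part14_13.check data14 851968 884736 720896 786432 = true := by
  decide +kernel

/-- A part of the boxes. -/
def part14_14 : Tree :=
  .cut₁ (.box 1057178 3204163) (.box 1036486 1223881)

theorem part14_14_ok : part14_14.check data14 884736 917504 720896 753664 = true := by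
  decide +kernel

/-- A part of the boxes. -/
def part14_15 : Tree :=
  .out

theorem part14_15_ok : part14_15.check data14 884736 901120 753664 786432 = true := by
  decide +kernel

/-- A part of the boxes. -/
def part14_16 : Tree :=
  .cut₂ (.box 1039505 1223881) (.cut₁ (.out) (.cut₂ (.cut₁ (.box 1036486 1223881) (.box 1036486 756400))
  (.box 1039505 467481)))

theorem part14_16_ok : part14_16.check data14 901120 909312 753664 770048 = true := by
  decide +kernel

/-- A part of the boxes. -/
def part14_17 : Tree :=
  .cut₂ (.box 1036486 1223881) (.cut₁ (.cut₂ (.cut₁ (.box 1036486 756400) (.box 1036486 1223881))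
  (.cut₁ (.box 1036486 467481) (.box 1033468 467481))) (.cut₂ (.box 1036486 756400) (.cut₁
  (.box 1031602 756400) (.box 1031602 756400))))

theorem part14_17_ok : part14_17.check data14 909312 917504 753664 770048 = true := by
  decide +kernel

/-- A part of the boxes. -/
def part14_18 : Tree :=
  .cut₁ (.out) (.cut₂ (.cut₁ (.cut₂ (.cut₁ (.box 1036486 467481) (.box 1036486 467481)) (.box 1036486 467481))
  (.cut₂ (.cut₁ (.box 1036486 467481) (.box 1031602 467481)) (.cut₁ (.box 1036486 467481)
  (.box 1036486 467481)))) (.cut₁ (.out) (.box 1036486 288919)))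

theorem part14_18_ok : part14_18.check data14 901120 917504 770048 786432 = true := by
  decide +kernel

/-- A part of the boxes. -/
def part14_19 : Tree :=
  .cut₂ (.cut₁ (.box 1023698 1980282) (.cut₂ (.box 1003006 756400) (.box 1006025 756400)))
  (.cut₁ (.box 1023698 1223881) (.cut₂ (.cut₁ (.box 1003006 1223881) (.box 1003006 756400))
  (.box 1006025 646043)))

theorem part14_19_ok : part14_19.check data14 917504 983040 524288 655360 = true := by
  decide +kernel

/-- A part of the boxes. -/
def part14_20 : Tree :=
  .cut₁ (.cut₂ (.cut₁ (.box 1003006 756400) (.box 990218 467481)) (.cut₁ (.box 990218 756400)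
  (.box 990218 467481))) (.cut₂ (.cut₁ (.box 982314 467481) (.box 977429 357124)) (.cut₁ (.box 982314 467481)
  (.box 982314 288919)))

theorem part14_20_ok : part14_20.check data14 983040 1048576 524288 589824 = true := by
  decide +kernel

/-- A part of the boxes. -/
def part14_21 : Tree :=
  .cut₁ (.cut₂ (.cut₁ (.box 990218 467481) (.box 990218 467481)) (.box 990218 399277)) (.box 981601 236816)

theorem part14_21_ok : part14_21.check data14 983040 1048576 589824 655360 = true := by
  decide +kernel

/-- A part of the boxes. -/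
def part14_22 : Tree :=
  .cut₁ (.cut₂ (.box 1023698 1223881) (.box 1018813 756400)) (.cut₂ (.box 1003006 577838)
  (.box 1003006 467481))

theorem part14_22_ok : part14_22.check data14 917504 983040 655360 720896 = true := by
  decide +kernel

/-- A part of the boxes. -/
def part14_23 : Tree :=
  .cut₁ (.box 1020679 756400) (.box 1015794 756400)

theorem part14_23_ok : part14_23.check data14 917504 950272 720896 753664 = true := by
  decide +kernel

/-- A part of the boxes. -/
def part14_24 : Tree :=
  .cut₁ (.cut₂ (.box 1023698 756400) (.cut₁ (.box 1028583 756400) (.box 1023698 756400)))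
  (.box 1023698 756400)

theorem part14_24_ok : part14_24.check data14 917504 933888 753664 770048 = true := by
  decide +kernel

/-- A part of the boxes. -/
def part14_25 : Tree :=
  .cut₂ (.cut₁ (.cut₂ (.box 1028583 577838) (.box 1028583 467481)) (.cut₂ (.box 1023698 756400)
  (.box 1023698 467481))) (.cut₁ (.cut₂ (.box 1028583 467481) (.box 1028583 467481)) (.box 1024851 357124))

theorem part14_25_ok : part14_25.check data14 917504 925696 770048 786432 = true := by
  decide +kernel

/-- A part of the boxes. -/
def part14_26 : Tree :=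
  .cut₂ (.box 1018813 577838) (.cut₁ (.box 1023698 467481) (.box 1023698 467481))

theorem part14_26_ok : part14_26.check data14 925696 933888 770048 786432 = true := by
  decide +kernel

/-- A part of the boxes. -/
def part14_27 : Tree :=
  .cut₂ (.box 1015794 756400) (.box 1010910 467481)

theorem part14_27_ok : part14_27.check data14 933888 950272 753664 786432 = true := by
  decide +kernel

/-- A part of the boxes. -/
def part14_28 : Tree :=
  .cut₂ (.box 1003006 467481) (.box 1003006 467481)

theorem part14_28_ok : part14_28.check data14 950272 983040 720896 786432 = true := by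
  decide +kernel

/-- A part of the boxes. -/
def part14_29 : Tree :=
  .cut₂ (.cut₁ (.box 990218 288919) (.box 982314 0)) (.box 990218 0)

theorem part14_29_ok : part14_29.check data14 983040 1048576 655360 786432 = true := by
  decide +kernel

/-- A part of the boxes. -/
def part14_30 : Tree :=
  .out

theorem part14_30_ok : part14_30.check data14 786432 917504 786432 1048576 = true := by
  decide +kernel

/-- A part of the boxes. -/
def part14_31 : Tree :=
  .cut₁ (.cut₂ (.cut₁ (.cut₂ (.box 1028583 178562) (.box 1023698 0)) (.cut₂ (.box 1023698 288919)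
  (.box 1023698 0))) (.box 1023698 0)) (.cut₂ (.cut₁ (.box 1015794 288919) (.box 1010910 0))
  (.box 1003006 0))

theorem part14_31_ok : part14_31.check data14 917504 950272 786432 819200 = true := by
  decide +kernel

/-- A part of the boxes. -/
def part14_32 : Tree :=
  .box 1015794 0

theorem part14_32_ok : part14_32.check data14 917504 950272 819200 851968 = true := by
  decide +kernel

/-- A part of the boxes. -/
def part14_33 : Tree :=
  .box 1003006 0

theorem part14_33_ok : part14_33.check data14 950272 983040 786432 851968 = true := by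
  decide +kernel

/-- A part of the boxes. -/
def part14_34 : Tree :=
  .box 1003006 0

theorem part14_34_ok : part14_34.check data14 917504 983040 851968 917504 = true := by
  decide +kernel

/-- A part of the boxes. -/
def part14_35 : Tree :=
  .box 969526 0

theorem part14_35_ok : part14_35.check data14 983040 1048576 786432 917504 = true := by
  decide +kernel

/-- A part of the boxes. -/
def part14_36 : Tree :=
  .box 1003006 0

theorem part14_36_ok : part14_36.check data14 917504 1048576 917504 1048576 = true := by
  decide +kernel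

/-- All the cuts in dimension 14. -/
def tree14 : Tree :=
  (Tree.cut₁ part14_0 (Tree.cut₂ (Tree.cut₁ part14_1 (Tree.cut₂ part14_2 (Tree.cut₁ part14_3
  (Tree.cut₂ part14_4 (Tree.cut₁ part14_5 (Tree.cut₂ part14_6 (Tree.cut₁ part14_7
  part14_8))))))) (Tree.cut₁ part14_9 (Tree.cut₂ (Tree.cut₁ (Tree.cut₂ part14_10 (Tree.cut₁
  part14_11 (Tree.cut₂ part14_12 (Tree.cut₁ part14_13 (Tree.cut₂ part14_14 (Tree.cut₁
  part14_15 (Tree.cut₂ (Tree.cut₁ part14_16 part14_17) part14_18))))))) (Tree.cut₂ (Tree.cut₁
  part14_19 (Tree.cut₂ part14_20 part14_21)) (Tree.cut₁ (Tree.cut₂ part14_22 (Tree.cut₁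
  (Tree.cut₂ part14_23 (Tree.cut₁ (Tree.cut₂ part14_24 (Tree.cut₁ part14_25 part14_26))
  part14_27)) part14_28)) part14_29))) (Tree.cut₁ part14_30 (Tree.cut₂ (Tree.cut₁ (Tree.cut₂
  (Tree.cut₁ (Tree.cut₂ part14_31 part14_32) part14_33) part14_34) part14_35) part14_36))))))

theorem tree14_ok : tree14.check data14 0 unit 0 unit = true :=
    (check_cut₁ (c := 524288) (by norm_num [unit]) part14_0_ok (check_cut₂ (c := 524288) (by
    norm_num [unit]) (check_cut₁ (c := 786432) (by norm_num [unit]) part14_1_ok (check_cut₂ (c
    := 262144) (by norm_num [unit]) part14_2_ok (check_cut₁ (c := 917504) (by norm_num [unit])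
    part14_3_ok (check_cut₂ (c := 393216) (by norm_num [unit]) part14_4_ok (check_cut₁ (c := 983040)
    (by norm_num [unit]) part14_5_ok (check_cut₂ (c := 458752) (by norm_num [unit]) part14_6_ok
    (check_cut₁ (c := 1015808) (by norm_num [unit]) part14_7_ok part14_8_ok))))))) (check_cut₁
    (c := 786432) (by norm_num [unit]) part14_9_ok (check_cut₂ (c := 786432) (by norm_num
    [unit]) (check_cut₁ (c := 917504) (by norm_num [unit]) (check_cut₂ (c := 655360) (by
    norm_num [unit]) part14_10_ok (check_cut₁ (c := 851968) (by norm_num [unit]) part14_11_ok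
    (check_cut₂ (c := 720896) (by norm_num [unit]) part14_12_ok (check_cut₁ (c := 884736) (by
    norm_num [unit]) part14_13_ok (check_cut₂ (c := 753664) (by norm_num [unit]) part14_14_ok
    (check_cut₁ (c := 901120) (by norm_num [unit]) part14_15_ok (check_cut₂ (c := 770048) (by
    norm_num [unit]) (check_cut₁ (c := 909312) (by norm_num [unit]) part14_16_ok part14_17_ok)
    part14_18_ok))))))) (check_cut₂ (c := 655360) (by norm_num [unit]) (check_cut₁ (c := 983040)
    (by norm_num [unit]) part14_19_ok (check_cut₂ (c := 589824) (by norm_num [unit])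
    part14_20_ok part14_21_ok)) (check_cut₁ (c := 983040) (by norm_num [unit]) (check_cut₂ (c := 720896)
    (by norm_num [unit]) part14_22_ok (check_cut₁ (c := 950272) (by norm_num [unit]) (check_cut₂
    (c := 753664) (by norm_num [unit]) part14_23_ok (check_cut₁ (c := 933888) (by norm_num
    [unit]) (check_cut₂ (c := 770048) (by norm_num [unit]) part14_24_ok (check_cut₁ (c := 925696)
    (by norm_num [unit]) part14_25_ok part14_26_ok)) part14_27_ok)) part14_28_ok))
    part14_29_ok))) (check_cut₁ (c := 917504) (by norm_num [unit]) part14_30_ok (check_cut₂ (c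
    := 917504) (by norm_num [unit]) (check_cut₁ (c := 983040) (by norm_num [unit]) (check_cut₂
    (c := 851968) (by norm_num [unit]) (check_cut₁ (c := 950272) (by norm_num [unit])
    (check_cut₂ (c := 819200) (by norm_num [unit]) part14_31_ok part14_32_ok) part14_33_ok)
    part14_34_ok) part14_35_ok) part14_36_ok))))))

end Vale.Agent.P237.Quant.WindowCert
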