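import Vale.Agent.P237.Quant.WindowCheck

/-!
The window certificate of the moment excess in dimension 15. The cuts are checked in parts, so
that no kernel computation grows too large.
-/

namespace Vale.Agent.P237.Quant.WindowCert

/-- The shared data in dimension 15. -/
def data15 : Cert where
  m := 14
  s := 398592
  q := 812675
  c := 1098545
  κ := 531990
  I := 56329
  zone₀ := [
    ⟨0, 1048577⟩, ⟨15330, 1048689⟩, ⟨30661, 1049025⟩, ⟨45991, 1049587⟩, ⟨61322, 1050374⟩,
    ⟨76652, 1051389⟩, ⟨91983, 1052634⟩, ⟨107313, 1054111⟩, ⟨122644, 1055823⟩, ⟨137974, 1057774⟩,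
    ⟨153305, 1059966⟩, ⟨168635, 1062406⟩, ⟨183966, 1065097⟩, ⟨199296, 1068045⟩, ⟨214626, 1071257⟩,
    ⟨229957, 1074739⟩, ⟨245287, 1078500⟩, ⟨260618, 1082546⟩, ⟨275948, 1086888⟩, ⟨291279, 1091536⟩,
    ⟨306609, 1096499⟩, ⟨321940, 1101792⟩, ⟨337270, 1107425⟩, ⟨352601, 1113414⟩, ⟨367931, 1119774⟩,
    ⟨383262, 1126522⟩, ⟨398592, 1133677⟩]
  zone₁ := [
    ⟨398592, 1133677⟩, ⟨408003, 1138279⟩, ⟨417414, 1143047⟩, ⟨426825, 1147986⟩, ⟨436236, 1153103⟩,
    ⟨445647, 1158402⟩, ⟨455058, 1163890⟩, ⟨464469, 1169574⟩, ⟨473880, 1175462⟩, ⟨483291, 1181560⟩,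
    ⟨492702, 1187877⟩, ⟨502113, 1194421⟩, ⟨511524, 1201201⟩, ⟨520935, 1208227⟩, ⟨530346, 1215510⟩,
    ⟨539757, 1223059⟩, ⟨549168, 1230888⟩, ⟨558579, 1239009⟩, ⟨567990, 1247434⟩, ⟨577401, 1256179⟩,
    ⟨586812, 1265259⟩, ⟨596223, 1274691⟩, ⟨605634, 1284492⟩, ⟨615044, 1294680⟩, ⟨624455, 1305278⟩,
    ⟨633866, 1316309⟩, ⟨643277, 1327795⟩, ⟨652688, 1339763⟩, ⟨662099, 1352242⟩, ⟨671510, 1365263⟩,
    ⟨680921, 1378859⟩, ⟨690332, 1393068⟩, ⟨699743, 1407929⟩, ⟨709154, 1423488⟩, ⟨718565, 1439793⟩,
    ⟨727976, 1456898⟩, ⟨737387, 1474863⟩, ⟨746798, 1493753⟩, ⟨756209, 1513642⟩, ⟨765620, 1534611⟩,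
    ⟨775031, 1556754⟩, ⟨784442, 1580172⟩, ⟨793853, 1604983⟩, ⟨803264, 1631319⟩, ⟨812675, 1659329⟩]
  zone₂ := [
    ⟨812675, 1659329⟩, ⟨824771, 1698071⟩, ⟨836653, 1739518⟩, ⟨848317, 1783949⟩, ⟨859758, 1831686⟩,
    ⟨870973, 1883108⟩, ⟨881957, 1938648⟩, ⟨892704, 1998811⟩, ⟨903210, 2064203⟩, ⟨913469, 2135534⟩,
    ⟨923474, 2213649⟩, ⟨933220, 2299590⟩, ⟨942698, 2394592⟩, ⟨951901, 2500207⟩, ⟨960821, 2618371⟩,
    ⟨969449, 2751530⟩, ⟨977774, 2902819⟩, ⟨985784, 3076336⟩, ⟨993467, 3277602⟩, ⟨1000808, 3514145⟩,
    ⟨1007791, 3796639⟩, ⟨1014396, 4140637⟩, ⟨1020600, 4569917⟩, ⟨1026376, 5122941⟩,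
    ⟨1031688, 5866128⟩, ⟨1036492, 6926828⟩, ⟨1040727, 8586022⟩, ⟨1044304, 11628188⟩,
    ⟨1047065, 19539307⟩]

theorem data15_wf : data15.wf = true := by decide +kernel

theorem data15_const : constOk data15 = true := by decide +kernel

/-- A part of the boxes. -/
def part15_0 : Tree :=
  .out

theorem part15_0_ok : part15_0.check data15 0 524288 0 1048576 = true := by
  decide +kernel

/-- A part of the boxes. -/
def part15_1 : Tree :=
  .box 1144831 3204163

theorem part15_1_ok : part15_1.check data15 524288 786432 0 524288 = true := by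
  decide +kernel

/-- A part of the boxes. -/
def part15_2 : Tree :=
  .out

theorem part15_2_ok : part15_2.check data15 786432 1048576 0 262144 = true := by
  decide +kernel

/-- A part of the boxes. -/
def part15_3 : Tree :=
  .box 1057178 3204163

theorem part15_3_ok : part15_3.check data15 786432 917504 262144 524288 = true := by
  decide +kernel

/-- A part of the boxes. -/
def part15_4 : Tree :=
  .box 1003006 3204163

theorem part15_4_ok : part15_4.check data15 917504 1048576 262144 393216 = true := by
  decide +kernel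

/-- A part of the boxes. -/
def part15_5 : Tree :=
  .cut₂ (.box 1023698 3204163) (.cut₁ (.box 1057178 3204163) (.box 1003006 1223881))

theorem part15_5_ok : part15_5.check data15 917504 983040 393216 524288 = true := by
  decide +kernel

/-- A part of the boxes. -/
def part15_6 : Tree :=
  .cut₁ (.box 1003006 1223881) (.cut₂ (.box 969526 3204163) (.cut₁ (.box 982314 1223881)
  (.cut₂ (.box 969526 1223881) (.cut₁ (.box 982314 1223881) (.box 982314 756400)))))

theorem part15_6_ok : part15_6.check data15 983040 1048576 393216 458752 = true := by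
  decide +kernel

/-- A part of the boxes. -/
def part15_7 : Tree :=
  .cut₂ (.box 998121 756400) (.cut₁ (.box 995102 1223881) (.box 990218 756400))

theorem part15_7_ok : part15_7.check data15 983040 1015808 458752 524288 = true := by
  decide +kernel

/-- A part of the boxes. -/
def part15_8 : Tree :=
  .cut₁ (.box 982314 756400) (.cut₂ (.cut₁ (.box 969526 756400) (.box 982314 467481)) (.cut₁
  (.box 982314 467481) (.box 982314 467481)))

theorem part15_8_ok : part15_8.check data15 1015808 1048576 458752 491520 = true := by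
  decide +kernel

/-- A part of the boxes. -/
def part15_9 : Tree :=
  .cut₁ (.box 990218 577838) (.cut₂ (.cut₁ (.box 982314 467481) (.box 982314 467481)) (.cut₁
  (.box 982314 467481) (.box 977429 467481)))

theorem part15_9_ok : part15_9.check data15 1015808 1048576 491520 524288 = true := by
  decide +kernel

/-- A part of the boxes. -/
def part15_10 : Tree :=
  .out

theorem part15_10_ok : part15_10.check data15 524288 786432 524288 1048576 = true := by
  decide +kernel

/-- A part of the boxes. -/
def part15_11 : Tree :=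
  .cut₂ (.box 1057178 3204163) (.cut₁ (.out) (.cut₂ (.box 1057178 3204163) (.cut₁ (.out)
  (.cut₂ (.box 1057178 3204163) (.cut₁ (.out) (.cut₂ (.box 1036486 3204163) (.cut₁ (.out)
  (.cut₂ (.cut₁ (.box 1057178 3204163) (.box 1036486 1223881)) (.cut₁ (.out) (.cut₂ (.cut₁
  (.out) (.box 1036486 756400)) (.out)))))))))))

theorem part15_11_ok : part15_11.check data15 786432 917504 524288 786432 = true := by
  decide +kernel

/-- A part of the boxes. -/
def part15_12 : Tree :=
  .cut₂ (.cut₁ (.box 1003006 3204163) (.cut₂ (.box 1010910 934962) (.box 1010910 824605)))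
  (.cut₁ (.box 1023698 1980282) (.cut₂ (.cut₁ (.box 1003006 1223881) (.box 1003006 756400))
  (.cut₁ (.box 1015794 1223881) (.box 1003006 756400))))

theorem part15_12_ok : part15_12.check data15 917504 983040 524288 655360 = true := by
  decide +kernel

/-- A part of the boxes. -/
def part15_13 : Tree :=
  .cut₂ (.cut₁ (.box 1003006 756400) (.box 990218 646043)) (.cut₁ (.box 1003006 756400) (.box 995102 467481))

theorem part15_13_ok : part15_13.check data15 983040 1015808 524288 589824 = true := by
  decide +kernel

/-- A part of the boxes. -/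
def part15_14 : Tree :=
  .cut₂ (.cut₁ (.box 990218 467481) (.cut₂ (.cut₁ (.box 982314 467481) (.box 974410 467481))
  (.box 982314 357124))) (.cut₁ (.box 990218 467481) (.box 982314 331072))

theorem part15_14_ok : part15_14.check data15 1015808 1048576 524288 589824 = true := by
  decide +kernel

/-- A part of the boxes. -/
def part15_15 : Tree :=
  .cut₁ (.cut₂ (.cut₁ (.box 998121 756400) (.box 990218 467481)) (.cut₁ (.box 1003006 467481)
  (.box 990218 467481))) (.cut₂ (.cut₁ (.box 985333 467481) (.box 982314 288919)) (.box 985333 246766))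

theorem part15_15_ok : part15_15.check data15 983040 1048576 589824 655360 = true := by
  decide +kernel

/-- A part of the boxes. -/
def part15_16 : Tree :=
  .cut₁ (.box 1028583 1223881) (.cut₂ (.cut₁ (.box 1003006 756400) (.box 1003006 756400))
  (.box 1010910 577838))

theorem part15_16_ok : part15_16.check data15 917504 983040 655360 720896 = true := by
  decide +kernel

/-- A part of the boxes. -/
def part15_17 : Tree :=
  .cut₁ (.box 1036486 1980282) (.box 1028583 1223881)

theorem part15_17_ok : part15_17.check data15 917504 950272 720896 753664 = true := by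
  decide +kernel

/-- A part of the boxes. -/
def part15_18 : Tree :=
  .box 1031602 1045320

theorem part15_18_ok : part15_18.check data15 917504 933888 753664 770048 = true := by
  decide +kernel

/-- A part of the boxes. -/
def part15_19 : Tree :=
  .cut₁ (.box 1036486 1223881) (.box 1036486 1223881)

theorem part15_19_ok : part15_19.check data15 917504 925696 770048 778240 = true := by
  decide +kernel

/-- A part of the boxes. -/
def part15_20 : Tree :=
  .cut₁ (.cut₂ (.cut₁ (.box 1036486 756400) (.box 1036486 756400)) (.cut₁ (.box 1036486 467481)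
  (.box 1036486 467481))) (.cut₂ (.box 1031602 756400) (.cut₁ (.box 1036486 467481) (.box 1031602 756400)))

theorem part15_20_ok : part15_20.check data15 917504 925696 778240 786432 = true := by
  decide +kernel

/-- A part of the boxes. -/
def part15_21 : Tree :=
  .cut₂ (.box 1023698 756400) (.cut₁ (.cut₂ (.box 1023698 756400) (.box 1028583 646043)) (.box 1023698 756400))

theorem part15_21_ok : part15_21.check data15 925696 933888 770048 786432 = true := by
  decide +kernel

/-- A part of the boxes. -/
def part15_22 : Tree :=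
  .cut₂ (.box 1023698 756400) (.cut₁ (.box 1023698 756400) (.box 1023698 756400))

theorem part15_22_ok : part15_22.check data15 933888 950272 753664 786432 = true := by
  decide +kernel

/-- A part of the boxes. -/
def part15_23 : Tree :=
  .cut₂ (.box 1007891 467481) (.box 1010910 467481)

theorem part15_23_ok : part15_23.check data15 950272 983040 720896 786432 = true := by
  decide +kernel

/-- A part of the boxes. -/
def part15_24 : Tree :=
  .cut₂ (.cut₁ (.box 998121 357124) (.box 982314 178562)) (.box 995102 136409)

theorem part15_24_ok : part15_24.check data15 983040 1048576 655360 786432 = true := by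
  decide +kernel

/-- A part of the boxes. -/
def part15_25 : Tree :=
  .out

theorem part15_25_ok : part15_25.check data15 786432 917504 786432 1048576 = true := by
  decide +kernel

/-- A part of the boxes. -/
def part15_26 : Tree :=
  .cut₂ (.cut₁ (.box 1036486 467481) (.cut₂ (.cut₁ (.box 1036486 467481) (.box 1036486 467481))
  (.box 1036486 467481))) (.box 1036486 288919)

theorem part15_26_ok : part15_26.check data15 917504 925696 786432 802816 = true := by
  decide +kernel

/-- A part of the boxes. -/
def part15_27 : Tree :=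
  .cut₂ (.cut₁ (.cut₂ (.box 1029736 467481) (.box 1031602 467481)) (.cut₂ (.box 1023698 467481)
  (.box 1023698 467481))) (.cut₁ (.box 1036486 288919) (.box 1023698 288919))

theorem part15_27_ok : part15_27.check data15 925696 933888 786432 802816 = true := by
  decide +kernel

/-- A part of the boxes. -/
def part15_28 : Tree :=
  .cut₁ (.out) (.box 1028583 288919)

theorem part15_28_ok : part15_28.check data15 917504 933888 802816 819200 = true := by
  decide +kernel

/-- A part of the boxes. -/
def part15_29 : Tree :=
  .cut₂ (.cut₁ (.cut₂ (.box 1020679 467481) (.cut₁ (.box 1023698 467481) (.box 1023698 467481)))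
  (.box 1023698 467481)) (.cut₁ (.box 1023698 178562) (.box 1023698 288919))

theorem part15_29_ok : part15_29.check data15 933888 950272 786432 819200 = true := by
  decide +kernel

/-- A part of the boxes. -/
def part15_30 : Tree :=
  .cut₁ (.out) (.box 1023698 0)

theorem part15_30_ok : part15_30.check data15 917504 950272 819200 851968 = true := by
  decide +kernel

/-- A part of the boxes. -/
def part15_31 : Tree :=
  .cut₂ (.box 1006025 357124) (.box 1003006 0)

theorem part15_31_ok : part15_31.check data15 950272 983040 786432 851968 = true := by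
  decide +kernel

/-- A part of the boxes. -/
def part15_32 : Tree :=
  .cut₁ (.out) (.box 1003006 0)

theorem part15_32_ok : part15_32.check data15 917504 983040 851968 917504 = true := by
  decide +kernel

/-- A part of the boxes. -/
def part15_33 : Tree :=
  .box 1003006 0

theorem part15_33_ok : part15_33.check data15 983040 1048576 786432 917504 = true := by
  decide +kernel

/-- A part of the boxes. -/
def part15_34 : Tree :=
  .box 1003006 0

theorem part15_34_ok : part15_34.check data15 917504 1048576 917504 1048576 = true := by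
  decide +kernel

/-- All the cuts in dimension 15. -/
def tree15 : Tree :=
  (Tree.cut₁ part15_0 (Tree.cut₂ (Tree.cut₁ part15_1 (Tree.cut₂ part15_2 (Tree.cut₁ part15_3
  (Tree.cut₂ part15_4 (Tree.cut₁ part15_5 (Tree.cut₂ part15_6 (Tree.cut₁ part15_7 (Tree.cut₂
  part15_8 part15_9)))))))) (Tree.cut₁ part15_10 (Tree.cut₂ (Tree.cut₁ part15_11 (Tree.cut₂
  (Tree.cut₁ part15_12 (Tree.cut₂ (Tree.cut₁ part15_13 part15_14) part15_15)) (Tree.cut₁
  (Tree.cut₂ part15_16 (Tree.cut₁ (Tree.cut₂ part15_17 (Tree.cut₁ (Tree.cut₂ part15_18
  (Tree.cut₁ (Tree.cut₂ part15_19 part15_20) part15_21)) part15_22)) part15_23)) part15_24)))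
  (Tree.cut₁ part15_25 (Tree.cut₂ (Tree.cut₁ (Tree.cut₂ (Tree.cut₁ (Tree.cut₂ (Tree.cut₁
  (Tree.cut₂ (Tree.cut₁ part15_26 part15_27) part15_28) part15_29) part15_30) part15_31)
  part15_32) part15_33) part15_34))))))

theorem tree15_ok : tree15.check data15 0 unit 0 unit = true :=
    (check_cut₁ (c := 524288) (by norm_num [unit]) part15_0_ok (check_cut₂ (c := 524288) (by
    norm_num [unit]) (check_cut₁ (c := 786432) (by norm_num [unit]) part15_1_ok (check_cut₂ (c
    := 262144) (by norm_num [unit]) part15_2_ok (check_cut₁ (c := 917504) (by norm_num [unit])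
    part15_3_ok (check_cut₂ (c := 393216) (by norm_num [unit]) part15_4_ok (check_cut₁ (c := 983040)
    (by norm_num [unit]) part15_5_ok (check_cut₂ (c := 458752) (by norm_num [unit]) part15_6_ok
    (check_cut₁ (c := 1015808) (by norm_num [unit]) part15_7_ok (check_cut₂ (c := 491520) (by
    norm_num [unit]) part15_8_ok part15_9_ok)))))))) (check_cut₁ (c := 786432) (by norm_num
    [unit]) part15_10_ok (check_cut₂ (c := 786432) (by norm_num [unit]) (check_cut₁ (c := 917504)
    (by norm_num [unit]) part15_11_ok (check_cut₂ (c := 655360) (by norm_num [unit]) (check_cut₁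
    (c := 983040) (by norm_num [unit]) part15_12_ok (check_cut₂ (c := 589824) (by norm_num
    [unit]) (check_cut₁ (c := 1015808) (by norm_num [unit]) part15_13_ok part15_14_ok)
    part15_15_ok)) (check_cut₁ (c := 983040) (by norm_num [unit]) (check_cut₂ (c := 720896) (by
    norm_num [unit]) part15_16_ok (check_cut₁ (c := 950272) (by norm_num [unit]) (check_cut₂ (c
    := 753664) (by norm_num [unit]) part15_17_ok (check_cut₁ (c := 933888) (by norm_num [unit])
    (check_cut₂ (c := 770048) (by norm_num [unit]) part15_18_ok (check_cut₁ (c := 925696) (by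
    norm_num [unit]) (check_cut₂ (c := 778240) (by norm_num [unit]) part15_19_ok part15_20_ok)
    part15_21_ok)) part15_22_ok)) part15_23_ok)) part15_24_ok))) (check_cut₁ (c := 917504) (by
    norm_num [unit]) part15_25_ok (check_cut₂ (c := 917504) (by norm_num [unit]) (check_cut₁ (c
    := 983040) (by norm_num [unit]) (check_cut₂ (c := 851968) (by norm_num [unit]) (check_cut₁
    (c := 950272) (by norm_num [unit]) (check_cut₂ (c := 819200) (by norm_num [unit])
    (check_cut₁ (c := 933888) (by norm_num [unit]) (check_cut₂ (c := 802816) (by norm_num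
    [unit]) (check_cut₁ (c := 925696) (by norm_num [unit]) part15_26_ok part15_27_ok)
    part15_28_ok) part15_29_ok) part15_30_ok) part15_31_ok) part15_32_ok) part15_33_ok)
    part15_34_ok))))))

end Vale.Agent.P237.Quant.WindowCert
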