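import Vale.Agent.P237.Quant.WindowCheck

/-!
The window certificate of the moment excess in dimension 17. The cuts are checked in parts, so
that no kernel computation grows too large.
-/

namespace Vale.Agent.P237.Quant.WindowCert

/-- The shared data in dimension 17. -/
def data17 : Cert where
  m := 16
  s := 376615
  q := 785139
  c := 1092560
  κ := 502701
  I := 59520
  zone₀ := [
    ⟨0, 1048577⟩, ⟨14485, 1048677⟩, ⟨28970, 1048977⟩, ⟨43456, 1049478⟩, ⟨57941, 1050181⟩,
    ⟨72426, 1051087⟩, ⟨86911, 1052197⟩, ⟨101396, 1053514⟩, ⟨115882, 1055039⟩, ⟨130367, 1056776⟩,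
    ⟨144852, 1058727⟩, ⟨159337, 1060896⟩, ⟨173822, 1063288⟩, ⟨188308, 1065905⟩, ⟨202793, 1068754⟩,
    ⟨217278, 1071840⟩, ⟨231763, 1075168⟩, ⟨246248, 1078745⟩, ⟨260733, 1082578⟩, ⟨275219, 1086675⟩,
    ⟨289704, 1091044⟩, ⟨304189, 1095694⟩, ⟨318674, 1100636⟩, ⟨333159, 1105880⟩, ⟨347645, 1111438⟩,
    ⟨362130, 1117323⟩, ⟨376615, 1123548⟩]
  zone₁ := [
    ⟨376615, 1123548⟩, ⟨385900, 1127724⟩, ⟨395184, 1132050⟩, ⟨404469, 1136531⟩, ⟨413754, 1141173⟩,
    ⟨423038, 1145978⟩, ⟨432323, 1150953⟩, ⟨441607, 1156104⟩, ⟨450892, 1161437⟩, ⟨460177, 1166957⟩,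
    ⟨469461, 1172672⟩, ⟨478746, 1178588⟩, ⟨488031, 1184714⟩, ⟨497315, 1191055⟩, ⟨506600, 1197623⟩,
    ⟨515885, 1204426⟩, ⟨525169, 1211471⟩, ⟨534454, 1218772⟩, ⟨543738, 1226336⟩, ⟨553023, 1234179⟩,
    ⟨562308, 1242310⟩, ⟨571592, 1250743⟩, ⟨580877, 1259493⟩, ⟨590162, 1268575⟩, ⟨599446, 1278005⟩,
    ⟨608731, 1287801⟩, ⟨618016, 1297982⟩, ⟨627300, 1308566⟩, ⟨636585, 1319579⟩, ⟨645869, 1331042⟩,
    ⟨655154, 1342982⟩, ⟨664439, 1355428⟩, ⟨673723, 1368407⟩, ⟨683008, 1381956⟩, ⟨692293, 1396109⟩,
    ⟨701577, 1410905⟩, ⟨710862, 1426391⟩, ⟨720147, 1442611⟩, ⟨729431, 1459618⟩, ⟨738716, 1477473⟩,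
    ⟨748000, 1496236⟩, ⟨757285, 1515983⟩, ⟨766570, 1536792⟩, ⟨775854, 1558749⟩, ⟨785139, 1581961⟩]
  zone₂ := [
    ⟨785139, 1581961⟩, ⟨798647, 1618199⟩, ⟨811916, 1657004⟩, ⟨824941, 1698640⟩, ⟨837718, 1743413⟩,
    ⟨850242, 1791677⟩, ⟨862508, 1843844⟩, ⟨874510, 1900394⟩, ⟨886242, 1961892⟩, ⟨897698, 2029014⟩,
    ⟨908872, 2102570⟩, ⟨919754, 2183514⟩, ⟨930339, 2273053⟩, ⟨940617, 2372641⟩, ⟨950578, 2484095⟩,
    ⟨960213, 2609742⟩, ⟨969509, 2752533⟩, ⟨978454, 2916370⟩, ⟨987034, 3106467⟩, ⟨995233, 3329975⟩,
    ⟨1003031, 3596934⟩, ⟨1010407, 3922095⟩, ⟨1017335, 4327944⟩, ⟨1023784, 4850779⟩,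
    ⟨1029716, 5553615⟩, ⟨1035081, 6556926⟩, ⟨1039811, 8126778⟩, ⟨1043805, 11004612⟩,
    ⟨1046889, 18492775⟩]

theorem data17_wf : data17.wf = true := by decide +kernel

theorem data17_const : constOk data17 = true := by decide +kernel

/-- A part of the boxes. -/
def part17_0 : Tree :=
  .out

theorem part17_0_ok : part17_0.check data17 0 524288 0 1048576 = true := by
  decide +kernel

/-- A part of the boxes. -/
def part17_1 : Tree :=
  .box 1144831 3204163

theorem part17_1_ok : part17_1.check data17 524288 786432 0 524288 = true := by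
  decide +kernel

/-- A part of the boxes. -/
def part17_2 : Tree :=
  .out

theorem part17_2_ok : part17_2.check data17 786432 1048576 0 262144 = true := by
  decide +kernel

/-- A part of the boxes. -/
def part17_3 : Tree :=
  .box 1057178 3204163

theorem part17_3_ok : part17_3.check data17 786432 917504 262144 524288 = true := by
  decide +kernel

/-- A part of the boxes. -/
def part17_4 : Tree :=
  .box 1057178 3204163

theorem part17_4_ok : part17_4.check data17 917504 1048576 262144 393216 = true := by
  decide +kernel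

/-- A part of the boxes. -/
def part17_5 : Tree :=
  .cut₂ (.box 1057178 3204163) (.cut₁ (.box 1057178 3204163) (.box 1023698 3204163))

theorem part17_5_ok : part17_5.check data17 917504 983040 393216 524288 = true := by
  decide +kernel

/-- A part of the boxes. -/
def part17_6 : Tree :=
  .cut₁ (.box 1003006 3204163) (.box 1003006 3204163)

theorem part17_6_ok : part17_6.check data17 983040 1048576 393216 458752 = true := by
  decide +kernel

/-- A part of the boxes. -/
def part17_7 : Tree :=
  .cut₂ (.box 1003006 1223881) (.cut₁ (.box 1003006 1980282) (.box 1003006 756400))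

theorem part17_7_ok : part17_7.check data17 983040 1015808 458752 524288 = true := by
  decide +kernel

/-- A part of the boxes. -/
def part17_8 : Tree :=
  .cut₁ (.box 990218 1223881) (.cut₂ (.box 990218 1223881) (.cut₁ (.box 990218 756400) (.box 986486 577838)))

theorem part17_8_ok : part17_8.check data17 1015808 1048576 458752 491520 = true := by
  decide +kernel

/-- A part of the boxes. -/
def part17_9 : Tree :=
  .cut₁ (.box 990218 756400) (.cut₂ (.cut₁ (.box 990218 756400) (.box 987199 535686)) (.cut₁
  (.box 990218 577838) (.cut₂ (.box 987199 535686) (.box 989065 467481))))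

theorem part17_9_ok : part17_9.check data17 1015808 1048576 491520 524288 = true := by
  decide +kernel

/-- A part of the boxes. -/
def part17_10 : Tree :=
  .out

theorem part17_10_ok : part17_10.check data17 524288 786432 524288 1048576 = true := by
  decide +kernel

/-- A part of the boxes. -/
def part17_11 : Tree :=
  .cut₂ (.box 1057178 3204163) (.cut₁ (.out) (.box 1057178 3204163))

theorem part17_11_ok : part17_11.check data17 786432 917504 524288 786432 = true := by
  decide +kernel

/-- A part of the boxes. -/
def part17_12 : Tree :=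
  .cut₂ (.cut₁ (.box 1057178 3204163) (.box 1020679 1045320)) (.cut₁ (.box 1057178 3204163)
  (.cut₂ (.cut₁ (.box 1023698 3204163) (.box 1015794 1223881)) (.cut₁ (.box 1023698 1980282)
  (.box 1015794 756400))))

theorem part17_12_ok : part17_12.check data17 917504 983040 524288 655360 = true := by
  decide +kernel

/-- A part of the boxes. -/
def part17_13 : Tree :=
  .cut₂ (.cut₁ (.box 1003006 1223881) (.box 1003006 756400)) (.cut₁ (.box 1003006 756400)
  (.box 1003006 646043))

theorem part17_13_ok : part17_13.check data17 983040 1015808 524288 589824 = true := by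
  decide +kernel

/-- A part of the boxes. -/
def part17_14 : Tree :=
  .cut₁ (.cut₂ (.box 995102 646043) (.box 995102 577838)) (.cut₂ (.cut₁ (.box 995102 467481)
  (.cut₂ (.box 987199 509634) (.box 987199 467481))) (.cut₁ (.box 990218 467481) (.cut₂ (.box 987199 467481)
  (.box 987199 467481))))

theorem part17_14_ok : part17_14.check data17 1015808 1048576 524288 557056 = true := by
  decide +kernel

/-- A part of the boxes. -/
def part17_15 : Tree :=
  .cut₁ (.cut₂ (.box 995102 535686) (.box 998121 467481)) (.cut₂ (.cut₁ (.box 990218 467481)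
  (.box 988352 409227)) (.cut₁ (.box 990218 467481) (.box 990218 357124)))

theorem part17_15_ok : part17_15.check data17 1015808 1048576 557056 589824 = true := by
  decide +kernel

/-- A part of the boxes. -/
def part17_16 : Tree :=
  .cut₂ (.cut₁ (.box 1003006 756400) (.box 1003006 577838)) (.cut₁ (.box 1010910 756400) (.box 1003006 467481))

theorem part17_16_ok : part17_16.check data17 983040 1015808 589824 655360 = true := by
  decide +kernel

/-- A part of the boxes. -/
def part17_17 : Tree :=
  .cut₂ (.cut₁ (.cut₂ (.box 998121 467481) (.box 995102 467481)) (.cut₂ (.cut₁ (.box 990218 467481)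
  (.box 990218 288919)) (.box 993237 288919))) (.cut₁ (.box 998121 399277) (.box 990218 288919))

theorem part17_17_ok : part17_17.check data17 1015808 1048576 589824 655360 = true := by
  decide +kernel

/-- A part of the boxes. -/
def part17_18 : Tree :=
  .cut₁ (.box 1057178 3204163) (.cut₂ (.cut₁ (.box 1023698 1980282) (.box 1015794 756400))
  (.cut₁ (.box 1023698 1223881) (.box 1023698 756400)))

theorem part17_18_ok : part17_18.check data17 917504 983040 655360 720896 = true := by
  decide +kernel

/-- A part of the boxes. -/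
def part17_19 : Tree :=
  .cut₁ (.cut₂ (.box 1036486 1980282) (.cut₁ (.box 1057178 3204163) (.box 1036486 1223881)))
  (.cut₂ (.cut₁ (.box 1023698 1223881) (.box 1015794 756400)) (.cut₁ (.box 1023698 756400)
  (.box 1015794 756400)))

theorem part17_19_ok : part17_19.check data17 917504 983040 720896 786432 = true := by
  decide +kernel

/-- A part of the boxes. -/
def part17_20 : Tree :=
  .cut₁ (.cut₂ (.cut₁ (.box 1007891 467481) (.box 1003006 467481)) (.cut₁ (.box 1003006 467481)
  (.box 1003006 467481))) (.cut₂ (.cut₁ (.box 1003006 288919) (.box 990218 288919)) (.box 995102 178562))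

theorem part17_20_ok : part17_20.check data17 983040 1048576 655360 720896 = true := by
  decide +kernel

/-- A part of the boxes. -/
def part17_21 : Tree :=
  .cut₁ (.box 1006025 357124) (.box 995102 0)

theorem part17_21_ok : part17_21.check data17 983040 1048576 720896 786432 = true := by
  decide +kernel

/-- A part of the boxes. -/
def part17_22 : Tree :=
  .out

theorem part17_22_ok : part17_22.check data17 786432 917504 786432 1048576 = true := by
  decide +kernel

/-- A part of the boxes. -/
def part17_23 : Tree :=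
  .cut₂ (.cut₁ (.box 1057178 3204163) (.cut₂ (.box 1057178 3204163) (.cut₁ (.box 1057178 3204163)
  (.box 1036486 1223881)))) (.cut₁ (.out) (.cut₂ (.cut₁ (.out) (.cut₂ (.cut₁ (.box 1044390 1223881)
  (.box 1036486 756400)) (.box 1044390 467481))) (.out)))

theorem part17_23_ok : part17_23.check data17 917504 933888 786432 819200 = true := by
  decide +kernel

/-- A part of the boxes. -/
def part17_24 : Tree :=
  .cut₁ (.box 1036486 1045320) (.box 1023698 756400)

theorem part17_24_ok : part17_24.check data17 933888 950272 786432 802816 = true := by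
  decide +kernel

/-- A part of the boxes. -/
def part17_25 : Tree :=
  .cut₁ (.cut₂ (.box 1036486 756400) (.cut₁ (.box 1036486 467481) (.box 1036486 467481)))
  (.cut₂ (.box 1036486 756400) (.box 1031602 646043))

theorem part17_25_ok : part17_25.check data17 933888 942080 802816 811008 = true := by
  decide +kernel

/-- A part of the boxes. -/
def part17_26 : Tree :=
  .cut₁ (.cut₂ (.box 1037640 441429) (.box 1036486 467481)) (.cut₂ (.box 1033468 509634) (.box 1036486 467481))

theorem part17_26_ok : part17_26.check data17 933888 942080 811008 819200 = true := by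
  decide +kernel

/-- A part of the boxes. -/
def part17_27 : Tree :=
  .cut₂ (.cut₁ (.box 1031602 756400) (.box 1023698 756400)) (.cut₁ (.cut₂ (.box 1031602 467481)
  (.box 1036486 467481)) (.box 1023698 467481))

theorem part17_27_ok : part17_27.check data17 942080 950272 802816 819200 = true := by
  decide +kernel

/-- A part of the boxes. -/
def part17_28 : Tree :=
  .cut₁ (.out) (.cut₂ (.cut₁ (.cut₂ (.cut₁ (.out) (.box 1036486 288919)) (.out)) (.cut₂ (.cut₁
  (.box 1036486 288919) (.box 1028583 467481)) (.box 1031602 288919))) (.box 1036486 0))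

theorem part17_28_ok : part17_28.check data17 917504 950272 819200 851968 = true := by
  decide +kernel

/-- A part of the boxes. -/
def part17_29 : Tree :=
  .cut₁ (.cut₂ (.box 1023698 756400) (.cut₁ (.box 1023698 577838) (.box 1020679 756400)))
  (.box 1015794 467481)

theorem part17_29_ok : part17_29.check data17 950272 983040 786432 819200 = true := by
  decide +kernel

/-- A part of the boxes. -/
def part17_30 : Tree :=
  .cut₁ (.cut₂ (.cut₁ (.cut₂ (.box 1023698 467481) (.box 1023698 288919)) (.box 1023698 467481))
  (.box 1023698 178562)) (.box 1010910 0)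

theorem part17_30_ok : part17_30.check data17 950272 983040 819200 851968 = true := by
  decide +kernel

/-- A part of the boxes. -/
def part17_31 : Tree :=
  .cut₁ (.out) (.box 1015794 0)

theorem part17_31_ok : part17_31.check data17 917504 983040 851968 917504 = true := by
  decide +kernel

/-- A part of the boxes. -/
def part17_32 : Tree :=
  .cut₂ (.box 1003006 110357) (.box 1003006 0)

theorem part17_32_ok : part17_32.check data17 983040 1048576 786432 917504 = true := by
  decide +kernel

/-- A part of the boxes. -/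
def part17_33 : Tree :=
  .cut₁ (.out) (.box 1003006 0)

theorem part17_33_ok : part17_33.check data17 917504 1048576 917504 1048576 = true := by
  decide +kernel

/-- All the cuts in dimension 17. -/
def tree17 : Tree :=
  (Tree.cut₁ part17_0 (Tree.cut₂ (Tree.cut₁ part17_1 (Tree.cut₂ part17_2 (Tree.cut₁ part17_3
  (Tree.cut₂ part17_4 (Tree.cut₁ part17_5 (Tree.cut₂ part17_6 (Tree.cut₁ part17_7 (Tree.cut₂
  part17_8 part17_9)))))))) (Tree.cut₁ part17_10 (Tree.cut₂ (Tree.cut₁ part17_11 (Tree.cut₂
  (Tree.cut₁ part17_12 (Tree.cut₂ (Tree.cut₁ part17_13 (Tree.cut₂ part17_14 part17_15))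
  (Tree.cut₁ part17_16 part17_17))) (Tree.cut₁ (Tree.cut₂ part17_18 part17_19) (Tree.cut₂
  part17_20 part17_21)))) (Tree.cut₁ part17_22 (Tree.cut₂ (Tree.cut₁ (Tree.cut₂ (Tree.cut₁
  (Tree.cut₂ (Tree.cut₁ part17_23 (Tree.cut₂ part17_24 (Tree.cut₁ (Tree.cut₂ part17_25
  part17_26) part17_27))) part17_28) (Tree.cut₂ part17_29 part17_30)) part17_31) part17_32)
  part17_33))))))

theorem tree17_ok : tree17.check data17 0 unit 0 unit = true :=
    (check_cut₁ (c := 524288) (by norm_num [unit]) part17_0_ok (check_cut₂ (c := 524288) (by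
    norm_num [unit]) (check_cut₁ (c := 786432) (by norm_num [unit]) part17_1_ok (check_cut₂ (c
    := 262144) (by norm_num [unit]) part17_2_ok (check_cut₁ (c := 917504) (by norm_num [unit])
    part17_3_ok (check_cut₂ (c := 393216) (by norm_num [unit]) part17_4_ok (check_cut₁ (c := 983040)
    (by norm_num [unit]) part17_5_ok (check_cut₂ (c := 458752) (by norm_num [unit]) part17_6_ok
    (check_cut₁ (c := 1015808) (by norm_num [unit]) part17_7_ok (check_cut₂ (c := 491520) (by
    norm_num [unit]) part17_8_ok part17_9_ok)))))))) (check_cut₁ (c := 786432) (by norm_num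
    [unit]) part17_10_ok (check_cut₂ (c := 786432) (by norm_num [unit]) (check_cut₁ (c := 917504)
    (by norm_num [unit]) part17_11_ok (check_cut₂ (c := 655360) (by norm_num [unit]) (check_cut₁
    (c := 983040) (by norm_num [unit]) part17_12_ok (check_cut₂ (c := 589824) (by norm_num
    [unit]) (check_cut₁ (c := 1015808) (by norm_num [unit]) part17_13_ok (check_cut₂ (c := 557056)
    (by norm_num [unit]) part17_14_ok part17_15_ok)) (check_cut₁ (c := 1015808) (by norm_num
    [unit]) part17_16_ok part17_17_ok))) (check_cut₁ (c := 983040) (by norm_num [unit])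
    (check_cut₂ (c := 720896) (by norm_num [unit]) part17_18_ok part17_19_ok) (check_cut₂ (c := 720896)
    (by norm_num [unit]) part17_20_ok part17_21_ok)))) (check_cut₁ (c := 917504) (by norm_num
    [unit]) part17_22_ok (check_cut₂ (c := 917504) (by norm_num [unit]) (check_cut₁ (c := 983040)
    (by norm_num [unit]) (check_cut₂ (c := 851968) (by norm_num [unit]) (check_cut₁ (c := 950272)
    (by norm_num [unit]) (check_cut₂ (c := 819200) (by norm_num [unit]) (check_cut₁ (c := 933888)
    (by norm_num [unit]) part17_23_ok (check_cut₂ (c := 802816) (by norm_num [unit])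
    part17_24_ok (check_cut₁ (c := 942080) (by norm_num [unit]) (check_cut₂ (c := 811008) (by
    norm_num [unit]) part17_25_ok part17_26_ok) part17_27_ok))) part17_28_ok) (check_cut₂ (c := 819200)
    (by norm_num [unit]) part17_29_ok part17_30_ok)) part17_31_ok) part17_32_ok)
    part17_33_ok))))))

end Vale.Agent.P237.Quant.WindowCert
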