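import Vale.Agent.P237.Quant.WindowCheck

/-!
The window certificate of the moment excess in dimension 18. The cuts are checked in parts, so
that no kernel computation grows too large.
-/

namespace Vale.Agent.P237.Quant.WindowCert

/-- The shared data in dimension 18. -/
def data18 : Cert where
  m := 17
  s := 366905
  q := 772287
  c := 1090074
  κ := 489751
  I := 60950
  zone₀ := [
    ⟨0, 1048577⟩, ⟨14112, 1048671⟩, ⟨28223, 1048957⟩, ⟨42335, 1049432⟩, ⟨56447, 1050099⟩,
    ⟨70559, 1050959⟩, ⟨84670, 1052012⟩, ⟨98782, 1053261⟩, ⟨112894, 1054707⟩, ⟨127006, 1056354⟩,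
    ⟨141117, 1058203⟩, ⟨155229, 1060259⟩, ⟨169341, 1062524⟩, ⟨183452, 1065002⟩, ⟨197564, 1067699⟩,
    ⟨211676, 1070618⟩, ⟨225788, 1073765⟩, ⟨239899, 1077146⟩, ⟨254011, 1080767⟩, ⟨268123, 1084634⟩,
    ⟨282235, 1088757⟩, ⟨296346, 1093141⟩, ⟨310458, 1097797⟩, ⟨324570, 1102734⟩, ⟨338682, 1107961⟩,
    ⟨352793, 1113491⟩, ⟨366905, 1119336⟩]
  zone₁ := [
    ⟨366905, 1119336⟩, ⟨376118, 1123328⟩, ⟨385331, 1127464⟩, ⟨394545, 1131747⟩, ⟨403758, 1136183⟩,
    ⟨412971, 1140775⟩, ⟨422184, 1145529⟩, ⟨431398, 1150450⟩, ⟨440611, 1155543⟩, ⟨449824, 1160814⟩,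
    ⟨459037, 1166269⟩, ⟨468250, 1171915⟩, ⟨477464, 1177759⟩, ⟨486677, 1183807⟩, ⟨495890, 1190068⟩,
    ⟨505103, 1196549⟩, ⟨514317, 1203260⟩, ⟨523530, 1210209⟩, ⟨532743, 1217407⟩, ⟨541956, 1224863⟩,
    ⟨551170, 1232591⟩, ⟨560383, 1240600⟩, ⟨569596, 1248904⟩, ⟨578809, 1257516⟩, ⟨588022, 1266452⟩,
    ⟨597236, 1275728⟩, ⟨606449, 1285358⟩, ⟨615662, 1295363⟩, ⟨624875, 1305761⟩, ⟨634089, 1316575⟩,
    ⟨643302, 1327826⟩, ⟨652515, 1339538⟩, ⟨661728, 1351740⟩, ⟨670942, 1364461⟩, ⟨680155, 1377730⟩,
    ⟨689368, 1391583⟩, ⟨698581, 1406058⟩, ⟨707794, 1421195⟩, ⟨717008, 1437042⟩, ⟨726221, 1453645⟩,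
    ⟨735434, 1471061⟩, ⟨744647, 1489350⟩, ⟨753861, 1508582⟩, ⟨763074, 1528827⟩, ⟨772287, 1550171⟩]
  zone₂ := [
    ⟨772287, 1550171⟩, ⟨786454, 1585355⟩, ⟨800370, 1623049⟩, ⟨814031, 1663513⟩, ⟨827431, 1707042⟩,
    ⟨840566, 1753984⟩, ⟨853431, 1804742⟩, ⟨866018, 1859778⟩, ⟨878323, 1919655⟩, ⟨890338, 1985022⟩,
    ⟨902056, 2056666⟩, ⟨913470, 2135542⟩, ⟨924571, 2222801⟩, ⟨935350, 2319872⟩, ⟨945797, 2428536⟩,
    ⟨955902, 2551058⟩, ⟨965652, 2690329⟩, ⟨975033, 2850138⟩, ⟨984032, 3035604⟩, ⟨992630, 3253658⟩,
    ⟨1000809, 3514181⟩, ⟨1008545, 3831526⟩, ⟨1015811, 4227652⟩, ⟨1022575, 4738043⟩,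
    ⟨1028796, 5424124⟩, ⟨1034423, 6403701⟩, ⟨1039383, 7936157⟩, ⟨1043572, 10745954⟩,
    ⟨1046807, 18059437⟩]

theorem data18_wf : data18.wf = true := by decide +kernel

theorem data18_const : constOk data18 = true := by decide +kernel

/-- A part of the boxes. -/
def part18_0 : Tree :=
  .out

theorem part18_0_ok : part18_0.check data18 0 524288 0 1048576 = true := by
  decide +kernel

/-- A part of the boxes. -/
def part18_1 : Tree :=
  .box 1144831 3204163

theorem part18_1_ok : part18_1.check data18 524288 786432 0 524288 = true := by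
  decide +kernel

/-- A part of the boxes. -/
def part18_2 : Tree :=
  .out

theorem part18_2_ok : part18_2.check data18 786432 1048576 0 262144 = true := by
  decide +kernel

/-- A part of the boxes. -/
def part18_3 : Tree :=
  .box 1057178 3204163

theorem part18_3_ok : part18_3.check data18 786432 917504 262144 524288 = true := by
  decide +kernel

/-- A part of the boxes. -/
def part18_4 : Tree :=
  .box 1057178 3204163

theorem part18_4_ok : part18_4.check data18 917504 1048576 262144 393216 = true := by
  decide +kernel

/-- A part of the boxes. -/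
def part18_5 : Tree :=
  .cut₂ (.box 1057178 3204163) (.cut₁ (.box 1057178 3204163) (.box 1003006 3204163))

theorem part18_5_ok : part18_5.check data18 917504 983040 393216 524288 = true := by
  decide +kernel

/-- A part of the boxes. -/
def part18_6 : Tree :=
  .box 1003006 3204163

theorem part18_6_ok : part18_6.check data18 983040 1048576 393216 458752 = true := by
  decide +kernel

/-- A part of the boxes. -/
def part18_7 : Tree :=
  .cut₂ (.box 1003006 3204163) (.box 1010910 934962)

theorem part18_7_ok : part18_7.check data18 983040 1015808 458752 524288 = true := by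
  decide +kernel

/-- A part of the boxes. -/
def part18_8 : Tree :=
  .cut₁ (.box 1003006 1980282) (.cut₂ (.box 1003006 3204163) (.cut₁ (.box 990218 1980282)
  (.box 990218 1223881)))

theorem part18_8_ok : part18_8.check data18 1015808 1048576 458752 491520 = true := by
  decide +kernel

/-- A part of the boxes. -/
def part18_9 : Tree :=
  .box 1003006 756400

theorem part18_9_ok : part18_9.check data18 1015808 1032192 491520 524288 = true := by
  decide +kernel

/-- A part of the boxes. -/
def part18_10 : Tree :=
  .cut₁ (.box 990218 756400) (.cut₂ (.box 990218 756400) (.cut₁ (.box 990218 756400) (.box 987199 756400)))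

theorem part18_10_ok : part18_10.check data18 1032192 1048576 491520 507904 = true := by
  decide +kernel

/-- A part of the boxes. -/
def part18_11 : Tree :=
  .cut₁ (.box 990218 756400) (.cut₂ (.cut₁ (.box 990218 756400) (.box 990218 577838)) (.cut₁
  (.box 990218 646043) (.box 990218 577838)))

theorem part18_11_ok : part18_11.check data18 1032192 1048576 507904 524288 = true := by
  decide +kernel

/-- A part of the boxes. -/
def part18_12 : Tree :=
  .out

theorem part18_12_ok : part18_12.check data18 524288 786432 524288 1048576 = true := by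
  decide +kernel

/-- A part of the boxes. -/
def part18_13 : Tree :=
  .box 1090659 3204163

theorem part18_13_ok : part18_13.check data18 786432 917504 524288 786432 = true := by
  decide +kernel

/-- A part of the boxes. -/
def part18_14 : Tree :=
  .cut₂ (.cut₁ (.box 1057178 3204163) (.box 1023698 1223881)) (.cut₁ (.box 1057178 3204163)
  (.cut₂ (.box 1023698 1045320) (.cut₁ (.box 1023698 3204163) (.box 1023698 1223881))))

theorem part18_14_ok : part18_14.check data18 917504 983040 524288 655360 = true := by
  decide +kernel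

/-- A part of the boxes. -/
def part18_15 : Tree :=
  .cut₂ (.cut₁ (.box 1003006 1223881) (.box 1003006 756400)) (.cut₁ (.box 1009044 1223881)
  (.box 1003006 756400))

theorem part18_15_ok : part18_15.check data18 983040 1015808 524288 589824 = true := by
  decide +kernel

/-- A part of the boxes. -/
def part18_16 : Tree :=
  .cut₂ (.box 998121 756400) (.box 998121 646043)

theorem part18_16_ok : part18_16.check data18 1015808 1032192 524288 557056 = true := by
  decide +kernel

/-- A part of the boxes. -/
def part18_17 : Tree :=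
  .cut₁ (.box 995102 577838) (.cut₂ (.cut₁ (.box 995102 467481) (.box 993237 467481)) (.cut₁
  (.box 995102 467481) (.box 990218 467481)))

theorem part18_17_ok : part18_17.check data18 1032192 1048576 524288 540672 = true := by
  decide +kernel

/-- A part of the boxes. -/
def part18_18 : Tree :=
  .cut₁ (.box 998121 467481) (.cut₂ (.cut₁ (.box 995102 467481) (.box 990218 467481)) (.cut₁
  (.box 990218 467481) (.box 990218 467481)))

theorem part18_18_ok : part18_18.check data18 1032192 1048576 540672 557056 = true := by
  decide +kernel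

/-- A part of the boxes. -/
def part18_19 : Tree :=
  .cut₂ (.cut₁ (.box 1003006 756400) (.box 1001140 467481)) (.cut₁ (.box 998121 756400) (.box 1003006 467481))

theorem part18_19_ok : part18_19.check data18 1015808 1032192 557056 589824 = true := by
  decide +kernel

/-- A part of the boxes. -/
def part18_20 : Tree :=
  .cut₂ (.cut₁ (.box 995102 467481) (.cut₂ (.cut₁ (.box 990218 467481) (.box 990218 467481))
  (.cut₁ (.box 990218 467481) (.box 990218 467481)))) (.cut₁ (.box 995102 467481) (.cut₂ (.box 993237 399277)
  (.box 992084 399277)))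

theorem part18_20_ok : part18_20.check data18 1032192 1048576 557056 589824 = true := by
  decide +kernel

/-- A part of the boxes. -/
def part18_21 : Tree :=
  .cut₂ (.cut₁ (.box 1010910 756400) (.box 1006025 646043)) (.cut₁ (.box 1010910 756400) (.box 1006025 577838))

theorem part18_21_ok : part18_21.check data18 983040 1015808 589824 655360 = true := by
  decide +kernel

/-- A part of the boxes. -/
def part18_22 : Tree :=
  .cut₁ (.cut₂ (.cut₁ (.box 1003006 467481) (.box 1003006 467481)) (.cut₁ (.box 1003006 467481)
  (.box 1003006 467481))) (.cut₂ (.cut₁ (.box 995102 467481) (.box 993237 357124)) (.cut₁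
  (.box 995102 467481) (.box 990218 357124)))

theorem part18_22_ok : part18_22.check data18 1015808 1048576 589824 622592 = true := by
  decide +kernel

/-- A part of the boxes. -/
def part18_23 : Tree :=
  .cut₁ (.cut₂ (.box 999987 467481) (.box 1003006 399277)) (.cut₂ (.cut₁ (.box 998121 288919)
  (.box 990218 288919)) (.box 995102 288919))

theorem part18_23_ok : part18_23.check data18 1015808 1048576 622592 655360 = true := by
  decide +kernel

/-- A part of the boxes. -/
def part18_24 : Tree :=
  .cut₁ (.box 1057178 3204163) (.cut₂ (.cut₁ (.box 1028583 3204163) (.box 1023698 756400))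
  (.cut₁ (.box 1023698 1980282) (.box 1023698 756400)))

theorem part18_24_ok : part18_24.check data18 917504 983040 655360 720896 = true := by
  decide +kernel

/-- A part of the boxes. -/
def part18_25 : Tree :=
  .cut₁ (.box 1049275 1512801) (.cut₂ (.cut₁ (.box 1023698 1223881) (.box 1023698 756400))
  (.cut₁ (.box 1031602 1223881) (.box 1023698 756400)))

theorem part18_25_ok : part18_25.check data18 917504 983040 720896 786432 = true := by
  decide +kernel

/-- A part of the boxes. -/
def part18_26 : Tree :=
  .cut₁ (.cut₂ (.cut₁ (.box 1010910 756400) (.box 1003006 467481)) (.cut₁ (.box 1010910 467481)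
  (.box 1003006 467481))) (.cut₂ (.cut₁ (.box 1003006 357124) (.box 990218 288919)) (.cut₁
  (.box 1003006 288919) (.box 990218 288919)))

theorem part18_26_ok : part18_26.check data18 983040 1048576 655360 720896 = true := by
  decide +kernel

/-- A part of the boxes. -/
def part18_27 : Tree :=
  .cut₁ (.cut₂ (.cut₁ (.box 1010910 467481) (.box 1003006 467481)) (.box 1009044 288919))
  (.box 1003006 178562)

theorem part18_27_ok : part18_27.check data18 983040 1048576 720896 786432 = true := by
  decide +kernel

/-- A part of the boxes. -/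
def part18_28 : Tree :=
  .out

theorem part18_28_ok : part18_28.check data18 786432 917504 786432 1048576 = true := by
  decide +kernel

/-- A part of the boxes. -/
def part18_29 : Tree :=
  .box 1057178 3204163

theorem part18_29_ok : part18_29.check data18 917504 933888 786432 819200 = true := by
  decide +kernel

/-- A part of the boxes. -/
def part18_30 : Tree :=
  .box 1036486 1223881

theorem part18_30_ok : part18_30.check data18 933888 950272 786432 802816 = true := by
  decide +kernel

/-- A part of the boxes. -/
def part18_31 : Tree :=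
  .cut₂ (.box 1036486 1223881) (.cut₁ (.box 1044390 1223881) (.cut₂ (.box 1044390 1223881)
  (.cut₁ (.box 1044390 756400) (.box 1036486 756400))))

theorem part18_31_ok : part18_31.check data18 933888 942080 802816 819200 = true := by
  decide +kernel

/-- A part of the boxes. -/
def part18_32 : Tree :=
  .cut₂ (.box 1036486 1223881) (.cut₁ (.cut₂ (.box 1036486 1223881) (.box 1036486 756400))
  (.box 1036486 756400))

theorem part18_32_ok : part18_32.check data18 942080 950272 802816 819200 = true := by
  decide +kernel

/-- A part of the boxes. -/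
def part18_33 : Tree :=
  .out

theorem part18_33_ok : part18_33.check data18 917504 933888 819200 851968 = true := by
  decide +kernel

/-- A part of the boxes. -/
def part18_34 : Tree :=
  .cut₂ (.cut₁ (.out) (.cut₂ (.cut₁ (.box 1036486 756400) (.box 1036486 467481)) (.box 1036486 467481)))
  (.out)

theorem part18_34_ok : part18_34.check data18 933888 942080 819200 835584 = true := by
  decide +kernel

/-- A part of the boxes. -/
def part18_35 : Tree :=
  .cut₂ (.cut₁ (.cut₂ (.cut₁ (.box 1036486 467481) (.box 1036486 756400)) (.box 1036486 467481))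
  (.cut₂ (.box 1031602 467481) (.box 1036486 467481))) (.cut₁ (.box 1036486 467481) (.box 1031602 288919))

theorem part18_35_ok : part18_35.check data18 942080 950272 819200 835584 = true := by
  decide +kernel

/-- A part of the boxes. -/
def part18_36 : Tree :=
  .cut₁ (.out) (.box 1036486 0)

theorem part18_36_ok : part18_36.check data18 933888 950272 835584 851968 = true := by
  decide +kernel

/-- A part of the boxes. -/
def part18_37 : Tree :=
  .cut₁ (.cut₂ (.box 1023698 756400) (.cut₁ (.box 1023698 756400) (.box 1023698 756400)))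
  (.box 1015794 467481)

theorem part18_37_ok : part18_37.check data18 950272 983040 786432 819200 = true := by
  decide +kernel

/-- A part of the boxes. -/
def part18_38 : Tree :=
  .cut₂ (.cut₁ (.cut₂ (.cut₁ (.box 1028583 467481) (.box 1023698 756400)) (.cut₁ (.box 1031602 467481)
  (.box 1023698 467481))) (.box 1023698 467481)) (.cut₁ (.cut₂ (.box 1028583 288919) (.box 1023698 0))
  (.box 1023698 288919))

theorem part18_38_ok : part18_38.check data18 950272 966656 819200 851968 = true := by
  decide +kernel

/-- A part of the boxes. -/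
def part18_39 : Tree :=
  .box 1015794 357124

theorem part18_39_ok : part18_39.check data18 966656 983040 819200 851968 = true := by
  decide +kernel

/-- A part of the boxes. -/
def part18_40 : Tree :=
  .cut₁ (.out) (.cut₂ (.cut₁ (.box 1023698 0) (.box 1003006 0)) (.box 1003006 0))

theorem part18_40_ok : part18_40.check data18 917504 983040 851968 917504 = true := by
  decide +kernel

/-- A part of the boxes. -/
def part18_41 : Tree :=
  .cut₂ (.cut₁ (.box 1010910 288919) (.box 1003006 0)) (.box 1003006 0)

theorem part18_41_ok : part18_41.check data18 983040 1048576 786432 917504 = true := by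
  decide +kernel

/-- A part of the boxes. -/
def part18_42 : Tree :=
  .cut₁ (.out) (.box 1003006 0)

theorem part18_42_ok : part18_42.check data18 917504 1048576 917504 1048576 = true := by
  decide +kernel

/-- All the cuts in dimension 18. -/
def tree18 : Tree :=
  (Tree.cut₁ part18_0 (Tree.cut₂ (Tree.cut₁ part18_1 (Tree.cut₂ part18_2 (Tree.cut₁ part18_3
  (Tree.cut₂ part18_4 (Tree.cut₁ part18_5 (Tree.cut₂ part18_6 (Tree.cut₁ part18_7 (Tree.cut₂
  part18_8 (Tree.cut₁ part18_9 (Tree.cut₂ part18_10 part18_11)))))))))) (Tree.cut₁ part18_12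
  (Tree.cut₂ (Tree.cut₁ part18_13 (Tree.cut₂ (Tree.cut₁ part18_14 (Tree.cut₂ (Tree.cut₁
  part18_15 (Tree.cut₂ (Tree.cut₁ part18_16 (Tree.cut₂ part18_17 part18_18)) (Tree.cut₁
  part18_19 part18_20))) (Tree.cut₁ part18_21 (Tree.cut₂ part18_22 part18_23)))) (Tree.cut₁
  (Tree.cut₂ part18_24 part18_25) (Tree.cut₂ part18_26 part18_27)))) (Tree.cut₁ part18_28
  (Tree.cut₂ (Tree.cut₁ (Tree.cut₂ (Tree.cut₁ (Tree.cut₂ (Tree.cut₁ part18_29 (Tree.cut₂
  part18_30 (Tree.cut₁ part18_31 part18_32))) (Tree.cut₁ part18_33 (Tree.cut₂ (Tree.cut₁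
  part18_34 part18_35) part18_36))) (Tree.cut₂ part18_37 (Tree.cut₁ part18_38 part18_39)))
  part18_40) part18_41) part18_42))))))

theorem tree18_ok : tree18.check data18 0 unit 0 unit = true :=
    (check_cut₁ (c := 524288) (by norm_num [unit]) part18_0_ok (check_cut₂ (c := 524288) (by
    norm_num [unit]) (check_cut₁ (c := 786432) (by norm_num [unit]) part18_1_ok (check_cut₂ (c
    := 262144) (by norm_num [unit]) part18_2_ok (check_cut₁ (c := 917504) (by norm_num [unit])
    part18_3_ok (check_cut₂ (c := 393216) (by norm_num [unit]) part18_4_ok (check_cut₁ (c := 983040)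
    (by norm_num [unit]) part18_5_ok (check_cut₂ (c := 458752) (by norm_num [unit]) part18_6_ok
    (check_cut₁ (c := 1015808) (by norm_num [unit]) part18_7_ok (check_cut₂ (c := 491520) (by
    norm_num [unit]) part18_8_ok (check_cut₁ (c := 1032192) (by norm_num [unit]) part18_9_ok
    (check_cut₂ (c := 507904) (by norm_num [unit]) part18_10_ok part18_11_ok))))))))))
    (check_cut₁ (c := 786432) (by norm_num [unit]) part18_12_ok (check_cut₂ (c := 786432) (by
    norm_num [unit]) (check_cut₁ (c := 917504) (by norm_num [unit]) part18_13_ok (check_cut₂ (c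
    := 655360) (by norm_num [unit]) (check_cut₁ (c := 983040) (by norm_num [unit]) part18_14_ok
    (check_cut₂ (c := 589824) (by norm_num [unit]) (check_cut₁ (c := 1015808) (by norm_num
    [unit]) part18_15_ok (check_cut₂ (c := 557056) (by norm_num [unit]) (check_cut₁ (c := 1032192)
    (by norm_num [unit]) part18_16_ok (check_cut₂ (c := 540672) (by norm_num [unit])
    part18_17_ok part18_18_ok)) (check_cut₁ (c := 1032192) (by norm_num [unit]) part18_19_ok
    part18_20_ok))) (check_cut₁ (c := 1015808) (by norm_num [unit]) part18_21_ok (check_cut₂ (c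
    := 622592) (by norm_num [unit]) part18_22_ok part18_23_ok)))) (check_cut₁ (c := 983040) (by
    norm_num [unit]) (check_cut₂ (c := 720896) (by norm_num [unit]) part18_24_ok part18_25_ok)
    (check_cut₂ (c := 720896) (by norm_num [unit]) part18_26_ok part18_27_ok)))) (check_cut₁ (c
    := 917504) (by norm_num [unit]) part18_28_ok (check_cut₂ (c := 917504) (by norm_num [unit])
    (check_cut₁ (c := 983040) (by norm_num [unit]) (check_cut₂ (c := 851968) (by norm_num
    [unit]) (check_cut₁ (c := 950272) (by norm_num [unit]) (check_cut₂ (c := 819200) (by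
    norm_num [unit]) (check_cut₁ (c := 933888) (by norm_num [unit]) part18_29_ok (check_cut₂ (c
    := 802816) (by norm_num [unit]) part18_30_ok (check_cut₁ (c := 942080) (by norm_num [unit])
    part18_31_ok part18_32_ok))) (check_cut₁ (c := 933888) (by norm_num [unit]) part18_33_ok
    (check_cut₂ (c := 835584) (by norm_num [unit]) (check_cut₁ (c := 942080) (by norm_num
    [unit]) part18_34_ok part18_35_ok) part18_36_ok))) (check_cut₂ (c := 819200) (by norm_num
    [unit]) part18_37_ok (check_cut₁ (c := 966656) (by norm_num [unit]) part18_38_ok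
    part18_39_ok))) part18_40_ok) part18_41_ok) part18_42_ok))))))

end Vale.Agent.P237.Quant.WindowCert
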