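import Vale.Agent.P237.Quant.WindowCheck

/-!
The window certificate of the moment excess in dimension 19. The cuts are checked in parts, so
that no kernel computation grows too large.
-/

namespace Vale.Agent.P237.Quant.WindowCert

/-- The shared data in dimension 19. -/
def data19 : Cert where
  m := 18
  s := 357908
  q := 759997
  c := 1087854
  κ := 477745
  I := 62296
  zone₀ := [
    ⟨0, 1048577⟩, ⟨13766, 1048667⟩, ⟨27531, 1048938⟩, ⟨41297, 1049391⟩, ⟨55063, 1050025⟩,
    ⟨68828, 1050843⟩, ⟨82594, 1051845⟩, ⟨96360, 1053032⟩, ⟨110126, 1054408⟩, ⟨123891, 1055973⟩,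
    ⟨137657, 1057731⟩, ⟨151423, 1059684⟩, ⟨165188, 1061835⟩, ⟨178954, 1064189⟩, ⟨192720, 1066748⟩,
    ⟨206485, 1069518⟩, ⟨220251, 1072503⟩, ⟨234017, 1075708⟩, ⟨247782, 1079138⟩, ⟨261548, 1082801⟩,
    ⟨275314, 1086703⟩, ⟨289080, 1090850⟩, ⟨302845, 1095251⟩, ⟨316611, 1099914⟩, ⟨330377, 1104849⟩,
    ⟨344142, 1110065⟩, ⟨357908, 1115573⟩]
  zone₁ := [
    ⟨357908, 1115573⟩, ⟨367046, 1119396⟩, ⟨376185, 1123358⟩, ⟨385323, 1127460⟩, ⟨394462, 1131708⟩,
    ⟨403600, 1136105⟩, ⟨412738, 1140657⟩, ⟨421877, 1145368⟩, ⟨431015, 1150242⟩, ⟨440153, 1155286⟩,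
    ⟨449292, 1160505⟩, ⟨458430, 1165904⟩, ⟨467569, 1171491⟩, ⟨476707, 1177271⟩, ⟨485845, 1183252⟩,
    ⟨494984, 1189442⟩, ⟨504122, 1195848⟩, ⟨513261, 1202479⟩, ⟨522399, 1209343⟩, ⟨531537, 1216450⟩,
    ⟨540676, 1223811⟩, ⟨549814, 1231436⟩, ⟨558952, 1239337⟩, ⟨568091, 1247527⟩, ⟨577229, 1256017⟩,
    ⟨586368, 1264823⟩, ⟨595506, 1273959⟩, ⟨604644, 1283443⟩, ⟨613783, 1293291⟩, ⟨622921, 1303522⟩,
    ⟨632060, 1314157⟩, ⟨641198, 1325217⟩, ⟨650336, 1336725⟩, ⟨659475, 1348709⟩, ⟨668613, 1361195⟩,
    ⟨677752, 1374214⟩, ⟨686890, 1387797⟩, ⟨696028, 1401982⟩, ⟨705167, 1416809⟩, ⟨714305, 1432317⟩,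
    ⟨723443, 1448556⟩, ⟨732582, 1465579⟩, ⟨741720, 1483441⟩, ⟨750859, 1502208⟩, ⟨759997, 1521947⟩]
  zone₂ := [
    ⟨759997, 1521947⟩, ⟨774794, 1556181⟩, ⟨789329, 1592875⟩, ⟨803598, 1632283⟩, ⟨817594, 1674693⟩,
    ⟨831314, 1720449⟩, ⟨844750, 1769936⟩, ⟨857897, 1823615⟩, ⟨870749, 1882031⟩, ⟨883299, 1945827⟩,
    ⟨895538, 2015763⟩, ⟨907460, 2092779⟩, ⟨919055, 2178001⟩, ⟨930313, 2272819⟩, ⟨941225, 2378987⟩,
    ⟨951779, 2498708⟩, ⟨961963, 2634827⟩, ⟨971762, 2791051⟩, ⟨981161, 2972362⟩, ⟨990142, 3185580⟩,
    ⟨998684, 3440313⟩, ⟨1006764, 3750659⟩, ⟨1014353, 4138078⟩, ⟨1021418, 4637313⟩,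
    ⟨1027916, 5308473⟩, ⟨1033793, 6266712⟩, ⟨1038974, 7766057⟩, ⟨1043349, 10514789⟩,
    ⟨1046728, 17669544⟩]

theorem data19_wf : data19.wf = true := by decide +kernel

theorem data19_const : constOk data19 = true := by decide +kernel

/-- A part of the boxes. -/
def part19_0 : Tree :=
  .out

theorem part19_0_ok : part19_0.check data19 0 524288 0 1048576 = true := by
  decide +kernel

/-- A part of the boxes. -/
def part19_1 : Tree :=
  .box 1111351 3204163

theorem part19_1_ok : part19_1.check data19 524288 786432 0 524288 = true := by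
  decide +kernel

/-- A part of the boxes. -/
def part19_2 : Tree :=
  .out

theorem part19_2_ok : part19_2.check data19 786432 1048576 0 262144 = true := by
  decide +kernel

/-- A part of the boxes. -/
def part19_3 : Tree :=
  .box 1057178 3204163

theorem part19_3_ok : part19_3.check data19 786432 917504 262144 524288 = true := by
  decide +kernel

/-- A part of the boxes. -/
def part19_4 : Tree :=
  .box 1057178 3204163

theorem part19_4_ok : part19_4.check data19 917504 1048576 262144 393216 = true := by
  decide +kernel

/-- A part of the boxes. -/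
def part19_5 : Tree :=
  .box 1023698 3204163

theorem part19_5_ok : part19_5.check data19 917504 983040 393216 524288 = true := by
  decide +kernel

/-- A part of the boxes. -/
def part19_6 : Tree :=
  .box 1003006 3204163

theorem part19_6_ok : part19_6.check data19 983040 1048576 393216 458752 = true := by
  decide +kernel

/-- A part of the boxes. -/
def part19_7 : Tree :=
  .box 1010910 1223881

theorem part19_7_ok : part19_7.check data19 983040 1015808 458752 524288 = true := by
  decide +kernel

/-- A part of the boxes. -/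
def part19_8 : Tree :=
  .cut₁ (.box 1003006 3204163) (.box 1003006 3204163)

theorem part19_8_ok : part19_8.check data19 1015808 1048576 458752 491520 = true := by
  decide +kernel

/-- A part of the boxes. -/
def part19_9 : Tree :=
  .cut₁ (.box 1003006 756400) (.cut₂ (.cut₁ (.box 1003006 1223881) (.box 995102 934962))
  (.cut₁ (.box 990218 756400) (.cut₂ (.cut₁ (.box 990218 756400) (.box 990218 756400)) (.cut₁
  (.box 990218 756400) (.box 991371 646043)))))

theorem part19_9_ok : part19_9.check data19 1015808 1048576 491520 524288 = true := by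
  decide +kernel

/-- A part of the boxes. -/
def part19_10 : Tree :=
  .out

theorem part19_10_ok : part19_10.check data19 524288 786432 524288 1048576 = true := by
  decide +kernel

/-- A part of the boxes. -/
def part19_11 : Tree :=
  .box 1057178 3204163

theorem part19_11_ok : part19_11.check data19 786432 917504 524288 786432 = true := by
  decide +kernel

/-- A part of the boxes. -/
def part19_12 : Tree :=
  .cut₂ (.cut₁ (.box 1057178 3204163) (.box 1023698 1980282)) (.cut₁ (.box 1057178 3204163)
  (.cut₂ (.box 1023698 1223881) (.cut₁ (.box 1057178 3204163) (.box 1023698 1223881))))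

theorem part19_12_ok : part19_12.check data19 917504 983040 524288 655360 = true := by
  decide +kernel

/-- A part of the boxes. -/
def part19_13 : Tree :=
  .cut₂ (.cut₁ (.box 1010910 1980282) (.box 1010910 756400)) (.cut₁ (.box 1015794 1223881)
  (.box 1010910 756400))

theorem part19_13_ok : part19_13.check data19 983040 1015808 524288 589824 = true := by
  decide +kernel

/-- A part of the boxes. -/
def part19_14 : Tree :=
  .cut₂ (.box 1003006 756400) (.box 1003006 646043)

theorem part19_14_ok : part19_14.check data19 1015808 1032192 524288 557056 = true := by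
  decide +kernel

/-- A part of the boxes. -/
def part19_15 : Tree :=
  .cut₁ (.box 995102 756400) (.cut₂ (.cut₁ (.box 990218 756400) (.box 992084 577838)) (.cut₁
  (.box 995102 577838) (.box 992084 577838)))

theorem part19_15_ok : part19_15.check data19 1032192 1048576 524288 540672 = true := by
  decide +kernel

/-- A part of the boxes. -/
def part19_16 : Tree :=
  .cut₁ (.box 998121 577838) (.cut₂ (.cut₁ (.box 998121 467481) (.box 993237 535686)) (.cut₁
  (.box 998121 467481) (.box 993237 509634)))

theorem part19_16_ok : part19_16.check data19 1032192 1048576 540672 557056 = true := by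
  decide +kernel

/-- A part of the boxes. -/
def part19_17 : Tree :=
  .cut₂ (.cut₁ (.box 1003006 756400) (.box 998121 756400)) (.cut₁ (.box 1003006 756400) (.box 1003006 577838))

theorem part19_17_ok : part19_17.check data19 1015808 1032192 557056 589824 = true := by
  decide +kernel

/-- A part of the boxes. -/
def part19_18 : Tree :=
  .cut₁ (.box 998121 577838) (.cut₂ (.cut₁ (.box 998121 467481) (.box 995102 467481)) (.cut₁
  (.box 995102 467481) (.box 995102 467481)))

theorem part19_18_ok : part19_18.check data19 1032192 1048576 557056 573440 = true := by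
  decide +kernel

/-- A part of the boxes. -/
def part19_19 : Tree :=
  .cut₁ (.box 999987 467481) (.cut₂ (.cut₁ (.box 995102 467481) (.box 993237 467481)) (.cut₁
  (.box 995102 467481) (.box 995102 425328)))

theorem part19_19_ok : part19_19.check data19 1032192 1048576 573440 589824 = true := by
  decide +kernel

/-- A part of the boxes. -/
def part19_20 : Tree :=
  .cut₂ (.cut₁ (.box 1015794 756400) (.cut₂ (.box 1010910 756400) (.box 1010910 646043)))
  (.cut₁ (.box 1015794 756400) (.cut₂ (.box 1010910 646043) (.box 1010910 577838)))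

theorem part19_20_ok : part19_20.check data19 983040 1015808 589824 655360 = true := by
  decide +kernel

/-- A part of the boxes. -/
def part19_21 : Tree :=
  .cut₂ (.cut₁ (.box 1003006 756400) (.box 1003006 467481)) (.cut₁ (.box 1006025 467481) (.box 1003006 467481))

theorem part19_21_ok : part19_21.check data19 1015808 1032192 589824 622592 = true := by
  decide +kernel

/-- A part of the boxes. -/
def part19_22 : Tree :=
  .cut₂ (.cut₁ (.box 998121 467481) (.cut₂ (.cut₁ (.box 995102 467481) (.box 995102 399277))
  (.cut₁ (.box 995102 467481) (.box 995102 399277)))) (.cut₁ (.box 998121 467481) (.cut₂ (.box 996968 357124)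
  (.box 995102 357124)))

theorem part19_22_ok : part19_22.check data19 1032192 1048576 589824 622592 = true := by
  decide +kernel

/-- A part of the boxes. -/
def part19_23 : Tree :=
  .cut₁ (.cut₂ (.cut₁ (.box 1003006 467481) (.box 1003006 467481)) (.cut₁ (.box 1003006 467481)
  (.box 1003006 467481))) (.cut₂ (.cut₁ (.box 1003006 399277) (.box 995102 357124)) (.cut₁
  (.box 1001140 288919) (.box 998121 288919)))

theorem part19_23_ok : part19_23.check data19 1015808 1048576 622592 655360 = true := by
  decide +kernel

/-- A part of the boxes. -/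
def part19_24 : Tree :=
  .cut₁ (.box 1057178 3204163) (.cut₂ (.cut₁ (.box 1036486 3204163) (.box 1023698 1223881))
  (.cut₁ (.box 1023698 3204163) (.box 1023698 756400)))

theorem part19_24_ok : part19_24.check data19 917504 983040 655360 720896 = true := by
  decide +kernel

/-- A part of the boxes. -/
def part19_25 : Tree :=
  .cut₁ (.box 1057178 3204163) (.cut₂ (.cut₁ (.box 1023698 1980282) (.box 1023698 756400))
  (.cut₁ (.box 1023698 1223881) (.box 1023698 756400)))

theorem part19_25_ok : part19_25.check data19 917504 983040 720896 786432 = true := by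
  decide +kernel

/-- A part of the boxes. -/
def part19_26 : Tree :=
  .cut₂ (.cut₁ (.box 1015794 756400) (.box 1010910 509634)) (.cut₁ (.box 1015794 646043) (.box 1010910 467481))

theorem part19_26_ok : part19_26.check data19 983040 1015808 655360 720896 = true := by
  decide +kernel

/-- A part of the boxes. -/
def part19_27 : Tree :=
  .cut₂ (.cut₁ (.box 1004159 383176) (.cut₂ (.box 998121 288919) (.box 998121 288919))) (.cut₁
  (.box 1003006 288919) (.box 995102 288919))

theorem part19_27_ok : part19_27.check data19 1015808 1048576 655360 720896 = true := by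
  decide +kernel

/-- A part of the boxes. -/
def part19_28 : Tree :=
  .cut₁ (.cut₂ (.cut₁ (.box 1015794 467481) (.box 1003006 467481)) (.cut₁ (.box 1015794 467481)
  (.box 1003006 467481))) (.box 1003006 178562)

theorem part19_28_ok : part19_28.check data19 983040 1048576 720896 786432 = true := by
  decide +kernel

/-- A part of the boxes. -/
def part19_29 : Tree :=
  .out

theorem part19_29_ok : part19_29.check data19 786432 917504 786432 1048576 = true := by
  decide +kernel

/-- A part of the boxes. -/
def part19_30 : Tree :=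
  .cut₁ (.box 1057178 3204163) (.cut₂ (.box 1057178 3204163) (.cut₁ (.box 1057178 3204163)
  (.box 1036486 1223881)))

theorem part19_30_ok : part19_30.check data19 917504 950272 786432 819200 = true := by
  decide +kernel

/-- A part of the boxes. -/
def part19_31 : Tree :=
  .out

theorem part19_31_ok : part19_31.check data19 917504 933888 819200 851968 = true := by
  decide +kernel

/-- A part of the boxes. -/
def part19_32 : Tree :=
  .box 1044390 3204163

theorem part19_32_ok : part19_32.check data19 933888 942080 819200 835584 = true := by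
  decide +kernel

/-- A part of the boxes. -/
def part19_33 : Tree :=
  .cut₂ (.cut₁ (.cut₂ (.box 1036486 1223881) (.cut₁ (.box 1044390 1223881) (.box 1036486 756400)))
  (.box 1036486 934962)) (.cut₁ (.box 1041371 467481) (.cut₂ (.cut₁ (.box 1036486 467481)
  (.box 1036486 756400)) (.box 1039505 467481)))

theorem part19_33_ok : part19_33.check data19 942080 950272 819200 835584 = true := by
  decide +kernel

/-- A part of the boxes. -/
def part19_34 : Tree :=
  .cut₁ (.out) (.cut₂ (.cut₁ (.out) (.box 1036486 467481)) (.out))

theorem part19_34_ok : part19_34.check data19 933888 950272 835584 851968 = true := by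
  decide +kernel

/-- A part of the boxes. -/
def part19_35 : Tree :=
  .cut₁ (.cut₂ (.box 1036486 1223881) (.box 1030449 824605)) (.box 1023698 756400)

theorem part19_35_ok : part19_35.check data19 950272 983040 786432 819200 = true := by
  decide +kernel

/-- A part of the boxes. -/
def part19_36 : Tree :=
  .cut₁ (.cut₂ (.box 1031602 756400) (.cut₁ (.cut₂ (.box 1036486 756400) (.box 1036486 467481))
  (.box 1031602 467481))) (.box 1023698 646043)

theorem part19_36_ok : part19_36.check data19 950272 966656 819200 835584 = true := by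
  decide +kernel

/-- A part of the boxes. -/
def part19_37 : Tree :=
  .cut₁ (.cut₂ (.cut₁ (.cut₂ (.box 1036486 467481) (.box 1036486 467481)) (.box 1031602 399277))
  (.box 1034621 178562)) (.cut₂ (.box 1028583 467481) (.box 1023698 288919))

theorem part19_37_ok : part19_37.check data19 950272 966656 835584 851968 = true := by
  decide +kernel

/-- A part of the boxes. -/
def part19_38 : Tree :=
  .cut₂ (.box 1023698 467481) (.box 1023698 467481)

theorem part19_38_ok : part19_38.check data19 966656 983040 819200 851968 = true := by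
  decide +kernel

/-- A part of the boxes. -/
def part19_39 : Tree :=
  .cut₁ (.out) (.cut₂ (.cut₁ (.cut₂ (.cut₁ (.box 1036486 0) (.box 1023698 0)) (.box 1036486 0))
  (.box 1023698 0)) (.box 1023698 0))

theorem part19_39_ok : part19_39.check data19 917504 983040 851968 917504 = true := by
  decide +kernel

/-- A part of the boxes. -/
def part19_40 : Tree :=
  .cut₂ (.cut₁ (.box 1010910 314971) (.box 1003006 0)) (.box 1003006 0)

theorem part19_40_ok : part19_40.check data19 983040 1048576 786432 917504 = true := by
  decide +kernel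

/-- A part of the boxes. -/
def part19_41 : Tree :=
  .cut₁ (.out) (.box 1003006 0)

theorem part19_41_ok : part19_41.check data19 917504 1048576 917504 1048576 = true := by
  decide +kernel

/-- All the cuts in dimension 19. -/
def tree19 : Tree :=
  (Tree.cut₁ part19_0 (Tree.cut₂ (Tree.cut₁ part19_1 (Tree.cut₂ part19_2 (Tree.cut₁ part19_3
  (Tree.cut₂ part19_4 (Tree.cut₁ part19_5 (Tree.cut₂ part19_6 (Tree.cut₁ part19_7 (Tree.cut₂
  part19_8 part19_9)))))))) (Tree.cut₁ part19_10 (Tree.cut₂ (Tree.cut₁ part19_11 (Tree.cut₂
  (Tree.cut₁ part19_12 (Tree.cut₂ (Tree.cut₁ part19_13 (Tree.cut₂ (Tree.cut₁ part19_14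
  (Tree.cut₂ part19_15 part19_16)) (Tree.cut₁ part19_17 (Tree.cut₂ part19_18 part19_19))))
  (Tree.cut₁ part19_20 (Tree.cut₂ (Tree.cut₁ part19_21 part19_22) part19_23)))) (Tree.cut₁
  (Tree.cut₂ part19_24 part19_25) (Tree.cut₂ (Tree.cut₁ part19_26 part19_27) part19_28))))
  (Tree.cut₁ part19_29 (Tree.cut₂ (Tree.cut₁ (Tree.cut₂ (Tree.cut₁ (Tree.cut₂ part19_30
  (Tree.cut₁ part19_31 (Tree.cut₂ (Tree.cut₁ part19_32 part19_33) part19_34))) (Tree.cut₂
  part19_35 (Tree.cut₁ (Tree.cut₂ part19_36 part19_37) part19_38))) part19_39) part19_40)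
  part19_41))))))

theorem tree19_ok : tree19.check data19 0 unit 0 unit = true :=
    (check_cut₁ (c := 524288) (by norm_num [unit]) part19_0_ok (check_cut₂ (c := 524288) (by
    norm_num [unit]) (check_cut₁ (c := 786432) (by norm_num [unit]) part19_1_ok (check_cut₂ (c
    := 262144) (by norm_num [unit]) part19_2_ok (check_cut₁ (c := 917504) (by norm_num [unit])
    part19_3_ok (check_cut₂ (c := 393216) (by norm_num [unit]) part19_4_ok (check_cut₁ (c := 983040)
    (by norm_num [unit]) part19_5_ok (check_cut₂ (c := 458752) (by norm_num [unit]) part19_6_ok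
    (check_cut₁ (c := 1015808) (by norm_num [unit]) part19_7_ok (check_cut₂ (c := 491520) (by
    norm_num [unit]) part19_8_ok part19_9_ok)))))))) (check_cut₁ (c := 786432) (by norm_num
    [unit]) part19_10_ok (check_cut₂ (c := 786432) (by norm_num [unit]) (check_cut₁ (c := 917504)
    (by norm_num [unit]) part19_11_ok (check_cut₂ (c := 655360) (by norm_num [unit]) (check_cut₁
    (c := 983040) (by norm_num [unit]) part19_12_ok (check_cut₂ (c := 589824) (by norm_num
    [unit]) (check_cut₁ (c := 1015808) (by norm_num [unit]) part19_13_ok (check_cut₂ (c := 557056)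
    (by norm_num [unit]) (check_cut₁ (c := 1032192) (by norm_num [unit]) part19_14_ok
    (check_cut₂ (c := 540672) (by norm_num [unit]) part19_15_ok part19_16_ok)) (check_cut₁ (c := 1032192)
    (by norm_num [unit]) part19_17_ok (check_cut₂ (c := 573440) (by norm_num [unit])
    part19_18_ok part19_19_ok)))) (check_cut₁ (c := 1015808) (by norm_num [unit]) part19_20_ok
    (check_cut₂ (c := 622592) (by norm_num [unit]) (check_cut₁ (c := 1032192) (by norm_num
    [unit]) part19_21_ok part19_22_ok) part19_23_ok)))) (check_cut₁ (c := 983040) (by norm_num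
    [unit]) (check_cut₂ (c := 720896) (by norm_num [unit]) part19_24_ok part19_25_ok)
    (check_cut₂ (c := 720896) (by norm_num [unit]) (check_cut₁ (c := 1015808) (by norm_num
    [unit]) part19_26_ok part19_27_ok) part19_28_ok)))) (check_cut₁ (c := 917504) (by norm_num
    [unit]) part19_29_ok (check_cut₂ (c := 917504) (by norm_num [unit]) (check_cut₁ (c := 983040)
    (by norm_num [unit]) (check_cut₂ (c := 851968) (by norm_num [unit]) (check_cut₁ (c := 950272)
    (by norm_num [unit]) (check_cut₂ (c := 819200) (by norm_num [unit]) part19_30_ok (check_cut₁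
    (c := 933888) (by norm_num [unit]) part19_31_ok (check_cut₂ (c := 835584) (by norm_num
    [unit]) (check_cut₁ (c := 942080) (by norm_num [unit]) part19_32_ok part19_33_ok)
    part19_34_ok))) (check_cut₂ (c := 819200) (by norm_num [unit]) part19_35_ok (check_cut₁ (c
    := 966656) (by norm_num [unit]) (check_cut₂ (c := 835584) (by norm_num [unit]) part19_36_ok
    part19_37_ok) part19_38_ok))) part19_39_ok) part19_40_ok) part19_41_ok))))))

end Vale.Agent.P237.Quant.WindowCert
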