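import Vale.Agent.P237.Quant.WindowCheck

/-!
The window certificate of the moment excess in dimension 20. The cuts are checked in parts, so
that no kernel computation grows too large.
-/

namespace Vale.Agent.P237.Quant.WindowCert

/-- The shared data in dimension 20. -/
def data20 : Cert where
  m := 19
  s := 349541
  q := 748236
  c := 1085860
  κ := 466578
  I := 63548
  zone₀ := [
    ⟨0, 1048577⟩, ⟨13444, 1048663⟩, ⟨26888, 1048921⟩, ⟨40332, 1049353⟩, ⟨53776, 1049958⟩,
    ⟨67219, 1050738⟩, ⟨80663, 1051693⟩, ⟨94107, 1052825⟩, ⟨107551, 1054136⟩, ⟨120995, 1055628⟩,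
    ⟨134439, 1057303⟩, ⟨147883, 1059163⟩, ⟨161327, 1061212⟩, ⟨174770, 1063452⟩, ⟨188214, 1065888⟩,
    ⟨201658, 1068523⟩, ⟨215102, 1071361⟩, ⟨228546, 1074407⟩, ⟨241990, 1077667⟩, ⟨255434, 1081145⟩,
    ⟨268878, 1084848⟩, ⟨282322, 1088783⟩, ⟨295765, 1092955⟩, ⟨309209, 1097374⟩, ⟨322653, 1102046⟩,
    ⟨336097, 1106982⟩, ⟨349541, 1112190⟩]
  zone₁ := [
    ⟨349541, 1112190⟩, ⟨358602, 1115859⟩, ⟨367664, 1119660⟩, ⟨376725, 1123596⟩, ⟨385786, 1127672⟩,
    ⟨394847, 1131890⟩, ⟨403908, 1136256⟩, ⟨412970, 1140774⟩, ⟨422031, 1145448⟩, ⟨431092, 1150284⟩,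
    ⟨440154, 1155286⟩, ⟨449215, 1160460⟩, ⟨458276, 1165811⟩, ⟨467337, 1171347⟩, ⟨476398, 1177073⟩,
    ⟨485460, 1182996⟩, ⟨494521, 1189123⟩, ⟨503582, 1195463⟩, ⟨512644, 1202024⟩, ⟨521705, 1208813⟩,
    ⟨530766, 1215841⟩, ⟨539827, 1223117⟩, ⟨548888, 1230651⟩, ⟨557950, 1238457⟩, ⟨567011, 1246543⟩,
    ⟨576072, 1254925⟩, ⟨585134, 1263615⟩, ⟨594195, 1272628⟩, ⟨603256, 1281979⟩, ⟨612317, 1291686⟩,
    ⟨621378, 1301767⟩, ⟨630440, 1312242⟩, ⟨639501, 1323130⟩, ⟨648562, 1334455⟩, ⟨657624, 1346243⟩,
    ⟨666685, 1358517⟩, ⟨675746, 1371309⟩, ⟨684807, 1384650⟩, ⟨693868, 1398573⟩, ⟨702930, 1413118⟩,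
    ⟨711991, 1428323⟩, ⟨721052, 1444234⟩, ⟨730114, 1460902⟩, ⟨739175, 1478378⟩, ⟨748236, 1496725⟩]
  zone₂ := [
    ⟨748236, 1496725⟩, ⟨763636, 1530096⟩, ⟨778764, 1565884⟩, ⟨793614, 1604335⟩, ⟨808181, 1645734⟩,
    ⟨822459, 1690411⟩, ⟨836443, 1738753⟩, ⟨850126, 1791208⟩, ⟨863502, 1848308⟩, ⟨876563, 1910681⟩,
    ⟨889301, 1979079⟩, ⟨901709, 2054418⟩, ⟨913776, 2137797⟩, ⟨925494, 2230598⟩, ⟨936850, 2334511⟩,
    ⟨947835, 2451725⟩, ⟨958433, 2584992⟩, ⟨968632, 2737989⟩, ⟨978413, 2915548⟩, ⟨987760, 3124397⟩,
    ⟨996651, 3373967⟩, ⟨1005060, 3678016⟩, ⟨1012959, 4057662⟩, ⟨1020311, 4546812⟩,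
    ⟨1027074, 5204552⟩, ⟨1033191, 6143771⟩, ⟨1038583, 7613321⟩, ⟨1043136, 10307408⟩,
    ⟨1046653, 17321857⟩]

theorem data20_wf : data20.wf = true := by decide +kernel

theorem data20_const : constOk data20 = true := by decide +kernel

/-- A part of the boxes. -/
def part20_0 : Tree :=
  .out

theorem part20_0_ok : part20_0.check data20 0 524288 0 1048576 = true := by
  decide +kernel

/-- A part of the boxes. -/
def part20_1 : Tree :=
  .box 1124139 3204163

theorem part20_1_ok : part20_1.check data20 524288 786432 0 524288 = true := by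
  decide +kernel

/-- A part of the boxes. -/
def part20_2 : Tree :=
  .out

theorem part20_2_ok : part20_2.check data20 786432 1048576 0 262144 = true := by
  decide +kernel

/-- A part of the boxes. -/
def part20_3 : Tree :=
  .box 1057178 3204163

theorem part20_3_ok : part20_3.check data20 786432 917504 262144 524288 = true := by
  decide +kernel

/-- A part of the boxes. -/
def part20_4 : Tree :=
  .out

theorem part20_4_ok : part20_4.check data20 917504 1048576 262144 393216 = true := by
  decide +kernel

/-- A part of the boxes. -/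
def part20_5 : Tree :=
  .box 1036486 3204163

theorem part20_5_ok : part20_5.check data20 917504 983040 393216 524288 = true := by
  decide +kernel

/-- A part of the boxes. -/
def part20_6 : Tree :=
  .box 1057178 3204163

theorem part20_6_ok : part20_6.check data20 983040 1048576 393216 458752 = true := by
  decide +kernel

/-- A part of the boxes. -/
def part20_7 : Tree :=
  .cut₁ (.box 1010910 1980282) (.cut₂ (.box 1003006 3204163) (.cut₁ (.box 1003006 1223881)
  (.cut₂ (.box 1003006 1223881) (.cut₁ (.box 1003006 1223881) (.cut₂ (.box 995102 1223881)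
  (.cut₁ (.box 995102 1223881) (.box 995102 756400)))))))

theorem part20_7_ok : part20_7.check data20 983040 1048576 458752 524288 = true := by
  decide +kernel

/-- A part of the boxes. -/
def part20_8 : Tree :=
  .out

theorem part20_8_ok : part20_8.check data20 524288 786432 524288 1048576 = true := by
  decide +kernel

/-- A part of the boxes. -/
def part20_9 : Tree :=
  .box 1057178 3204163

theorem part20_9_ok : part20_9.check data20 786432 917504 524288 786432 = true := by
  decide +kernel

/-- A part of the boxes. -/
def part20_10 : Tree :=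
  .cut₂ (.cut₁ (.box 1057178 3204163) (.box 1023698 3204163)) (.cut₁ (.box 1057178 3204163)
  (.cut₂ (.box 1023698 1980282) (.box 1028583 1223881)))

theorem part20_10_ok : part20_10.check data20 917504 983040 524288 655360 = true := by
  decide +kernel

/-- A part of the boxes. -/
def part20_11 : Tree :=
  .cut₂ (.cut₁ (.box 1023698 3204163) (.box 1003006 1223881)) (.cut₁ (.box 1023698 1223881)
  (.box 1010910 756400))

theorem part20_11_ok : part20_11.check data20 983040 1015808 524288 589824 = true := by
  decide +kernel

/-- A part of the boxes. -/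
def part20_12 : Tree :=
  .box 1006025 756400

theorem part20_12_ok : part20_12.check data20 1015808 1032192 524288 557056 = true := by
  decide +kernel

/-- A part of the boxes. -/
def part20_13 : Tree :=
  .cut₁ (.box 1003006 756400) (.cut₂ (.cut₁ (.box 995102 756400) (.box 996256 577838)) (.cut₁
  (.box 995102 756400) (.box 995102 577838)))

theorem part20_13_ok : part20_13.check data20 1032192 1048576 524288 540672 = true := by
  decide +kernel

/-- A part of the boxes. -/
def part20_14 : Tree :=
  .cut₁ (.box 998121 646043) (.cut₂ (.cut₁ (.box 998121 646043) (.box 996256 551787)) (.cut₁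
  (.box 998121 577838) (.cut₂ (.cut₁ (.box 995102 577838) (.box 995102 577838)) (.box 996256 535686))))

theorem part20_14_ok : part20_14.check data20 1032192 1048576 540672 557056 = true := by
  decide +kernel

/-- A part of the boxes. -/
def part20_15 : Tree :=
  .cut₂ (.cut₁ (.box 1003006 756400) (.box 1003006 756400)) (.cut₁ (.box 1003006 756400) (.box 1001140 756400))

theorem part20_15_ok : part20_15.check data20 1015808 1032192 557056 589824 = true := by
  decide +kernel

/-- A part of the boxes. -/
def part20_16 : Tree :=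
  .box 1001140 577838

theorem part20_16_ok : part20_16.check data20 1032192 1040384 557056 573440 = true := by
  decide +kernel

/-- A part of the boxes. -/
def part20_17 : Tree :=
  .cut₁ (.box 998121 577838) (.cut₂ (.cut₁ (.box 995102 577838) (.box 993237 577838)) (.box 996968 509634))

theorem part20_17_ok : part20_17.check data20 1040384 1048576 557056 565248 = true := by
  decide +kernel

/-- A part of the boxes. -/
def part20_18 : Tree :=
  .cut₁ (.box 1001140 467481) (.cut₂ (.cut₁ (.box 998121 467481) (.box 998121 467481)) (.cut₁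
  (.box 998121 467481) (.box 998121 467481)))

theorem part20_18_ok : part20_18.check data20 1040384 1048576 565248 573440 = true := by
  decide +kernel

/-- A part of the boxes. -/
def part20_19 : Tree :=
  .cut₂ (.box 1001140 577838) (.box 999987 577838)

theorem part20_19_ok : part20_19.check data20 1032192 1040384 573440 589824 = true := by
  decide +kernel

/-- A part of the boxes. -/
def part20_20 : Tree :=
  .cut₁ (.box 1003006 467481) (.cut₂ (.cut₁ (.box 998121 467481) (.box 995102 467481)) (.cut₁
  (.box 998121 467481) (.box 998121 467481)))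

theorem part20_20_ok : part20_20.check data20 1040384 1048576 573440 581632 = true := by
  decide +kernel

/-- A part of the boxes. -/
def part20_21 : Tree :=
  .cut₁ (.box 998121 467481) (.cut₂ (.box 996968 467481) (.cut₁ (.box 998121 467481) (.box 995102 467481)))

theorem part20_21_ok : part20_21.check data20 1040384 1048576 581632 589824 = true := by
  decide +kernel

/-- A part of the boxes. -/
def part20_22 : Tree :=
  .cut₂ (.cut₁ (.box 1015794 1223881) (.cut₂ (.box 1010910 756400) (.box 1010910 756400)))
  (.cut₁ (.box 1018813 756400) (.cut₂ (.box 1012776 646043) (.cut₁ (.box 1010910 756400) (.box 1010910 756400))))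

theorem part20_22_ok : part20_22.check data20 983040 1015808 589824 655360 = true := by
  decide +kernel

/-- A part of the boxes. -/
def part20_23 : Tree :=
  .cut₂ (.cut₁ (.box 1003006 756400) (.box 1003006 577838)) (.cut₁ (.box 1006025 756400) (.box 1006025 467481))

theorem part20_23_ok : part20_23.check data20 1015808 1032192 589824 622592 = true := by
  decide +kernel

/-- A part of the boxes. -/
def part20_24 : Tree :=
  .cut₁ (.cut₂ (.box 1003006 467481) (.box 1001853 493533)) (.cut₂ (.cut₁ (.box 998121 467481)
  (.cut₂ (.box 998121 441429) (.box 998121 425328))) (.cut₁ (.box 998121 467481) (.box 998121 399277)))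

theorem part20_24_ok : part20_24.check data20 1032192 1048576 589824 606208 = true := by
  decide +kernel

/-- A part of the boxes. -/
def part20_25 : Tree :=
  .cut₁ (.cut₂ (.box 1003006 467481) (.box 1003006 467481)) (.cut₂ (.cut₁ (.box 998121 467481)
  (.box 998121 399277)) (.cut₁ (.box 998121 467481) (.box 998121 399277)))

theorem part20_25_ok : part20_25.check data20 1032192 1048576 606208 622592 = true := by
  decide +kernel

/-- A part of the boxes. -/
def part20_26 : Tree :=
  .cut₂ (.cut₁ (.box 1003006 577838) (.box 1003006 467481)) (.cut₁ (.box 1010910 467481) (.box 1003006 467481))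

theorem part20_26_ok : part20_26.check data20 1015808 1032192 622592 655360 = true := by
  decide +kernel

/-- A part of the boxes. -/
def part20_27 : Tree :=
  .cut₂ (.cut₁ (.box 1002229 425328) (.cut₂ (.cut₁ (.box 995102 467481) (.box 998121 357124))
  (.box 998121 357124))) (.cut₁ (.box 1003006 399277) (.box 999987 314971))

theorem part20_27_ok : part20_27.check data20 1032192 1048576 622592 655360 = true := by
  decide +kernel

/-- A part of the boxes. -/
def part20_28 : Tree :=
  .cut₁ (.box 1057178 3204163) (.cut₂ (.cut₁ (.box 1057178 3204163) (.box 1023698 1223881))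
  (.cut₁ (.box 1057178 3204163) (.box 1023698 1223881)))

theorem part20_28_ok : part20_28.check data20 917504 983040 655360 720896 = true := by
  decide +kernel

/-- A part of the boxes. -/
def part20_29 : Tree :=
  .cut₁ (.box 1057178 3204163) (.cut₂ (.cut₁ (.box 1057178 3204163) (.box 1028583 1223881))
  (.cut₁ (.box 1036486 1980282) (.box 1023698 756400)))

theorem part20_29_ok : part20_29.check data20 917504 983040 720896 786432 = true := by
  decide +kernel

/-- A part of the boxes. -/
def part20_30 : Tree :=
  .cut₂ (.cut₁ (.box 1015794 756400) (.cut₂ (.box 1012776 577838) (.box 1012776 577838)))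
  (.cut₁ (.box 1018813 756400) (.box 1012776 467481))

theorem part20_30_ok : part20_30.check data20 983040 1015808 655360 720896 = true := by
  decide +kernel

/-- A part of the boxes. -/
def part20_31 : Tree :=
  .cut₂ (.cut₁ (.cut₂ (.cut₁ (.box 1010910 467481) (.box 1003006 467481)) (.box 1006025 399277))
  (.cut₂ (.cut₁ (.box 1003006 357124) (.box 1003006 288919)) (.box 1001140 288919))) (.cut₁
  (.box 1006025 357124) (.box 1003006 246766))

theorem part20_31_ok : part20_31.check data20 1015808 1048576 655360 720896 = true := by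
  decide +kernel

/-- A part of the boxes. -/
def part20_32 : Tree :=
  .cut₁ (.cut₂ (.cut₁ (.box 1015794 646043) (.box 1010910 467481)) (.cut₁ (.box 1015794 467481)
  (.box 1010910 467481))) (.cut₂ (.cut₁ (.box 1003006 288919) (.box 998121 288919)) (.box 1003006 178562))

theorem part20_32_ok : part20_32.check data20 983040 1048576 720896 786432 = true := by
  decide +kernel

/-- A part of the boxes. -/
def part20_33 : Tree :=
  .out

theorem part20_33_ok : part20_33.check data20 786432 917504 786432 1048576 = true := by
  decide +kernel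

/-- A part of the boxes. -/
def part20_34 : Tree :=
  .cut₂ (.cut₁ (.box 1057178 3204163) (.box 1057178 3204163)) (.cut₁ (.out) (.cut₂ (.cut₁
  (.box 1057178 3204163) (.cut₂ (.box 1057178 3204163) (.cut₁ (.box 1057178 3204163) (.cut₂
  (.box 1036486 1980282) (.box 1044390 756400))))) (.cut₁ (.out) (.cut₂ (.cut₁ (.out) (.box 1043237 756400))
  (.out)))))

theorem part20_34_ok : part20_34.check data20 917504 950272 786432 851968 = true := by
  decide +kernel

/-- A part of the boxes. -/
def part20_35 : Tree :=
  .cut₁ (.box 1036486 1223881) (.box 1023698 756400)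

theorem part20_35_ok : part20_35.check data20 950272 983040 786432 819200 = true := by
  decide +kernel

/-- A part of the boxes. -/
def part20_36 : Tree :=
  .cut₁ (.cut₂ (.box 1036486 1223881) (.cut₁ (.box 1039505 756400) (.box 1039505 1223881)))
  (.box 1031602 756400)

theorem part20_36_ok : part20_36.check data20 950272 966656 819200 835584 = true := by
  decide +kernel

/-- A part of the boxes. -/
def part20_37 : Tree :=
  .cut₂ (.cut₁ (.cut₂ (.cut₁ (.box 1041371 756400) (.box 1036486 756400)) (.box 1039505 467481))
  (.cut₂ (.box 1036486 756400) (.box 1036486 467481))) (.cut₁ (.box 1036486 467481) (.cut₂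
  (.box 1036486 467481) (.box 1036486 467481)))

theorem part20_37_ok : part20_37.check data20 950272 958464 835584 851968 = true := by
  decide +kernel

/-- A part of the boxes. -/
def part20_38 : Tree :=
  .cut₂ (.cut₁ (.box 1032314 467481) (.box 1036486 756400)) (.cut₁ (.cut₂ (.box 1036486 467481)
  (.box 1036486 467481)) (.box 1036486 467481))

theorem part20_38_ok : part20_38.check data20 958464 966656 835584 851968 = true := by
  decide +kernel

/-- A part of the boxes. -/
def part20_39 : Tree :=
  .cut₂ (.box 1023698 467481) (.cut₁ (.box 1023698 467481) (.box 1023698 467481))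

theorem part20_39_ok : part20_39.check data20 966656 983040 819200 851968 = true := by
  decide +kernel

/-- A part of the boxes. -/
def part20_40 : Tree :=
  .out

theorem part20_40_ok : part20_40.check data20 917504 950272 851968 917504 = true := by
  decide +kernel

/-- A part of the boxes. -/
def part20_41 : Tree :=
  .cut₁ (.cut₂ (.cut₁ (.box 1036486 0) (.cut₂ (.cut₁ (.box 1036486 0) (.box 1031602 0)) (.box 1023698 0)))
  (.box 1036486 0)) (.cut₂ (.cut₁ (.box 1023698 288919) (.box 1023698 0)) (.box 1023698 0))

theorem part20_41_ok : part20_41.check data20 950272 983040 851968 884736 = true := by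
  decide +kernel

/-- A part of the boxes. -/
def part20_42 : Tree :=
  .box 1028583 0

theorem part20_42_ok : part20_42.check data20 950272 983040 884736 917504 = true := by
  decide +kernel

/-- A part of the boxes. -/
def part20_43 : Tree :=
  .cut₂ (.cut₁ (.cut₂ (.box 1015794 357124) (.box 1015794 288919)) (.box 1003006 0)) (.box 1010910 0)

theorem part20_43_ok : part20_43.check data20 983040 1048576 786432 917504 = true := by
  decide +kernel

/-- A part of the boxes. -/
def part20_44 : Tree :=
  .cut₁ (.out) (.box 1003006 0)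

theorem part20_44_ok : part20_44.check data20 917504 1048576 917504 1048576 = true := by
  decide +kernel

/-- All the cuts in dimension 20. -/
def tree20 : Tree :=
  (Tree.cut₁ part20_0 (Tree.cut₂ (Tree.cut₁ part20_1 (Tree.cut₂ part20_2 (Tree.cut₁ part20_3
  (Tree.cut₂ part20_4 (Tree.cut₁ part20_5 (Tree.cut₂ part20_6 part20_7)))))) (Tree.cut₁
  part20_8 (Tree.cut₂ (Tree.cut₁ part20_9 (Tree.cut₂ (Tree.cut₁ part20_10 (Tree.cut₂
  (Tree.cut₁ part20_11 (Tree.cut₂ (Tree.cut₁ part20_12 (Tree.cut₂ part20_13 part20_14))
  (Tree.cut₁ part20_15 (Tree.cut₂ (Tree.cut₁ part20_16 (Tree.cut₂ part20_17 part20_18))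
  (Tree.cut₁ part20_19 (Tree.cut₂ part20_20 part20_21)))))) (Tree.cut₁ part20_22 (Tree.cut₂
  (Tree.cut₁ part20_23 (Tree.cut₂ part20_24 part20_25)) (Tree.cut₁ part20_26 part20_27)))))
  (Tree.cut₁ (Tree.cut₂ part20_28 part20_29) (Tree.cut₂ (Tree.cut₁ part20_30 part20_31)
  part20_32)))) (Tree.cut₁ part20_33 (Tree.cut₂ (Tree.cut₁ (Tree.cut₂ (Tree.cut₁ part20_34
  (Tree.cut₂ part20_35 (Tree.cut₁ (Tree.cut₂ part20_36 (Tree.cut₁ part20_37 part20_38))
  part20_39))) (Tree.cut₁ part20_40 (Tree.cut₂ part20_41 part20_42))) part20_43)
  part20_44))))))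

theorem tree20_ok : tree20.check data20 0 unit 0 unit = true :=
    (check_cut₁ (c := 524288) (by norm_num [unit]) part20_0_ok (check_cut₂ (c := 524288) (by
    norm_num [unit]) (check_cut₁ (c := 786432) (by norm_num [unit]) part20_1_ok (check_cut₂ (c
    := 262144) (by norm_num [unit]) part20_2_ok (check_cut₁ (c := 917504) (by norm_num [unit])
    part20_3_ok (check_cut₂ (c := 393216) (by norm_num [unit]) part20_4_ok (check_cut₁ (c := 983040)
    (by norm_num [unit]) part20_5_ok (check_cut₂ (c := 458752) (by norm_num [unit]) part20_6_ok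
    part20_7_ok)))))) (check_cut₁ (c := 786432) (by norm_num [unit]) part20_8_ok (check_cut₂ (c
    := 786432) (by norm_num [unit]) (check_cut₁ (c := 917504) (by norm_num [unit]) part20_9_ok
    (check_cut₂ (c := 655360) (by norm_num [unit]) (check_cut₁ (c := 983040) (by norm_num
    [unit]) part20_10_ok (check_cut₂ (c := 589824) (by norm_num [unit]) (check_cut₁ (c := 1015808)
    (by norm_num [unit]) part20_11_ok (check_cut₂ (c := 557056) (by norm_num [unit]) (check_cut₁
    (c := 1032192) (by norm_num [unit]) part20_12_ok (check_cut₂ (c := 540672) (by norm_num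
    [unit]) part20_13_ok part20_14_ok)) (check_cut₁ (c := 1032192) (by norm_num [unit])
    part20_15_ok (check_cut₂ (c := 573440) (by norm_num [unit]) (check_cut₁ (c := 1040384) (by
    norm_num [unit]) part20_16_ok (check_cut₂ (c := 565248) (by norm_num [unit]) part20_17_ok
    part20_18_ok)) (check_cut₁ (c := 1040384) (by norm_num [unit]) part20_19_ok (check_cut₂ (c
    := 581632) (by norm_num [unit]) part20_20_ok part20_21_ok)))))) (check_cut₁ (c := 1015808)
    (by norm_num [unit]) part20_22_ok (check_cut₂ (c := 622592) (by norm_num [unit]) (check_cut₁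
    (c := 1032192) (by norm_num [unit]) part20_23_ok (check_cut₂ (c := 606208) (by norm_num
    [unit]) part20_24_ok part20_25_ok)) (check_cut₁ (c := 1032192) (by norm_num [unit])
    part20_26_ok part20_27_ok))))) (check_cut₁ (c := 983040) (by norm_num [unit]) (check_cut₂ (c
    := 720896) (by norm_num [unit]) part20_28_ok part20_29_ok) (check_cut₂ (c := 720896) (by
    norm_num [unit]) (check_cut₁ (c := 1015808) (by norm_num [unit]) part20_30_ok part20_31_ok)
    part20_32_ok)))) (check_cut₁ (c := 917504) (by norm_num [unit]) part20_33_ok (check_cut₂ (c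
    := 917504) (by norm_num [unit]) (check_cut₁ (c := 983040) (by norm_num [unit]) (check_cut₂
    (c := 851968) (by norm_num [unit]) (check_cut₁ (c := 950272) (by norm_num [unit])
    part20_34_ok (check_cut₂ (c := 819200) (by norm_num [unit]) part20_35_ok (check_cut₁ (c := 966656)
    (by norm_num [unit]) (check_cut₂ (c := 835584) (by norm_num [unit]) part20_36_ok (check_cut₁
    (c := 958464) (by norm_num [unit]) part20_37_ok part20_38_ok)) part20_39_ok))) (check_cut₁
    (c := 950272) (by norm_num [unit]) part20_40_ok (check_cut₂ (c := 884736) (by norm_num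
    [unit]) part20_41_ok part20_42_ok))) part20_43_ok) part20_44_ok))))))

end Vale.Agent.P237.Quant.WindowCert
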