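import Vale.Agent.P237.Quant.WindowCheck

/-!
The window certificate of the moment excess in dimension 21. The cuts are checked in parts, so
that no kernel computation grows too large.
-/

namespace Vale.Agent.P237.Quant.WindowCert

/-- The shared data in dimension 21. -/
def data21 : Cert where
  m := 20
  s := 341734
  q := 736971
  c := 1084058
  κ := 456155
  I := 64727
  zone₀ := [
    ⟨0, 1048577⟩, ⟨13144, 1048659⟩, ⟨26287, 1048906⟩, ⟨39431, 1049319⟩, ⟨52574, 1049897⟩,
    ⟨65718, 1050642⟩, ⟨78862, 1051555⟩, ⟨92005, 1052636⟩, ⟨105149, 1053889⟩, ⟨118293, 1055313⟩,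
    ⟨131436, 1056912⟩, ⟨144580, 1058688⟩, ⟨157723, 1060644⟩, ⟨170867, 1062782⟩, ⟨184011, 1065105⟩,
    ⟨197154, 1067617⟩, ⟨210298, 1070323⟩, ⟨223441, 1073226⟩, ⟨236585, 1076331⟩, ⟨249729, 1079642⟩,
    ⟨262872, 1083166⟩, ⟨276016, 1086908⟩, ⟨289160, 1090875⟩, ⟨302303, 1095073⟩, ⟨315447, 1099509⟩,
    ⟨328590, 1104193⟩, ⟨341734, 1109131⟩]
  zone₁ := [
    ⟨341734, 1109131⟩, ⟨350717, 1112658⟩, ⟨359699, 1116312⟩, ⟨368682, 1120095⟩, ⟨377665, 1124012⟩,
    ⟨386647, 1128066⟩, ⟨395630, 1132262⟩, ⟨404613, 1136602⟩, ⟨413595, 1141092⟩, ⟨422578, 1145736⟩,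
    ⟨431561, 1150539⟩, ⟨440543, 1155505⟩, ⟨449526, 1160641⟩, ⟨458509, 1165951⟩, ⟨467491, 1171443⟩,
    ⟨476474, 1177121⟩, ⟨485457, 1182994⟩, ⟨494439, 1189067⟩, ⟨503422, 1195349⟩, ⟨512405, 1201848⟩,
    ⟨521387, 1208571⟩, ⟨530370, 1215529⟩, ⟨539352, 1222729⟩, ⟨548335, 1230184⟩, ⟨557318, 1237903⟩,
    ⟨566300, 1245898⟩, ⟨575283, 1254183⟩, ⟨584266, 1262769⟩, ⟨593248, 1271670⟩, ⟨602231, 1280904⟩,
    ⟨611214, 1290485⟩, ⟨620196, 1300430⟩, ⟨629179, 1310760⟩, ⟨638162, 1321494⟩, ⟨647144, 1332653⟩,
    ⟨656127, 1344262⟩, ⟨665110, 1356347⟩, ⟨674092, 1368934⟩, ⟨683075, 1382056⟩, ⟨692058, 1395743⟩,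
    ⟨701040, 1410031⟩, ⟨710023, 1424962⟩, ⟨719006, 1440577⟩, ⟨727988, 1456921⟩, ⟨736971, 1474050⟩]
  zone₂ := [
    ⟨736971, 1474050⟩, ⟨752949, 1506634⟩, ⟨768644, 1541594⟩, ⟨784051, 1579172⟩, ⟨799164, 1619649⟩,
    ⟨813978, 1663349⟩, ⟨828487, 1710651⟩, ⟨842683, 1761991⟩, ⟨856560, 1817893⟩, ⟨870111, 1878976⟩,
    ⟨883327, 1945978⟩, ⟨896200, 2019793⟩, ⟨908720, 2101508⟩, ⟨920877, 2192469⟩, ⟨932660, 2294352⟩,
    ⟨944056, 2409277⟩, ⟨955052, 2539977⟩, ⟨965633, 2690034⟩, ⟨975782, 2864234⟩, ⟨985479, 3069122⟩,
    ⟨994703, 3313985⟩, ⟨1003428, 3612364⟩, ⟨1011623, 3984928⟩, ⟨1019251, 4465024⟩,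
    ⟨1026268, 5110658⟩, ⟨1032614, 6032542⟩, ⟨1038208, 7475042⟩, ⟨1042932, 10119908⟩,
    ⟨1046581, 17006702⟩]

theorem data21_wf : data21.wf = true := by decide +kernel

theorem data21_const : constOk data21 = true := by decide +kernel

/-- A part of the boxes. -/
def part21_0 : Tree :=
  .out

theorem part21_0_ok : part21_0.check data21 0 524288 0 1048576 = true := by
  decide +kernel

/-- A part of the boxes. -/
def part21_1 : Tree :=
  .box 1144831 5184445

theorem part21_1_ok : part21_1.check data21 524288 786432 0 524288 = true := by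
  decide +kernel

/-- A part of the boxes. -/
def part21_2 : Tree :=
  .out

theorem part21_2_ok : part21_2.check data21 786432 1048576 0 262144 = true := by
  decide +kernel

/-- A part of the boxes. -/
def part21_3 : Tree :=
  .box 1057178 3204163

theorem part21_3_ok : part21_3.check data21 786432 917504 262144 524288 = true := by
  decide +kernel

/-- A part of the boxes. -/
def part21_4 : Tree :=
  .cut₂ (.out) (.cut₁ (.box 1057178 3204163) (.cut₂ (.box 1057178 3204163) (.cut₁ (.box 1023698 3204163)
  (.cut₂ (.box 1003006 3204163) (.cut₁ (.box 1003006 3204163) (.cut₂ (.box 1003006 3204163)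
  (.cut₁ (.box 1003006 1980282) (.box 1003006 1223881))))))))

theorem part21_4_ok : part21_4.check data21 917504 1048576 262144 524288 = true := by
  decide +kernel

/-- A part of the boxes. -/
def part21_5 : Tree :=
  .out

theorem part21_5_ok : part21_5.check data21 524288 786432 524288 1048576 = true := by
  decide +kernel

/-- A part of the boxes. -/
def part21_6 : Tree :=
  .box 1057178 3204163

theorem part21_6_ok : part21_6.check data21 786432 917504 524288 786432 = true := by
  decide +kernel

/-- A part of the boxes. -/
def part21_7 : Tree :=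
  .cut₂ (.cut₁ (.box 1057178 3204163) (.box 1023698 3204163)) (.cut₁ (.box 1057178 3204163)
  (.box 1031602 1223881))

theorem part21_7_ok : part21_7.check data21 917504 983040 524288 655360 = true := by
  decide +kernel

/-- A part of the boxes. -/
def part21_8 : Tree :=
  .cut₂ (.cut₁ (.box 1003006 3204163) (.box 1003006 1223881)) (.cut₁ (.box 1023698 1980282)
  (.box 1015794 756400))

theorem part21_8_ok : part21_8.check data21 983040 1015808 524288 589824 = true := by
  decide +kernel

/-- A part of the boxes. -/
def part21_9 : Tree :=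
  .box 1010910 756400

theorem part21_9_ok : part21_9.check data21 1015808 1032192 524288 557056 = true := by
  decide +kernel

/-- A part of the boxes. -/
def part21_10 : Tree :=
  .cut₁ (.box 1003006 756400) (.cut₂ (.cut₁ (.box 1003006 1223881) (.box 998121 756400))
  (.cut₁ (.box 1003006 756400) (.cut₂ (.box 998121 756400) (.cut₁ (.box 998121 756400) (.box 998121 646043)))))

theorem part21_10_ok : part21_10.check data21 1032192 1048576 524288 540672 = true := by
  decide +kernel

/-- A part of the boxes. -/
def part21_11 : Tree :=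
  .box 1003006 756400

theorem part21_11_ok : part21_11.check data21 1032192 1040384 540672 557056 = true := by
  decide +kernel

/-- A part of the boxes. -/
def part21_12 : Tree :=
  .cut₁ (.box 998121 756400) (.cut₂ (.cut₁ (.box 998121 756400) (.box 998121 646043)) (.cut₁
  (.box 998121 756400) (.box 998121 577838)))

theorem part21_12_ok : part21_12.check data21 1040384 1048576 540672 548864 = true := by
  decide +kernel

/-- A part of the boxes. -/
def part21_13 : Tree :=
  .cut₁ (.box 998121 646043) (.cut₂ (.cut₁ (.box 998121 646043) (.box 998121 577838)) (.cut₁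
  (.box 998121 646043) (.box 998121 577838)))

theorem part21_13_ok : part21_13.check data21 1040384 1048576 548864 557056 = true := by
  decide +kernel

/-- A part of the boxes. -/
def part21_14 : Tree :=
  .cut₂ (.box 1007891 756400) (.cut₁ (.box 1010910 756400) (.box 1003006 756400))

theorem part21_14_ok : part21_14.check data21 1015808 1032192 557056 589824 = true := by
  decide +kernel

/-- A part of the boxes. -/
def part21_15 : Tree :=
  .box 1003006 646043

theorem part21_15_ok : part21_15.check data21 1032192 1040384 557056 573440 = true := by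
  decide +kernel

/-- A part of the boxes. -/
def part21_16 : Tree :=
  .cut₁ (.box 998121 646043) (.cut₂ (.cut₁ (.box 998121 577838) (.box 998121 577838)) (.cut₁
  (.box 998121 577838) (.box 997953 561738)))

theorem part21_16_ok : part21_16.check data21 1040384 1048576 557056 565248 = true := by
  decide +kernel

/-- A part of the boxes. -/
def part21_17 : Tree :=
  .cut₁ (.box 1003006 577838) (.cut₂ (.cut₁ (.box 998121 577838) (.box 996968 577838)) (.cut₁
  (.box 998121 577838) (.cut₂ (.box 998121 535686) (.box 998121 535686))))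

theorem part21_17_ok : part21_17.check data21 1040384 1048576 565248 573440 = true := by
  decide +kernel

/-- A part of the boxes. -/
def part21_18 : Tree :=
  .cut₂ (.box 1003006 577838) (.box 1003006 577838)

theorem part21_18_ok : part21_18.check data21 1032192 1040384 573440 589824 = true := by
  decide +kernel

/-- A part of the boxes. -/
def part21_19 : Tree :=
  .cut₁ (.box 998121 577838) (.cut₂ (.cut₁ (.box 998121 577838) (.box 998121 509634)) (.cut₁
  (.box 998121 577838) (.cut₂ (.box 998121 509634) (.box 998834 509634))))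

theorem part21_19_ok : part21_19.check data21 1040384 1048576 573440 581632 = true := by
  decide +kernel

/-- A part of the boxes. -/
def part21_20 : Tree :=
  .cut₁ (.box 999987 577838) (.cut₂ (.cut₁ (.box 1003006 467481) (.box 998121 509634)) (.cut₁
  (.box 1003006 467481) (.box 999210 489732)))

theorem part21_20_ok : part21_20.check data21 1040384 1048576 581632 589824 = true := by
  decide +kernel

/-- A part of the boxes. -/
def part21_21 : Tree :=
  .cut₂ (.cut₁ (.box 1023698 1223881) (.cut₂ (.box 1015794 756400) (.box 1015794 756400)))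
  (.cut₁ (.box 1023698 756400) (.cut₂ (.cut₁ (.box 1023698 756400) (.box 1010910 756400))
  (.cut₁ (.box 1023698 756400) (.box 1010910 756400))))

theorem part21_21_ok : part21_21.check data21 983040 1015808 589824 655360 = true := by
  decide +kernel

/-- A part of the boxes. -/
def part21_22 : Tree :=
  .cut₂ (.cut₁ (.box 1010910 756400) (.box 1003006 646043)) (.cut₁ (.box 1010910 756400) (.box 1007891 577838))

theorem part21_22_ok : part21_22.check data21 1015808 1032192 589824 622592 = true := by
  decide +kernel

/-- A part of the boxes. -/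
def part21_23 : Tree :=
  .cut₂ (.cut₁ (.box 1003006 646043) (.box 1006025 467481)) (.cut₁ (.box 1007891 467481) (.box 1006025 467481))

theorem part21_23_ok : part21_23.check data21 1032192 1040384 589824 606208 = true := by
  decide +kernel

/-- A part of the boxes. -/
def part21_24 : Tree :=
  .cut₁ (.box 1003006 509634) (.cut₂ (.cut₁ (.box 1003006 467481) (.cut₂ (.box 999210 487383)
  (.cut₁ (.box 998121 467481) (.box 999987 467481)))) (.cut₁ (.box 1003006 467481) (.box 999987 467481)))

theorem part21_24_ok : part21_24.check data21 1040384 1048576 589824 598016 = true := by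
  decide +kernel

/-- A part of the boxes. -/
def part21_25 : Tree :=
  .cut₁ (.box 1003006 467481) (.cut₂ (.cut₁ (.box 1001140 467481) (.cut₂ (.box 998121 467481)
  (.box 999275 467481))) (.cut₁ (.box 998121 467481) (.box 998121 467481)))

theorem part21_25_ok : part21_25.check data21 1040384 1048576 598016 606208 = true := by
  decide +kernel

/-- A part of the boxes. -/
def part21_26 : Tree :=
  .cut₂ (.cut₁ (.box 1007891 467481) (.box 1003006 467481)) (.cut₁ (.box 1006025 467481) (.box 1003006 467481))

theorem part21_26_ok : part21_26.check data21 1032192 1040384 606208 622592 = true := by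
  decide +kernel

/-- A part of the boxes. -/
def part21_27 : Tree :=
  .cut₁ (.box 1003006 467481) (.cut₂ (.cut₁ (.box 998121 467481) (.box 999987 441429)) (.cut₁
  (.box 998121 467481) (.cut₂ (.box 999987 425328) (.box 999987 425328))))

theorem part21_27_ok : part21_27.check data21 1040384 1048576 606208 614400 = true := by
  decide +kernel

/-- A part of the boxes. -/
def part21_28 : Tree :=
  .cut₁ (.box 1003006 467481) (.cut₂ (.cut₁ (.box 998121 467481) (.box 999987 399277)) (.cut₁
  (.box 998121 467481) (.box 999987 399277)))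

theorem part21_28_ok : part21_28.check data21 1040384 1048576 614400 622592 = true := by
  decide +kernel

/-- A part of the boxes. -/
def part21_29 : Tree :=
  .cut₂ (.cut₁ (.box 1010910 646043) (.box 1006025 577838)) (.cut₁ (.box 1010910 577838) (.box 1010910 467481))

theorem part21_29_ok : part21_29.check data21 1015808 1032192 622592 655360 = true := by
  decide +kernel

/-- A part of the boxes. -/
def part21_30 : Tree :=
  .cut₂ (.cut₁ (.box 1003006 467481) (.box 1003006 467481)) (.cut₁ (.box 1003006 467481) (.box 1003006 467481))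

theorem part21_30_ok : part21_30.check data21 1032192 1040384 622592 638976 = true := by
  decide +kernel

/-- A part of the boxes. -/
def part21_31 : Tree :=
  .cut₂ (.cut₁ (.box 1001140 467481) (.cut₂ (.box 999987 399277) (.box 999987 399277))) (.cut₁
  (.box 999987 467481) (.box 1001140 357124))

theorem part21_31_ok : part21_31.check data21 1040384 1048576 622592 638976 = true := by
  decide +kernel

/-- A part of the boxes. -/
def part21_32 : Tree :=
  .cut₁ (.cut₂ (.box 1006025 425328) (.box 1003006 399277)) (.cut₂ (.cut₁ (.box 1003006 399277)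
  (.box 1001140 357124)) (.cut₁ (.box 1003006 357124) (.box 1002293 288919)))

theorem part21_32_ok : part21_32.check data21 1032192 1048576 638976 655360 = true := by
  decide +kernel

/-- A part of the boxes. -/
def part21_33 : Tree :=
  .cut₁ (.box 1057178 3204163) (.cut₂ (.cut₁ (.box 1057178 3204163) (.box 1023698 1980282))
  (.cut₁ (.box 1057178 3204163) (.box 1023698 1223881)))

theorem part21_33_ok : part21_33.check data21 917504 983040 655360 720896 = true := by
  decide +kernel

/-- A part of the boxes. -/
def part21_34 : Tree :=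
  .cut₁ (.box 1057178 3204163) (.cut₂ (.cut₁ (.box 1057178 3204163) (.box 1023698 1223881))
  (.cut₁ (.box 1057178 3204163) (.box 1031602 1223881)))

theorem part21_34_ok : part21_34.check data21 917504 983040 720896 786432 = true := by
  decide +kernel

/-- A part of the boxes. -/
def part21_35 : Tree :=
  .cut₂ (.cut₁ (.box 1023698 756400) (.cut₂ (.cut₁ (.box 1023698 756400) (.box 1010910 756400))
  (.cut₁ (.box 1015794 756400) (.box 1013929 467481)))) (.cut₁ (.box 1023698 756400) (.cut₂
  (.box 1015354 577838) (.box 1015794 467481)))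

theorem part21_35_ok : part21_35.check data21 983040 1015808 655360 720896 = true := by
  decide +kernel

/-- A part of the boxes. -/
def part21_36 : Tree :=
  .cut₁ (.cut₂ (.cut₁ (.box 1010910 467481) (.box 1010910 467481)) (.cut₁ (.box 1010910 467481)
  (.box 1003006 467481))) (.cut₂ (.cut₁ (.box 1003006 399277) (.box 1001853 314971)) (.cut₁
  (.box 1006025 288919) (.box 1003006 288919)))

theorem part21_36_ok : part21_36.check data21 1015808 1048576 655360 688128 = true := by
  decide +kernel

/-- A part of the boxes. -/
def part21_37 : Tree :=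
  .cut₁ (.cut₂ (.cut₁ (.box 1010910 467481) (.box 1003006 467481)) (.box 1010910 357124))
  (.cut₂ (.cut₁ (.box 1003006 288919) (.box 1003006 288919)) (.box 1003006 288919))

theorem part21_37_ok : part21_37.check data21 1015808 1048576 688128 720896 = true := by
  decide +kernel

/-- A part of the boxes. -/
def part21_38 : Tree :=
  .cut₁ (.cut₂ (.cut₁ (.box 1023698 756400) (.box 1015794 467481)) (.cut₁ (.box 1021832 756400)
  (.box 1015794 467481))) (.cut₂ (.cut₁ (.box 1010910 288919) (.box 1003006 178562)) (.box 1007891 178562))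

theorem part21_38_ok : part21_38.check data21 983040 1048576 720896 786432 = true := by
  decide +kernel

/-- A part of the boxes. -/
def part21_39 : Tree :=
  .out

theorem part21_39_ok : part21_39.check data21 786432 917504 786432 1048576 = true := by
  decide +kernel

/-- A part of the boxes. -/
def part21_40 : Tree :=
  .cut₂ (.box 1057178 3204163) (.cut₁ (.out) (.box 1057178 3204163))

theorem part21_40_ok : part21_40.check data21 917504 950272 786432 851968 = true := by
  decide +kernel

/-- A part of the boxes. -/
def part21_41 : Tree :=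
  .cut₁ (.box 1036486 1980282) (.box 1023698 756400)

theorem part21_41_ok : part21_41.check data21 950272 983040 786432 819200 = true := by
  decide +kernel

/-- A part of the boxes. -/
def part21_42 : Tree :=
  .cut₁ (.box 1036486 1980282) (.box 1036486 1223881)

theorem part21_42_ok : part21_42.check data21 950272 966656 819200 835584 = true := by
  decide +kernel

/-- A part of the boxes. -/
def part21_43 : Tree :=
  .cut₂ (.cut₁ (.box 1044390 1223881) (.box 1041371 1223881)) (.cut₁ (.box 1044390 756400)
  (.cut₂ (.cut₁ (.box 1044390 756400) (.box 1036486 756400)) (.box 1041371 467481)))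

theorem part21_43_ok : part21_43.check data21 950272 958464 835584 851968 = true := by
  decide +kernel

/-- A part of the boxes. -/
def part21_44 : Tree :=
  .cut₂ (.box 1036486 756400) (.cut₁ (.cut₂ (.box 1036486 756400) (.box 1036486 467481)) (.box 1036486 577838))

theorem part21_44_ok : part21_44.check data21 958464 966656 835584 851968 = true := by
  decide +kernel

/-- A part of the boxes. -/
def part21_45 : Tree :=
  .cut₂ (.box 1028583 756400) (.cut₁ (.box 1028583 646043) (.box 1023698 756400))

theorem part21_45_ok : part21_45.check data21 966656 983040 819200 851968 = true := by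
  decide +kernel

/-- A part of the boxes. -/
def part21_46 : Tree :=
  .out

theorem part21_46_ok : part21_46.check data21 917504 950272 851968 917504 = true := by
  decide +kernel

/-- A part of the boxes. -/
def part21_47 : Tree :=
  .cut₂ (.cut₁ (.cut₂ (.cut₁ (.out) (.box 1036486 467481)) (.out)) (.cut₂ (.cut₁ (.cut₂ (.box 1036486 467481)
  (.box 1036486 467481)) (.cut₂ (.box 1036486 467481) (.box 1036486 467481))) (.cut₁ (.box 1036486 0)
  (.box 1036486 0)))) (.box 1041371 110357)

theorem part21_47_ok : part21_47.check data21 950272 966656 851968 884736 = true := by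
  decide +kernel

/-- A part of the boxes. -/
def part21_48 : Tree :=
  .cut₂ (.cut₁ (.cut₂ (.box 1028583 467481) (.box 1028583 288919)) (.box 1023698 467481))
  (.cut₁ (.box 1023698 0) (.box 1023698 0))

theorem part21_48_ok : part21_48.check data21 966656 983040 851968 884736 = true := by
  decide +kernel

/-- A part of the boxes. -/
def part21_49 : Tree :=
  .cut₁ (.out) (.box 1023698 0)

theorem part21_49_ok : part21_49.check data21 950272 983040 884736 917504 = true := by
  decide +kernel

/-- A part of the boxes. -/
def part21_50 : Tree :=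
  .cut₂ (.cut₁ (.cut₂ (.cut₁ (.box 1023698 467481) (.box 1010910 467481)) (.box 1016948 288919))
  (.box 1010910 0)) (.cut₁ (.box 1015794 42153) (.box 1003006 0))

theorem part21_50_ok : part21_50.check data21 983040 1048576 786432 917504 = true := by
  decide +kernel

/-- A part of the boxes. -/
def part21_51 : Tree :=
  .cut₁ (.out) (.box 1010910 0)

theorem part21_51_ok : part21_51.check data21 917504 1048576 917504 1048576 = true := by
  decide +kernel

/-- All the cuts in dimension 21. -/
def tree21 : Tree :=
  (Tree.cut₁ part21_0 (Tree.cut₂ (Tree.cut₁ part21_1 (Tree.cut₂ part21_2 (Tree.cut₁ part21_3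
  part21_4))) (Tree.cut₁ part21_5 (Tree.cut₂ (Tree.cut₁ part21_6 (Tree.cut₂ (Tree.cut₁
  part21_7 (Tree.cut₂ (Tree.cut₁ part21_8 (Tree.cut₂ (Tree.cut₁ part21_9 (Tree.cut₂ part21_10
  (Tree.cut₁ part21_11 (Tree.cut₂ part21_12 part21_13)))) (Tree.cut₁ part21_14 (Tree.cut₂
  (Tree.cut₁ part21_15 (Tree.cut₂ part21_16 part21_17)) (Tree.cut₁ part21_18 (Tree.cut₂
  part21_19 part21_20)))))) (Tree.cut₁ part21_21 (Tree.cut₂ (Tree.cut₁ part21_22 (Tree.cut₂
  (Tree.cut₁ part21_23 (Tree.cut₂ part21_24 part21_25)) (Tree.cut₁ part21_26 (Tree.cut₂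
  part21_27 part21_28)))) (Tree.cut₁ part21_29 (Tree.cut₂ (Tree.cut₁ part21_30 part21_31)
  part21_32)))))) (Tree.cut₁ (Tree.cut₂ part21_33 part21_34) (Tree.cut₂ (Tree.cut₁ part21_35
  (Tree.cut₂ part21_36 part21_37)) part21_38)))) (Tree.cut₁ part21_39 (Tree.cut₂ (Tree.cut₁
  (Tree.cut₂ (Tree.cut₁ part21_40 (Tree.cut₂ part21_41 (Tree.cut₁ (Tree.cut₂ part21_42
  (Tree.cut₁ part21_43 part21_44)) part21_45))) (Tree.cut₁ part21_46 (Tree.cut₂ (Tree.cut₁
  part21_47 part21_48) part21_49))) part21_50) part21_51))))))

theorem tree21_ok : tree21.check data21 0 unit 0 unit = true :=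
    (check_cut₁ (c := 524288) (by norm_num [unit]) part21_0_ok (check_cut₂ (c := 524288) (by
    norm_num [unit]) (check_cut₁ (c := 786432) (by norm_num [unit]) part21_1_ok (check_cut₂ (c
    := 262144) (by norm_num [unit]) part21_2_ok (check_cut₁ (c := 917504) (by norm_num [unit])
    part21_3_ok part21_4_ok))) (check_cut₁ (c := 786432) (by norm_num [unit]) part21_5_ok
    (check_cut₂ (c := 786432) (by norm_num [unit]) (check_cut₁ (c := 917504) (by norm_num
    [unit]) part21_6_ok (check_cut₂ (c := 655360) (by norm_num [unit]) (check_cut₁ (c := 983040)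
    (by norm_num [unit]) part21_7_ok (check_cut₂ (c := 589824) (by norm_num [unit]) (check_cut₁
    (c := 1015808) (by norm_num [unit]) part21_8_ok (check_cut₂ (c := 557056) (by norm_num
    [unit]) (check_cut₁ (c := 1032192) (by norm_num [unit]) part21_9_ok (check_cut₂ (c := 540672)
    (by norm_num [unit]) part21_10_ok (check_cut₁ (c := 1040384) (by norm_num [unit])
    part21_11_ok (check_cut₂ (c := 548864) (by norm_num [unit]) part21_12_ok part21_13_ok))))
    (check_cut₁ (c := 1032192) (by norm_num [unit]) part21_14_ok (check_cut₂ (c := 573440) (by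
    norm_num [unit]) (check_cut₁ (c := 1040384) (by norm_num [unit]) part21_15_ok (check_cut₂ (c
    := 565248) (by norm_num [unit]) part21_16_ok part21_17_ok)) (check_cut₁ (c := 1040384) (by
    norm_num [unit]) part21_18_ok (check_cut₂ (c := 581632) (by norm_num [unit]) part21_19_ok
    part21_20_ok)))))) (check_cut₁ (c := 1015808) (by norm_num [unit]) part21_21_ok (check_cut₂
    (c := 622592) (by norm_num [unit]) (check_cut₁ (c := 1032192) (by norm_num [unit])
    part21_22_ok (check_cut₂ (c := 606208) (by norm_num [unit]) (check_cut₁ (c := 1040384) (by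
    norm_num [unit]) part21_23_ok (check_cut₂ (c := 598016) (by norm_num [unit]) part21_24_ok
    part21_25_ok)) (check_cut₁ (c := 1040384) (by norm_num [unit]) part21_26_ok (check_cut₂ (c
    := 614400) (by norm_num [unit]) part21_27_ok part21_28_ok)))) (check_cut₁ (c := 1032192) (by
    norm_num [unit]) part21_29_ok (check_cut₂ (c := 638976) (by norm_num [unit]) (check_cut₁ (c
    := 1040384) (by norm_num [unit]) part21_30_ok part21_31_ok) part21_32_ok)))))) (check_cut₁
    (c := 983040) (by norm_num [unit]) (check_cut₂ (c := 720896) (by norm_num [unit])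
    part21_33_ok part21_34_ok) (check_cut₂ (c := 720896) (by norm_num [unit]) (check_cut₁ (c := 1015808)
    (by norm_num [unit]) part21_35_ok (check_cut₂ (c := 688128) (by norm_num [unit])
    part21_36_ok part21_37_ok)) part21_38_ok)))) (check_cut₁ (c := 917504) (by norm_num [unit])
    part21_39_ok (check_cut₂ (c := 917504) (by norm_num [unit]) (check_cut₁ (c := 983040) (by
    norm_num [unit]) (check_cut₂ (c := 851968) (by norm_num [unit]) (check_cut₁ (c := 950272)
    (by norm_num [unit]) part21_40_ok (check_cut₂ (c := 819200) (by norm_num [unit])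
    part21_41_ok (check_cut₁ (c := 966656) (by norm_num [unit]) (check_cut₂ (c := 835584) (by
    norm_num [unit]) part21_42_ok (check_cut₁ (c := 958464) (by norm_num [unit]) part21_43_ok
    part21_44_ok)) part21_45_ok))) (check_cut₁ (c := 950272) (by norm_num [unit]) part21_46_ok
    (check_cut₂ (c := 884736) (by norm_num [unit]) (check_cut₁ (c := 966656) (by norm_num
    [unit]) part21_47_ok part21_48_ok) part21_49_ok))) part21_50_ok) part21_51_ok))))))

end Vale.Agent.P237.Quant.WindowCert
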