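import Vale.Agent.P237.Quant.WindowCheck

/-!
The window certificate of the moment excess in dimension 22. The cuts are checked in parts, so
that no kernel computation grows too large.
-/

namespace Vale.Agent.P237.Quant.WindowCert

/-- The shared data in dimension 22. -/
def data22 : Cert where
  m := 21
  s := 334428
  q := 726171
  c := 1082423
  κ := 446399
  I := 50754
  zone₀ := [
    ⟨0, 1048577⟩, ⟨11148, 1048636⟩, ⟨22295, 1048814⟩, ⟨33443, 1049110⟩, ⟨44590, 1049526⟩,
    ⟨55738, 1050061⟩, ⟨66886, 1050716⟩, ⟨78033, 1051492⟩, ⟨89181, 1052390⟩, ⟨100328, 1053409⟩,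
    ⟨111476, 1054553⟩, ⟨122624, 1055821⟩, ⟨133771, 1057215⟩, ⟨144919, 1058737⟩, ⟨156066, 1060387⟩,
    ⟨167214, 1062169⟩, ⟨178362, 1064083⟩, ⟨189509, 1066133⟩, ⟨200657, 1068319⟩, ⟨211804, 1070646⟩,
    ⟨222952, 1073114⟩, ⟨234100, 1075728⟩, ⟨245247, 1078489⟩, ⟨256395, 1081403⟩, ⟨267542, 1084470⟩,
    ⟨278690, 1087697⟩, ⟨289838, 1091086⟩, ⟨300985, 1094641⟩, ⟨312133, 1098368⟩, ⟨323280, 1102270⟩,
    ⟨334428, 1106354⟩]
  zone₁ := [
    ⟨334428, 1106354⟩, ⟨342263, 1109336⟩, ⟨350098, 1112411⟩, ⟨357933, 1115583⟩, ⟨365767, 1118853⟩,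
    ⟨373602, 1122224⟩, ⟨381437, 1125698⟩, ⟨389272, 1129277⟩, ⟨397107, 1132965⟩, ⟨404942, 1136764⟩,
    ⟨412777, 1140677⟩, ⟨420611, 1144705⟩, ⟨428446, 1148855⟩, ⟨436281, 1153128⟩, ⟨444116, 1157527⟩,
    ⟨451951, 1162057⟩, ⟨459786, 1166721⟩, ⟨467621, 1171523⟩, ⟨475455, 1176468⟩, ⟨483290, 1181559⟩,
    ⟨491125, 1186803⟩, ⟨498960, 1192202⟩, ⟨506795, 1197764⟩, ⟨514630, 1203492⟩, ⟨522465, 1209393⟩,
    ⟨530300, 1215473⟩, ⟨538134, 1221738⟩, ⟨545969, 1228195⟩, ⟨553804, 1234851⟩, ⟨561639, 1241714⟩,
    ⟨569474, 1248792⟩, ⟨577309, 1256092⟩, ⟨585144, 1263625⟩, ⟨592978, 1271398⟩, ⟨600813, 1279424⟩,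
    ⟨608648, 1287712⟩, ⟨616483, 1296273⟩, ⟨624318, 1305121⟩, ⟨632153, 1314268⟩, ⟨639988, 1323727⟩,
    ⟨647822, 1333513⟩, ⟨655657, 1343643⟩, ⟨663492, 1354134⟩, ⟨671327, 1365004⟩, ⟨679162, 1376272⟩,
    ⟨686997, 1387960⟩, ⟨694832, 1400090⟩, ⟨702666, 1412685⟩, ⟨710501, 1425775⟩, ⟨718336, 1439387⟩,
    ⟨726171, 1453553⟩]
  zone₂ := [
    ⟨726171, 1453553⟩, ⟨737894, 1475856⟩, ⟨749472, 1499299⟩, ⟨760901, 1523956⟩, ⟨772182, 1549921⟩,
    ⟨783311, 1577287⟩, ⟨794287, 1606163⟩, ⟨805107, 1636667⟩, ⟨815769, 1668933⟩, ⟨826270, 1703106⟩,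
    ⟨836609, 1739357⟩, ⟨846782, 1777871⟩, ⟨856787, 1818860⟩, ⟨866621, 1862564⟩, ⟨876281, 1909257⟩,
    ⟨885764, 1959252⟩, ⟨895066, 2012906⟩, ⟨904184, 2070637⟩, ⟨913114, 2132927⟩, ⟨921852, 2200342⟩,
    ⟨930393, 2273542⟩, ⟨938733, 2353320⟩, ⟨946868, 2440634⟩, ⟨954791, 2536606⟩, ⟨962497, 2642636⟩,
    ⟨969979, 2760429⟩, ⟨977231, 2892139⟩, ⟨984245, 3040466⟩, ⟨991013, 3208905⟩, ⟨997526, 3402032⟩,
    ⟨1003772, 3625901⟩, ⟨1009741, 3888948⟩, ⟨1015418, 4202924⟩, ⟨1020788, 4585142⟩,
    ⟨1025832, 5061968⟩, ⟨1030527, 5675907⟩, ⟨1034846, 6500937⟩, ⟨1038751, 7677827⟩,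
    ⟨1042195, 9519239⟩, ⟨1045102, 12892288⟩, ⟨1047348, 21672693⟩]

theorem data22_wf : data22.wf = true := by decide +kernel

theorem data22_const : constOk data22 = true := by decide +kernel

/-- A part of the boxes. -/
def part22_0 : Tree :=
  .out

theorem part22_0_ok : part22_0.check data22 0 524288 0 1048576 = true := by
  decide +kernel

/-- A part of the boxes. -/
def part22_1 : Tree :=
  .cut₁ (.box 1144831 5184445) (.cut₂ (.out) (.cut₁ (.box 1057178 3204163) (.cut₂ (.out)
  (.cut₁ (.box 1057178 3204163) (.cut₂ (.box 1057178 3204163) (.cut₁ (.box 1003006 3204163)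
  (.cut₂ (.box 1003006 3204163) (.cut₁ (.box 1003006 3204163) (.box 1003006 3204163)))))))))

theorem part22_1_ok : part22_1.check data22 524288 1048576 0 524288 = true := by
  decide +kernel

/-- A part of the boxes. -/
def part22_2 : Tree :=
  .out

theorem part22_2_ok : part22_2.check data22 524288 786432 524288 1048576 = true := by
  decide +kernel

/-- A part of the boxes. -/
def part22_3 : Tree :=
  .box 1057178 3204163

theorem part22_3_ok : part22_3.check data22 786432 917504 524288 786432 = true := by
  decide +kernel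

/-- A part of the boxes. -/
def part22_4 : Tree :=
  .cut₂ (.cut₁ (.box 1057178 3204163) (.box 1057178 3204163)) (.cut₁ (.box 1057178 3204163)
  (.box 1036486 1980282))

theorem part22_4_ok : part22_4.check data22 917504 983040 524288 655360 = true := by
  decide +kernel

/-- A part of the boxes. -/
def part22_5 : Tree :=
  .cut₂ (.box 1023698 1223881) (.cut₁ (.box 1023698 3204163) (.box 1015794 1223881))

theorem part22_5_ok : part22_5.check data22 983040 1015808 524288 589824 = true := by
  decide +kernel

/-- A part of the boxes. -/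
def part22_6 : Tree :=
  .box 1010910 756400

theorem part22_6_ok : part22_6.check data22 1015808 1032192 524288 557056 = true := by
  decide +kernel

/-- A part of the boxes. -/
def part22_7 : Tree :=
  .cut₁ (.box 1003006 1223881) (.cut₂ (.box 1003006 1980282) (.cut₁ (.box 1003006 1223881)
  (.box 1003006 1223881)))

theorem part22_7_ok : part22_7.check data22 1032192 1048576 524288 540672 = true := by
  decide +kernel

/-- A part of the boxes. -/
def part22_8 : Tree :=
  .box 1003006 756400

theorem part22_8_ok : part22_8.check data22 1032192 1040384 540672 557056 = true := by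
  decide +kernel

/-- A part of the boxes. -/
def part22_9 : Tree :=
  .cut₁ (.box 1003006 756400) (.cut₂ (.box 1003006 756400) (.cut₁ (.box 1003006 756400) (.box 998121 756400)))

theorem part22_9_ok : part22_9.check data22 1040384 1048576 540672 548864 = true := by
  decide +kernel

/-- A part of the boxes. -/
def part22_10 : Tree :=
  .cut₁ (.box 1003006 756400) (.cut₂ (.cut₁ (.box 1003006 756400) (.box 998834 756400)) (.cut₁
  (.box 1003006 756400) (.box 998121 646043)))

theorem part22_10_ok : part22_10.check data22 1040384 1048576 548864 557056 = true := by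
  decide +kernel

/-- A part of the boxes. -/
def part22_11 : Tree :=
  .cut₂ (.box 1010910 756400) (.cut₁ (.box 1010910 756400) (.box 1010910 756400))

theorem part22_11_ok : part22_11.check data22 1015808 1032192 557056 589824 = true := by
  decide +kernel

/-- A part of the boxes. -/
def part22_12 : Tree :=
  .box 1003006 756400

theorem part22_12_ok : part22_12.check data22 1032192 1040384 557056 573440 = true := by
  decide +kernel

/-- A part of the boxes. -/
def part22_13 : Tree :=
  .cut₁ (.box 998121 756400) (.cut₂ (.cut₁ (.box 998121 756400) (.box 1001140 577838)) (.cut₁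
  (.box 1003006 646043) (.box 999987 577838)))

theorem part22_13_ok : part22_13.check data22 1040384 1048576 557056 565248 = true := by
  decide +kernel

/-- A part of the boxes. -/
def part22_14 : Tree :=
  .cut₁ (.box 1003006 646043) (.cut₂ (.cut₁ (.box 998121 646043) (.box 999987 577838)) (.cut₁
  (.box 1003006 577838) (.box 999987 577838)))

theorem part22_14_ok : part22_14.check data22 1040384 1048576 565248 573440 = true := by
  decide +kernel

/-- A part of the boxes. -/
def part22_15 : Tree :=
  .box 1006025 646043

theorem part22_15_ok : part22_15.check data22 1032192 1040384 573440 589824 = true := by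
  decide +kernel

/-- A part of the boxes. -/
def part22_16 : Tree :=
  .cut₁ (.box 1003006 577838) (.cut₂ (.cut₁ (.box 1003006 577838) (.cut₂ (.box 999987 577838)
  (.box 999987 577838))) (.cut₁ (.box 1003006 577838) (.box 1001140 535686)))

theorem part22_16_ok : part22_16.check data22 1040384 1048576 573440 581632 = true := by
  decide +kernel

/-- A part of the boxes. -/
def part22_17 : Tree :=
  .cut₁ (.box 1003006 577838) (.cut₂ (.cut₁ (.box 1003006 577838) (.cut₂ (.box 1001140 535686)
  (.cut₁ (.box 1004159 467481) (.box 999987 535686)))) (.cut₁ (.box 1001140 577838) (.cut₂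
  (.box 1001140 509634) (.box 1001140 509634))))

theorem part22_17_ok : part22_17.check data22 1040384 1048576 581632 589824 = true := by
  decide +kernel

/-- A part of the boxes. -/
def part22_18 : Tree :=
  .cut₂ (.cut₁ (.box 1023698 1223881) (.box 1018541 756400)) (.cut₁ (.box 1023698 1223881)
  (.cut₂ (.box 1018813 756400) (.cut₁ (.box 1023698 756400) (.box 1015794 756400))))

theorem part22_18_ok : part22_18.check data22 983040 1015808 589824 655360 = true := by
  decide +kernel

/-- A part of the boxes. -/
def part22_19 : Tree :=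
  .cut₂ (.cut₁ (.box 1010910 756400) (.box 1007891 756400)) (.cut₁ (.box 1010910 756400) (.box 1010910 646043))

theorem part22_19_ok : part22_19.check data22 1015808 1032192 589824 622592 = true := by
  decide +kernel

/-- A part of the boxes. -/
def part22_20 : Tree :=
  .cut₂ (.box 1006025 577838) (.box 1006025 561738)

theorem part22_20_ok : part22_20.check data22 1032192 1040384 589824 606208 = true := by
  decide +kernel

/-- A part of the boxes. -/
def part22_21 : Tree :=
  .cut₁ (.box 1003006 577838) (.cut₂ (.cut₁ (.box 1004159 467481) (.cut₂ (.box 1001413 509634)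
  (.cut₁ (.box 1003006 467481) (.box 1001140 509634)))) (.cut₁ (.box 1004159 467481) (.cut₂
  (.box 1001140 509634) (.box 1001140 509634))))

theorem part22_21_ok : part22_21.check data22 1040384 1048576 589824 598016 = true := by
  decide +kernel

/-- A part of the boxes. -/
def part22_22 : Tree :=
  .box 1003006 509634

theorem part22_22_ok : part22_22.check data22 1040384 1044480 598016 606208 = true := by
  decide +kernel

/-- A part of the boxes. -/
def part22_23 : Tree :=
  .cut₂ (.cut₁ (.box 1003006 467481) (.cut₂ (.cut₁ (.box 1003006 467481) (.box 1003006 467481))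
  (.cut₁ (.box 1003006 467481) (.box 1002293 467481)))) (.cut₁ (.box 1003006 467481) (.cut₂
  (.box 1003006 467481) (.box 1001140 467481)))

theorem part22_23_ok : part22_23.check data22 1044480 1048576 598016 606208 = true := by
  decide +kernel

/-- A part of the boxes. -/
def part22_24 : Tree :=
  .cut₂ (.cut₁ (.box 1003006 577838) (.box 1007891 467481)) (.cut₁ (.box 1010910 467481) (.box 1007891 467481))

theorem part22_24_ok : part22_24.check data22 1032192 1040384 606208 622592 = true := by
  decide +kernel

/-- A part of the boxes. -/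
def part22_25 : Tree :=
  .cut₁ (.box 1004872 467481) (.cut₂ (.cut₁ (.box 1003006 467481) (.cut₂ (.box 1001853 467481)
  (.cut₁ (.box 1003006 467481) (.box 1001140 467481)))) (.cut₁ (.box 1003006 467481) (.box 1002293 441429)))

theorem part22_25_ok : part22_25.check data22 1040384 1048576 606208 614400 = true := by
  decide +kernel

/-- A part of the boxes. -/
def part22_26 : Tree :=
  .cut₁ (.box 1004872 467481) (.cut₂ (.cut₁ (.box 1003006 467481) (.cut₂ (.box 1001140 467481)
  (.box 1002293 441429))) (.cut₁ (.box 1003006 467481) (.box 1003447 399277)))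

theorem part22_26_ok : part22_26.check data22 1040384 1048576 614400 622592 = true := by
  decide +kernel

/-- A part of the boxes. -/
def part22_27 : Tree :=
  .cut₂ (.cut₁ (.box 1010910 756400) (.box 1010910 577838)) (.cut₁ (.box 1010910 646043) (.box 1007891 577838))

theorem part22_27_ok : part22_27.check data22 1015808 1032192 622592 655360 = true := by
  decide +kernel

/-- A part of the boxes. -/
def part22_28 : Tree :=
  .cut₂ (.cut₁ (.box 1010910 467481) (.box 1006025 467481)) (.cut₁ (.box 1010910 467481) (.box 1006025 467481))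

theorem part22_28_ok : part22_28.check data22 1032192 1040384 622592 638976 = true := by
  decide +kernel

/-- A part of the boxes. -/
def part22_29 : Tree :=
  .cut₁ (.box 1003006 467481) (.cut₂ (.cut₁ (.box 1003006 467481) (.box 1002293 425328))
  (.cut₁ (.box 1003006 467481) (.box 1003006 399277)))

theorem part22_29_ok : part22_29.check data22 1040384 1048576 622592 630784 = true := by
  decide +kernel

/-- A part of the boxes. -/
def part22_30 : Tree :=
  .cut₁ (.box 1003006 467481) (.cut₂ (.cut₁ (.box 1003006 467481) (.box 1003006 399277)) (.box 1002462 399277))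

theorem part22_30_ok : part22_30.check data22 1040384 1048576 630784 638976 = true := by
  decide +kernel

/-- A part of the boxes. -/
def part22_31 : Tree :=
  .cut₂ (.cut₁ (.box 1010910 467481) (.box 1003006 467481)) (.box 1007891 441429)

theorem part22_31_ok : part22_31.check data22 1032192 1040384 638976 655360 = true := by
  decide +kernel

/-- A part of the boxes. -/
def part22_32 : Tree :=
  .cut₂ (.cut₁ (.box 1003006 467481) (.cut₂ (.box 1003006 383176) (.cut₁ (.box 1001140 467481)
  (.box 1003006 357124)))) (.cut₁ (.box 1003006 399277) (.box 1003006 357124))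

theorem part22_32_ok : part22_32.check data22 1040384 1048576 638976 655360 = true := by
  decide +kernel

/-- A part of the boxes. -/
def part22_33 : Tree :=
  .cut₁ (.box 1057178 3204163) (.cut₂ (.box 1036486 1223881) (.cut₁ (.box 1057178 3204163)
  (.box 1023698 1980282)))

theorem part22_33_ok : part22_33.check data22 917504 983040 655360 720896 = true := by
  decide +kernel

/-- A part of the boxes. -/
def part22_34 : Tree :=
  .cut₁ (.box 1057178 3204163) (.cut₂ (.cut₁ (.box 1057178 3204163) (.box 1023698 1223881))
  (.cut₁ (.box 1057178 3204163) (.box 1036486 1223881)))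

theorem part22_34_ok : part22_34.check data22 917504 983040 720896 786432 = true := by
  decide +kernel

/-- A part of the boxes. -/
def part22_35 : Tree :=
  .cut₁ (.box 1023698 756400) (.cut₂ (.cut₁ (.box 1023698 756400) (.box 1015794 756400))
  (.cut₁ (.box 1023698 756400) (.box 1015794 756400)))

theorem part22_35_ok : part22_35.check data22 983040 1015808 655360 688128 = true := by
  decide +kernel

/-- A part of the boxes. -/
def part22_36 : Tree :=
  .cut₁ (.box 1023698 756400) (.cut₂ (.cut₁ (.box 1023698 756400) (.box 1015794 577838)) (.box 1017660 561738))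

theorem part22_36_ok : part22_36.check data22 983040 1015808 688128 720896 = true := by
  decide +kernel

/-- A part of the boxes. -/
def part22_37 : Tree :=
  .cut₂ (.cut₁ (.box 1010910 577838) (.box 1010910 467481)) (.cut₁ (.box 1015794 467481) (.box 1010910 467481))

theorem part22_37_ok : part22_37.check data22 1015808 1032192 655360 688128 = true := by
  decide +kernel

/-- A part of the boxes. -/
def part22_38 : Tree :=
  .cut₂ (.cut₁ (.box 1007891 399277) (.cut₂ (.cut₁ (.box 1003006 399277) (.box 1003006 357124))
  (.cut₁ (.box 1003006 357124) (.box 1003006 288919)))) (.cut₁ (.box 1007891 357124) (.cut₂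
  (.box 1006025 288919) (.box 1003006 288919)))

theorem part22_38_ok : part22_38.check data22 1032192 1048576 655360 688128 = true := by
  decide +kernel

/-- A part of the boxes. -/
def part22_39 : Tree :=
  .cut₁ (.cut₂ (.cut₁ (.box 1010910 467481) (.box 1010910 467481)) (.cut₁ (.box 1010910 467481)
  (.box 1010910 467481))) (.cut₂ (.cut₁ (.box 1007891 288919) (.box 1003006 288919)) (.box 1006738 246766))

theorem part22_39_ok : part22_39.check data22 1015808 1048576 688128 720896 = true := by
  decide +kernel

/-- A part of the boxes. -/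
def part22_40 : Tree :=
  .cut₁ (.cut₂ (.cut₁ (.box 1023698 756400) (.box 1017660 509634)) (.cut₁ (.box 1023698 756400)
  (.box 1015794 467481))) (.cut₂ (.cut₁ (.box 1010910 357124) (.box 1007891 178562)) (.cut₁
  (.box 1010910 288919) (.box 1006025 0)))

theorem part22_40_ok : part22_40.check data22 983040 1048576 720896 786432 = true := by
  decide +kernel

/-- A part of the boxes. -/
def part22_41 : Tree :=
  .out

theorem part22_41_ok : part22_41.check data22 786432 917504 786432 1048576 = true := by
  decide +kernel

/-- A part of the boxes. -/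
def part22_42 : Tree :=
  .box 1057178 3204163

theorem part22_42_ok : part22_42.check data22 917504 950272 786432 851968 = true := by
  decide +kernel

/-- A part of the boxes. -/
def part22_43 : Tree :=
  .cut₁ (.box 1057178 3204163) (.box 1028583 756400)

theorem part22_43_ok : part22_43.check data22 950272 983040 786432 819200 = true := by
  decide +kernel

/-- A part of the boxes. -/
def part22_44 : Tree :=
  .cut₂ (.box 1036486 1223881) (.cut₁ (.cut₂ (.box 1057178 3204163) (.cut₁ (.box 1057178 3204163)
  (.box 1044390 1223881))) (.cut₂ (.box 1036486 1223881) (.cut₁ (.box 1041371 1223881) (.box 1039505 1223881))))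

theorem part22_44_ok : part22_44.check data22 950272 966656 819200 851968 = true := by
  decide +kernel

/-- A part of the boxes. -/
def part22_45 : Tree :=
  .cut₂ (.box 1031602 756400) (.cut₁ (.box 1036486 756400) (.box 1023698 756400))

theorem part22_45_ok : part22_45.check data22 966656 983040 819200 851968 = true := by
  decide +kernel

/-- A part of the boxes. -/
def part22_46 : Tree :=
  .out

theorem part22_46_ok : part22_46.check data22 917504 950272 851968 917504 = true := by
  decide +kernel

/-- A part of the boxes. -/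
def part22_47 : Tree :=
  .cut₂ (.cut₁ (.cut₂ (.cut₁ (.out) (.box 1044390 756400)) (.out)) (.cut₂ (.cut₁ (.cut₂ (.box 1041371 646043)
  (.box 1044390 467481)) (.cut₂ (.box 1036486 756400) (.box 1036486 467481))) (.cut₁ (.box 1036486 467481)
  (.box 1036486 288919)))) (.cut₁ (.out) (.box 1036486 0))

theorem part22_47_ok : part22_47.check data22 950272 966656 851968 884736 = true := by
  decide +kernel

/-- A part of the boxes. -/
def part22_48 : Tree :=
  .cut₂ (.cut₁ (.cut₂ (.box 1031602 577838) (.cut₁ (.box 1036486 467481) (.box 1036486 467481)))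
  (.box 1023698 467481)) (.cut₁ (.cut₂ (.box 1031602 288919) (.box 1036486 0)) (.box 1026717 0))

theorem part22_48_ok : part22_48.check data22 966656 983040 851968 884736 = true := by
  decide +kernel

/-- A part of the boxes. -/
def part22_49 : Tree :=
  .cut₁ (.out) (.box 1023698 0)

theorem part22_49_ok : part22_49.check data22 950272 983040 884736 917504 = true := by
  decide +kernel

/-- A part of the boxes. -/
def part22_50 : Tree :=
  .cut₂ (.cut₁ (.cut₂ (.cut₁ (.box 1020679 467481) (.box 1015794 467481)) (.cut₁ (.box 1023698 467481)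
  (.box 1015794 467481))) (.box 1010910 178562)) (.cut₁ (.cut₂ (.box 1018813 288919) (.box 1023698 0))
  (.box 1003006 0))

theorem part22_50_ok : part22_50.check data22 983040 1048576 786432 917504 = true := by
  decide +kernel

/-- A part of the boxes. -/
def part22_51 : Tree :=
  .cut₁ (.out) (.box 1023698 0)

theorem part22_51_ok : part22_51.check data22 917504 1048576 917504 1048576 = true := by
  decide +kernel

/-- All the cuts in dimension 22. -/
def tree22 : Tree :=
  (Tree.cut₁ part22_0 (Tree.cut₂ part22_1 (Tree.cut₁ part22_2 (Tree.cut₂ (Tree.cut₁ part22_3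
  (Tree.cut₂ (Tree.cut₁ part22_4 (Tree.cut₂ (Tree.cut₁ part22_5 (Tree.cut₂ (Tree.cut₁ part22_6
  (Tree.cut₂ part22_7 (Tree.cut₁ part22_8 (Tree.cut₂ part22_9 part22_10)))) (Tree.cut₁
  part22_11 (Tree.cut₂ (Tree.cut₁ part22_12 (Tree.cut₂ part22_13 part22_14)) (Tree.cut₁
  part22_15 (Tree.cut₂ part22_16 part22_17)))))) (Tree.cut₁ part22_18 (Tree.cut₂ (Tree.cut₁
  part22_19 (Tree.cut₂ (Tree.cut₁ part22_20 (Tree.cut₂ part22_21 (Tree.cut₁ part22_22
  part22_23))) (Tree.cut₁ part22_24 (Tree.cut₂ part22_25 part22_26)))) (Tree.cut₁ part22_27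
  (Tree.cut₂ (Tree.cut₁ part22_28 (Tree.cut₂ part22_29 part22_30)) (Tree.cut₁ part22_31
  part22_32))))))) (Tree.cut₁ (Tree.cut₂ part22_33 part22_34) (Tree.cut₂ (Tree.cut₁ (Tree.cut₂
  part22_35 part22_36) (Tree.cut₂ (Tree.cut₁ part22_37 part22_38) part22_39)) part22_40))))
  (Tree.cut₁ part22_41 (Tree.cut₂ (Tree.cut₁ (Tree.cut₂ (Tree.cut₁ part22_42 (Tree.cut₂
  part22_43 (Tree.cut₁ part22_44 part22_45))) (Tree.cut₁ part22_46 (Tree.cut₂ (Tree.cut₁
  part22_47 part22_48) part22_49))) part22_50) part22_51))))))

theorem tree22_ok : tree22.check data22 0 unit 0 unit = true :=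
    (check_cut₁ (c := 524288) (by norm_num [unit]) part22_0_ok (check_cut₂ (c := 524288) (by
    norm_num [unit]) part22_1_ok (check_cut₁ (c := 786432) (by norm_num [unit]) part22_2_ok
    (check_cut₂ (c := 786432) (by norm_num [unit]) (check_cut₁ (c := 917504) (by norm_num
    [unit]) part22_3_ok (check_cut₂ (c := 655360) (by norm_num [unit]) (check_cut₁ (c := 983040)
    (by norm_num [unit]) part22_4_ok (check_cut₂ (c := 589824) (by norm_num [unit]) (check_cut₁
    (c := 1015808) (by norm_num [unit]) part22_5_ok (check_cut₂ (c := 557056) (by norm_num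
    [unit]) (check_cut₁ (c := 1032192) (by norm_num [unit]) part22_6_ok (check_cut₂ (c := 540672)
    (by norm_num [unit]) part22_7_ok (check_cut₁ (c := 1040384) (by norm_num [unit]) part22_8_ok
    (check_cut₂ (c := 548864) (by norm_num [unit]) part22_9_ok part22_10_ok)))) (check_cut₁ (c
    := 1032192) (by norm_num [unit]) part22_11_ok (check_cut₂ (c := 573440) (by norm_num [unit])
    (check_cut₁ (c := 1040384) (by norm_num [unit]) part22_12_ok (check_cut₂ (c := 565248) (by
    norm_num [unit]) part22_13_ok part22_14_ok)) (check_cut₁ (c := 1040384) (by norm_num [unit])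
    part22_15_ok (check_cut₂ (c := 581632) (by norm_num [unit]) part22_16_ok part22_17_ok))))))
    (check_cut₁ (c := 1015808) (by norm_num [unit]) part22_18_ok (check_cut₂ (c := 622592) (by
    norm_num [unit]) (check_cut₁ (c := 1032192) (by norm_num [unit]) part22_19_ok (check_cut₂ (c
    := 606208) (by norm_num [unit]) (check_cut₁ (c := 1040384) (by norm_num [unit]) part22_20_ok
    (check_cut₂ (c := 598016) (by norm_num [unit]) part22_21_ok (check_cut₁ (c := 1044480) (by
    norm_num [unit]) part22_22_ok part22_23_ok))) (check_cut₁ (c := 1040384) (by norm_num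
    [unit]) part22_24_ok (check_cut₂ (c := 614400) (by norm_num [unit]) part22_25_ok
    part22_26_ok)))) (check_cut₁ (c := 1032192) (by norm_num [unit]) part22_27_ok (check_cut₂ (c
    := 638976) (by norm_num [unit]) (check_cut₁ (c := 1040384) (by norm_num [unit]) part22_28_ok
    (check_cut₂ (c := 630784) (by norm_num [unit]) part22_29_ok part22_30_ok)) (check_cut₁ (c := 1040384)
    (by norm_num [unit]) part22_31_ok part22_32_ok))))))) (check_cut₁ (c := 983040) (by norm_num
    [unit]) (check_cut₂ (c := 720896) (by norm_num [unit]) part22_33_ok part22_34_ok)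
    (check_cut₂ (c := 720896) (by norm_num [unit]) (check_cut₁ (c := 1015808) (by norm_num
    [unit]) (check_cut₂ (c := 688128) (by norm_num [unit]) part22_35_ok part22_36_ok)
    (check_cut₂ (c := 688128) (by norm_num [unit]) (check_cut₁ (c := 1032192) (by norm_num
    [unit]) part22_37_ok part22_38_ok) part22_39_ok)) part22_40_ok)))) (check_cut₁ (c := 917504)
    (by norm_num [unit]) part22_41_ok (check_cut₂ (c := 917504) (by norm_num [unit]) (check_cut₁
    (c := 983040) (by norm_num [unit]) (check_cut₂ (c := 851968) (by norm_num [unit])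
    (check_cut₁ (c := 950272) (by norm_num [unit]) part22_42_ok (check_cut₂ (c := 819200) (by
    norm_num [unit]) part22_43_ok (check_cut₁ (c := 966656) (by norm_num [unit]) part22_44_ok
    part22_45_ok))) (check_cut₁ (c := 950272) (by norm_num [unit]) part22_46_ok (check_cut₂ (c
    := 884736) (by norm_num [unit]) (check_cut₁ (c := 966656) (by norm_num [unit]) part22_47_ok
    part22_48_ok) part22_49_ok))) part22_50_ok) part22_51_ok))))))

end Vale.Agent.P237.Quant.WindowCert
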