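import Vale.Agent.P237.Quant.WindowCheck

/-!
The window certificate of the moment excess in dimension 23. The cuts are checked in parts, so
that no kernel computation grows too large.
-/

namespace Vale.Agent.P237.Quant.WindowCert

/-- The shared data in dimension 23. -/
def data23 : Cert where
  m := 22
  s := 327570
  q := 715809
  c := 1080931
  κ := 437239
  I := 51574
  zone₀ := [
    ⟨0, 1048577⟩, ⟨7445, 1048603⟩, ⟨14890, 1048682⟩, ⟨22334, 1048814⟩, ⟨29779, 1049000⟩,
    ⟨37224, 1049238⟩, ⟨44669, 1049529⟩, ⟨52113, 1049874⟩, ⟨59558, 1050272⟩, ⟨67003, 1050724⟩,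
    ⟨74448, 1051229⟩, ⟨81892, 1051789⟩, ⟨89337, 1052403⟩, ⟨96782, 1053072⟩, ⟨104227, 1053795⟩,
    ⟨111672, 1054574⟩, ⟨119116, 1055408⟩, ⟨126561, 1056299⟩, ⟨134006, 1057246⟩, ⟨141451, 1058249⟩,
    ⟨148895, 1059310⟩, ⟨156340, 1060429⟩, ⟨163785, 1061607⟩, ⟨171230, 1062843⟩, ⟨178675, 1064139⟩,
    ⟨186119, 1065495⟩, ⟨193564, 1066912⟩, ⟨201009, 1068391⟩, ⟨208454, 1069932⟩, ⟨215898, 1071535⟩,
    ⟨223343, 1073203⟩, ⟨230788, 1074936⟩, ⟨238233, 1076734⟩, ⟨245678, 1078599⟩, ⟨253122, 1080531⟩,
    ⟨260567, 1082532⟩, ⟨268012, 1084603⟩, ⟨275457, 1086744⟩, ⟨282901, 1088958⟩, ⟨290346, 1091244⟩,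
    ⟨297791, 1093605⟩, ⟨305236, 1096042⟩, ⟨312680, 1098555⟩, ⟨320125, 1101148⟩, ⟨327570, 1103820⟩]
  zone₁ := [
    ⟨327570, 1103820⟩, ⟨334503, 1106382⟩, ⟨341436, 1109017⟩, ⟨348369, 1111724⟩, ⟨355301, 1114507⟩,
    ⟨362234, 1117366⟩, ⟨369167, 1120303⟩, ⟨376100, 1123320⟩, ⟨383033, 1126418⟩, ⟨389966, 1129600⟩,
    ⟨396898, 1132865⟩, ⟨403831, 1136219⟩, ⟨410764, 1139660⟩, ⟨417697, 1143193⟩, ⟨424630, 1146819⟩,
    ⟨431563, 1150540⟩, ⟨438495, 1154358⟩, ⟨445428, 1158276⟩, ⟨452361, 1162298⟩, ⟨459294, 1166424⟩,
    ⟨466227, 1170659⟩, ⟨473160, 1175004⟩, ⟨480092, 1179463⟩, ⟨487025, 1184040⟩, ⟨493958, 1188737⟩,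
    ⟨500891, 1193558⟩, ⟨507824, 1198506⟩, ⟨514757, 1203586⟩, ⟨521690, 1208802⟩, ⟨528622, 1214156⟩,
    ⟨535555, 1219655⟩, ⟨542488, 1225302⟩, ⟨549421, 1231103⟩, ⟨556354, 1237062⟩, ⟨563287, 1243185⟩,
    ⟨570219, 1249476⟩, ⟨577152, 1255944⟩, ⟨584085, 1262593⟩, ⟨591018, 1269430⟩, ⟨597951, 1276462⟩,
    ⟨604884, 1283696⟩, ⟨611816, 1291140⟩, ⟨618749, 1298802⟩, ⟨625682, 1306691⟩, ⟨632615, 1314817⟩,
    ⟨639548, 1323187⟩, ⟨646481, 1331814⟩, ⟨653413, 1340706⟩, ⟨660346, 1349877⟩, ⟨667279, 1359340⟩,
    ⟨674212, 1369106⟩, ⟨681145, 1379190⟩, ⟨688078, 1389607⟩, ⟨695010, 1400371⟩, ⟨701943, 1411502⟩,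
    ⟨708876, 1423018⟩, ⟨715809, 1434938⟩]
  zone₂ := [
    ⟨715809, 1434938⟩, ⟨727909, 1456774⟩, ⟨739858, 1479730⟩, ⟨751656, 1503890⟩, ⟨763299, 1529334⟩,
    ⟨774786, 1556162⟩, ⟨786114, 1584475⟩, ⟨797282, 1614395⟩, ⟨808286, 1646047⟩, ⟨819125, 1679582⟩,
    ⟨829796, 1715163⟩, ⟨840297, 1752975⟩, ⟨850623, 1793220⟩, ⟨860773, 1836141⟩, ⟨870744, 1882007⟩,
    ⟨880531, 1931119⟩, ⟨890132, 1983836⟩, ⟨899543, 2040568⟩, ⟨908760, 2101787⟩, ⟨917779, 2168054⟩,
    ⟨926595, 2240018⟩, ⟨935203, 2318454⟩, ⟨943599, 2404302⟩, ⟨951776, 2498671⟩, ⟨959730, 2602951⟩,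
    ⟨967453, 2718814⟩, ⟨974938, 2848366⟩, ⟨982178, 2994289⟩, ⟨989163, 3159984⟩, ⟨995885, 3349980⟩,
    ⟨1002332, 3570254⟩, ⟨1008493, 3829088⟩, ⟨1014352, 4138019⟩, ⟨1019895, 4514171⟩,
    ⟨1025101, 4983409⟩, ⟨1029947, 5587630⟩, ⟨1034404, 6399437⟩, ⟨1038436, 7558200⟩,
    ⟨1041990, 9370377⟩, ⟨1044991, 12691467⟩, ⟨1047308, 21328317⟩]

theorem data23_wf : data23.wf = true := by decide +kernel

theorem data23_const : constOk data23 = true := by decide +kernel

/-- A part of the boxes. -/
def part23_0 : Tree :=
  .out

theorem part23_0_ok : part23_0.check data23 0 524288 0 1048576 = true := by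
  decide +kernel

/-- A part of the boxes. -/
def part23_1 : Tree :=
  .cut₁ (.box 1144831 5184445) (.cut₂ (.out) (.cut₁ (.box 1057178 3204163) (.cut₂ (.out)
  (.cut₁ (.box 1057178 3204163) (.cut₂ (.box 1057178 3204163) (.cut₁ (.box 1003006 3204163)
  (.box 1003006 3204163)))))))

theorem part23_1_ok : part23_1.check data23 524288 1048576 0 524288 = true := by
  decide +kernel

/-- A part of the boxes. -/
def part23_2 : Tree :=
  .out

theorem part23_2_ok : part23_2.check data23 524288 786432 524288 1048576 = true := by
  decide +kernel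

/-- A part of the boxes. -/
def part23_3 : Tree :=
  .box 1057178 3204163

theorem part23_3_ok : part23_3.check data23 786432 917504 524288 786432 = true := by
  decide +kernel

/-- A part of the boxes. -/
def part23_4 : Tree :=
  .cut₂ (.box 1036486 3204163) (.cut₁ (.box 1057178 3204163) (.box 1036486 3204163))

theorem part23_4_ok : part23_4.check data23 917504 983040 524288 655360 = true := by
  decide +kernel

/-- A part of the boxes. -/
def part23_5 : Tree :=
  .cut₂ (.box 1023698 1980282) (.cut₁ (.box 1023698 3204163) (.box 1023698 1223881))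

theorem part23_5_ok : part23_5.check data23 983040 1015808 524288 589824 = true := by
  decide +kernel

/-- A part of the boxes. -/
def part23_6 : Tree :=
  .cut₁ (.box 1010910 1223881) (.cut₂ (.cut₁ (.box 1003006 3204163) (.box 1003006 1980282))
  (.cut₁ (.box 1003006 1223881) (.cut₂ (.box 1003006 1045320) (.cut₁ (.box 1003006 1223881)
  (.cut₂ (.box 1003006 756400) (.box 1003006 756400))))))

theorem part23_6_ok : part23_6.check data23 1015808 1048576 524288 557056 = true := by
  decide +kernel

/-- A part of the boxes. -/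
def part23_7 : Tree :=
  .cut₂ (.box 1015794 756400) (.box 1013929 756400)

theorem part23_7_ok : part23_7.check data23 1015808 1032192 557056 589824 = true := by
  decide +kernel

/-- A part of the boxes. -/
def part23_8 : Tree :=
  .box 1003006 756400

theorem part23_8_ok : part23_8.check data23 1032192 1040384 557056 573440 = true := by
  decide +kernel

/-- A part of the boxes. -/
def part23_9 : Tree :=
  .cut₁ (.box 1003006 756400) (.cut₂ (.cut₁ (.box 1003006 756400) (.box 1003006 756400))
  (.cut₁ (.box 1003006 756400) (.box 1003006 646043)))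

theorem part23_9_ok : part23_9.check data23 1040384 1048576 557056 565248 = true := by
  decide +kernel

/-- A part of the boxes. -/
def part23_10 : Tree :=
  .cut₁ (.box 1003006 756400) (.cut₂ (.cut₁ (.box 1003006 756400) (.box 1001140 646043))
  (.cut₁ (.box 1003006 646043) (.box 1003006 577838)))

theorem part23_10_ok : part23_10.check data23 1040384 1048576 565248 573440 = true := by
  decide +kernel

/-- A part of the boxes. -/
def part23_11 : Tree :=
  .box 1007891 646043

theorem part23_11_ok : part23_11.check data23 1032192 1040384 573440 589824 = true := by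
  decide +kernel

/-- A part of the boxes. -/
def part23_12 : Tree :=
  .cut₁ (.box 1003006 646043) (.cut₂ (.cut₁ (.box 1003006 646043) (.box 1003006 577838))
  (.cut₁ (.box 1003006 646043) (.box 1003006 577838)))

theorem part23_12_ok : part23_12.check data23 1040384 1048576 573440 581632 = true := by
  decide +kernel

/-- A part of the boxes. -/
def part23_13 : Tree :=
  .cut₁ (.box 1003006 646043) (.cut₂ (.cut₁ (.box 1003006 577838) (.box 1002293 577838))
  (.cut₁ (.box 1003006 577838) (.box 1003447 535686)))

theorem part23_13_ok : part23_13.check data23 1040384 1048576 581632 589824 = true := by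
  decide +kernel

/-- A part of the boxes. -/
def part23_14 : Tree :=
  .cut₂ (.cut₁ (.box 1023698 1980282) (.box 1020679 756400)) (.cut₁ (.box 1023698 1223881)
  (.cut₂ (.box 1020679 756400) (.cut₁ (.box 1023698 1223881) (.box 1023698 756400))))

theorem part23_14_ok : part23_14.check data23 983040 1015808 589824 655360 = true := by
  decide +kernel

/-- A part of the boxes. -/
def part23_15 : Tree :=
  .cut₂ (.cut₁ (.box 1015794 756400) (.box 1010910 756400)) (.cut₁ (.box 1015794 756400) (.box 1010910 756400))

theorem part23_15_ok : part23_15.check data23 1015808 1032192 589824 622592 = true := by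
  decide +kernel

/-- A part of the boxes. -/
def part23_16 : Tree :=
  .box 1008603 603890

theorem part23_16_ok : part23_16.check data23 1032192 1040384 589824 606208 = true := by
  decide +kernel

/-- A part of the boxes. -/
def part23_17 : Tree :=
  .cut₁ (.box 1006025 577838) (.cut₂ (.cut₁ (.box 1003006 577838) (.cut₂ (.box 1003006 535686)
  (.box 1003174 541836))) (.cut₁ (.box 1003006 577838) (.cut₂ (.box 1003006 535686) (.box 1002902 535686))))

theorem part23_17_ok : part23_17.check data23 1040384 1048576 589824 598016 = true := by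
  decide +kernel

/-- A part of the boxes. -/
def part23_18 : Tree :=
  .box 1006025 577838

theorem part23_18_ok : part23_18.check data23 1040384 1044480 598016 606208 = true := by
  decide +kernel

/-- A part of the boxes. -/
def part23_19 : Tree :=
  .cut₁ (.box 1003006 577838) (.cut₂ (.cut₁ (.box 1003006 577838) (.box 1003006 535686))
  (.cut₁ (.box 1006025 467481) (.box 1003006 509634)))

theorem part23_19_ok : part23_19.check data23 1044480 1048576 598016 602112 = true := by
  decide +kernel

/-- A part of the boxes. -/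
def part23_20 : Tree :=
  .cut₁ (.box 1003006 577838) (.cut₂ (.cut₁ (.box 1006025 467481) (.box 1004872 467481))
  (.cut₁ (.box 1006025 467481) (.box 1004872 467481)))

theorem part23_20_ok : part23_20.check data23 1044480 1048576 602112 606208 = true := by
  decide +kernel

/-- A part of the boxes. -/
def part23_21 : Tree :=
  .cut₂ (.box 1007891 577838) (.cut₁ (.box 1010910 646043) (.box 1010910 467481))

theorem part23_21_ok : part23_21.check data23 1032192 1040384 606208 622592 = true := by
  decide +kernel

/-- A part of the boxes. -/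
def part23_22 : Tree :=
  .box 1006025 535686

theorem part23_22_ok : part23_22.check data23 1040384 1044480 606208 614400 = true := by
  decide +kernel

/-- A part of the boxes. -/
def part23_23 : Tree :=
  .cut₁ (.box 1006025 467481) (.cut₂ (.cut₁ (.box 1006025 467481) (.box 1004600 467481))
  (.cut₁ (.box 1006025 467481) (.box 1004159 467481)))

theorem part23_23_ok : part23_23.check data23 1044480 1048576 606208 610304 = true := by
  decide +kernel

/-- A part of the boxes. -/
def part23_24 : Tree :=
  .cut₁ (.box 1006025 467481) (.cut₂ (.cut₁ (.box 1003006 467481) (.box 1003006 467481))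
  (.cut₁ (.box 1006025 467481) (.box 1003006 467481)))

theorem part23_24_ok : part23_24.check data23 1044480 1048576 610304 614400 = true := by
  decide +kernel

/-- A part of the boxes. -/
def part23_25 : Tree :=
  .box 1006025 509634

theorem part23_25_ok : part23_25.check data23 1040384 1044480 614400 622592 = true := by
  decide +kernel

/-- A part of the boxes. -/
def part23_26 : Tree :=
  .cut₁ (.box 1006025 467481) (.cut₂ (.cut₁ (.box 1006025 467481) (.box 1003006 467481))
  (.cut₁ (.box 1003006 467481) (.box 1003006 467481)))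

theorem part23_26_ok : part23_26.check data23 1044480 1048576 614400 618496 = true := by
  decide +kernel

/-- A part of the boxes. -/
def part23_27 : Tree :=
  .cut₁ (.box 1006025 467481) (.cut₂ (.cut₁ (.box 1003006 467481) (.box 1003006 467481))
  (.cut₁ (.box 1003006 467481) (.box 1003006 467481)))

theorem part23_27_ok : part23_27.check data23 1044480 1048576 618496 622592 = true := by
  decide +kernel

/-- A part of the boxes. -/
def part23_28 : Tree :=
  .cut₂ (.cut₁ (.box 1010910 756400) (.box 1010910 646043)) (.cut₁ (.box 1010910 756400) (.box 1010910 577838))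

theorem part23_28_ok : part23_28.check data23 1015808 1032192 622592 655360 = true := by
  decide +kernel

/-- A part of the boxes. -/
def part23_29 : Tree :=
  .cut₂ (.cut₁ (.box 1012063 467481) (.box 1010910 467481)) (.cut₁ (.box 1010910 467481) (.box 1010910 467481))

theorem part23_29_ok : part23_29.check data23 1032192 1040384 622592 638976 = true := by
  decide +kernel

/-- A part of the boxes. -/
def part23_30 : Tree :=
  .cut₁ (.box 1006025 467481) (.cut₂ (.cut₁ (.box 1003006 467481) (.cut₂ (.cut₁ (.box 1003006 467481)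
  (.box 1003006 467481)) (.box 1004159 441429))) (.cut₁ (.box 1006025 467481) (.cut₂ (.box 1004159 441429)
  (.box 1004159 441429))))

theorem part23_30_ok : part23_30.check data23 1040384 1048576 622592 630784 = true := by
  decide +kernel

/-- A part of the boxes. -/
def part23_31 : Tree :=
  .cut₁ (.box 1006025 467481) (.cut₂ (.cut₁ (.box 1003006 467481) (.box 1004159 425328))
  (.cut₁ (.box 1003006 467481) (.box 1004159 425328)))

theorem part23_31_ok : part23_31.check data23 1040384 1048576 630784 638976 = true := by
  decide +kernel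

/-- A part of the boxes. -/
def part23_32 : Tree :=
  .cut₂ (.cut₁ (.box 1010910 467481) (.box 1010910 467481)) (.cut₁ (.box 1010910 467481) (.box 1010910 467481))

theorem part23_32_ok : part23_32.check data23 1032192 1040384 638976 655360 = true := by
  decide +kernel

/-- A part of the boxes. -/
def part23_33 : Tree :=
  .cut₁ (.box 1006025 467481) (.cut₂ (.cut₁ (.box 1003006 467481) (.box 1006025 399277))
  (.cut₁ (.box 1003006 467481) (.box 1006025 399277)))

theorem part23_33_ok : part23_33.check data23 1040384 1048576 638976 647168 = true := by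
  decide +kernel

/-- A part of the boxes. -/
def part23_34 : Tree :=
  .cut₁ (.box 1007891 399277) (.cut₂ (.cut₁ (.box 1003006 467481) (.box 1003006 399277))
  (.cut₁ (.box 1003006 399277) (.box 1003006 399277)))

theorem part23_34_ok : part23_34.check data23 1040384 1048576 647168 655360 = true := by
  decide +kernel

/-- A part of the boxes. -/
def part23_35 : Tree :=
  .cut₂ (.cut₁ (.box 1057178 3204163) (.box 1036486 1512801)) (.cut₁ (.box 1057178 3204163)
  (.cut₂ (.box 1039065 1292086) (.cut₁ (.box 1057178 3204163) (.box 1036486 1223881))))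

theorem part23_35_ok : part23_35.check data23 917504 983040 655360 786432 = true := by
  decide +kernel

/-- A part of the boxes. -/
def part23_36 : Tree :=
  .cut₁ (.box 1023698 1223881) (.cut₂ (.cut₁ (.box 1023698 756400) (.box 1023698 756400))
  (.cut₁ (.box 1023698 756400) (.box 1015794 756400)))

theorem part23_36_ok : part23_36.check data23 983040 1015808 655360 688128 = true := by
  decide +kernel

/-- A part of the boxes. -/
def part23_37 : Tree :=
  .cut₁ (.box 1026717 756400) (.cut₂ (.cut₁ (.box 1023698 756400) (.box 1015794 756400))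
  (.cut₁ (.box 1023698 756400) (.box 1015794 756400)))

theorem part23_37_ok : part23_37.check data23 983040 1015808 688128 720896 = true := by
  decide +kernel

/-- A part of the boxes. -/
def part23_38 : Tree :=
  .cut₂ (.cut₁ (.box 1015794 646043) (.box 1012776 467481)) (.cut₁ (.box 1015794 577838) (.box 1010910 467481))

theorem part23_38_ok : part23_38.check data23 1015808 1032192 655360 688128 = true := by
  decide +kernel

/-- A part of the boxes. -/
def part23_39 : Tree :=
  .cut₁ (.cut₂ (.cut₁ (.box 1010910 467481) (.box 1010910 467481)) (.box 1009757 399277))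
  (.cut₂ (.cut₁ (.box 1006025 399277) (.cut₂ (.box 1006025 357124) (.box 1006025 357124)))
  (.cut₁ (.box 1006025 399277) (.box 1006025 357124)))

theorem part23_39_ok : part23_39.check data23 1032192 1048576 655360 671744 = true := by
  decide +kernel

/-- A part of the boxes. -/
def part23_40 : Tree :=
  .cut₁ (.box 1009044 399277) (.cut₂ (.cut₁ (.box 1010910 357124) (.box 1006025 288919)) (.box 1006025 314971))

theorem part23_40_ok : part23_40.check data23 1032192 1048576 671744 688128 = true := by
  decide +kernel

/-- A part of the boxes. -/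
def part23_41 : Tree :=
  .cut₁ (.cut₂ (.cut₁ (.box 1015794 467481) (.box 1010910 467481)) (.cut₁ (.box 1015794 467481)
  (.box 1010910 467481))) (.cut₂ (.cut₁ (.box 1010910 357124) (.box 1006025 288919)) (.cut₁
  (.box 1010910 288919) (.box 1003006 288919)))

theorem part23_41_ok : part23_41.check data23 1015808 1048576 688128 720896 = true := by
  decide +kernel

/-- A part of the boxes. -/
def part23_42 : Tree :=
  .cut₂ (.cut₁ (.box 1028583 756400) (.cut₂ (.box 1019966 561738) (.box 1018813 577838)))
  (.cut₁ (.box 1023698 756400) (.box 1018813 467481))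

theorem part23_42_ok : part23_42.check data23 983040 1015808 720896 786432 = true := by
  decide +kernel

/-- A part of the boxes. -/
def part23_43 : Tree :=
  .cut₂ (.cut₁ (.cut₂ (.box 1013929 399277) (.box 1015794 357124)) (.box 1007891 220715))
  (.cut₁ (.box 1015794 288919) (.box 1003006 178562))

theorem part23_43_ok : part23_43.check data23 1015808 1048576 720896 786432 = true := by
  decide +kernel

/-- A part of the boxes. -/
def part23_44 : Tree :=
  .out

theorem part23_44_ok : part23_44.check data23 786432 917504 786432 1048576 = true := by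
  decide +kernel

/-- A part of the boxes. -/
def part23_45 : Tree :=
  .cut₁ (.box 1057178 3204163) (.cut₂ (.cut₁ (.box 1057178 3204163) (.box 1036486 1223881))
  (.cut₁ (.cut₂ (.box 1057178 3204163) (.cut₁ (.box 1057178 3204163) (.box 1044390 1980282)))
  (.cut₂ (.box 1036486 756400) (.box 1032314 756400))))

theorem part23_45_ok : part23_45.check data23 917504 983040 786432 851968 = true := by
  decide +kernel

/-- A part of the boxes. -/
def part23_46 : Tree :=
  .out

theorem part23_46_ok : part23_46.check data23 917504 950272 851968 917504 = true := by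
  decide +kernel

/-- A part of the boxes. -/
def part23_47 : Tree :=
  .cut₂ (.cut₁ (.out) (.cut₂ (.cut₁ (.box 1044390 1045320) (.box 1039505 756400)) (.cut₁ (.box 1044390 756400)
  (.cut₂ (.box 1041371 467481) (.box 1044390 467481))))) (.cut₁ (.out) (.box 1044390 467481))

theorem part23_47_ok : part23_47.check data23 950272 966656 851968 884736 = true := by
  decide +kernel

/-- A part of the boxes. -/
def part23_48 : Tree :=
  .cut₁ (.cut₂ (.box 1036486 756400) (.cut₁ (.cut₂ (.box 1036486 756400) (.box 1036486 467481))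
  (.box 1036486 756400))) (.box 1031602 756400)

theorem part23_48_ok : part23_48.check data23 966656 983040 851968 868352 = true := by
  decide +kernel

/-- A part of the boxes. -/
def part23_49 : Tree :=
  .cut₁ (.cut₂ (.cut₁ (.box 1036486 288919) (.box 1036486 467481)) (.box 1036486 0)) (.cut₂
  (.box 1031602 467481) (.box 1029736 0))

theorem part23_49_ok : part23_49.check data23 966656 983040 868352 884736 = true := by
  decide +kernel

/-- A part of the boxes. -/
def part23_50 : Tree :=
  .cut₁ (.out) (.cut₂ (.cut₁ (.box 1036486 0) (.box 1023698 0)) (.box 1036486 0))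

theorem part23_50_ok : part23_50.check data23 950272 983040 884736 917504 = true := by
  decide +kernel

/-- A part of the boxes. -/
def part23_51 : Tree :=
  .cut₁ (.cut₂ (.cut₁ (.box 1023698 756400) (.box 1023698 467481)) (.cut₁ (.box 1023698 467481)
  (.box 1023698 467481))) (.box 1010910 178562)

theorem part23_51_ok : part23_51.check data23 983040 1048576 786432 851968 = true := by
  decide +kernel

/-- A part of the boxes. -/
def part23_52 : Tree :=
  .cut₁ (.cut₂ (.cut₁ (.box 1023698 425328) (.box 1023698 0)) (.box 1023698 0)) (.box 1003006 0)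

theorem part23_52_ok : part23_52.check data23 983040 1048576 851968 917504 = true := by
  decide +kernel

/-- A part of the boxes. -/
def part23_53 : Tree :=
  .cut₁ (.out) (.box 1023698 0)

theorem part23_53_ok : part23_53.check data23 917504 1048576 917504 1048576 = true := by
  decide +kernel

/-- All the cuts in dimension 23. -/
def tree23 : Tree :=
  (Tree.cut₁ part23_0 (Tree.cut₂ part23_1 (Tree.cut₁ part23_2 (Tree.cut₂ (Tree.cut₁ part23_3
  (Tree.cut₂ (Tree.cut₁ part23_4 (Tree.cut₂ (Tree.cut₁ part23_5 (Tree.cut₂ part23_6 (Tree.cut₁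
  part23_7 (Tree.cut₂ (Tree.cut₁ part23_8 (Tree.cut₂ part23_9 part23_10)) (Tree.cut₁ part23_11
  (Tree.cut₂ part23_12 part23_13)))))) (Tree.cut₁ part23_14 (Tree.cut₂ (Tree.cut₁ part23_15
  (Tree.cut₂ (Tree.cut₁ part23_16 (Tree.cut₂ part23_17 (Tree.cut₁ part23_18 (Tree.cut₂
  part23_19 part23_20)))) (Tree.cut₁ part23_21 (Tree.cut₂ (Tree.cut₁ part23_22 (Tree.cut₂
  part23_23 part23_24)) (Tree.cut₁ part23_25 (Tree.cut₂ part23_26 part23_27)))))) (Tree.cut₁
  part23_28 (Tree.cut₂ (Tree.cut₁ part23_29 (Tree.cut₂ part23_30 part23_31)) (Tree.cut₁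
  part23_32 (Tree.cut₂ part23_33 part23_34)))))))) (Tree.cut₁ part23_35 (Tree.cut₂ (Tree.cut₁
  (Tree.cut₂ part23_36 part23_37) (Tree.cut₂ (Tree.cut₁ part23_38 (Tree.cut₂ part23_39
  part23_40)) part23_41)) (Tree.cut₁ part23_42 part23_43))))) (Tree.cut₁ part23_44 (Tree.cut₂
  (Tree.cut₁ (Tree.cut₂ part23_45 (Tree.cut₁ part23_46 (Tree.cut₂ (Tree.cut₁ part23_47
  (Tree.cut₂ part23_48 part23_49)) part23_50))) (Tree.cut₂ part23_51 part23_52))
  part23_53))))))

theorem tree23_ok : tree23.check data23 0 unit 0 unit = true :=
    (check_cut₁ (c := 524288) (by norm_num [unit]) part23_0_ok (check_cut₂ (c := 524288) (by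
    norm_num [unit]) part23_1_ok (check_cut₁ (c := 786432) (by norm_num [unit]) part23_2_ok
    (check_cut₂ (c := 786432) (by norm_num [unit]) (check_cut₁ (c := 917504) (by norm_num
    [unit]) part23_3_ok (check_cut₂ (c := 655360) (by norm_num [unit]) (check_cut₁ (c := 983040)
    (by norm_num [unit]) part23_4_ok (check_cut₂ (c := 589824) (by norm_num [unit]) (check_cut₁
    (c := 1015808) (by norm_num [unit]) part23_5_ok (check_cut₂ (c := 557056) (by norm_num
    [unit]) part23_6_ok (check_cut₁ (c := 1032192) (by norm_num [unit]) part23_7_ok (check_cut₂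
    (c := 573440) (by norm_num [unit]) (check_cut₁ (c := 1040384) (by norm_num [unit])
    part23_8_ok (check_cut₂ (c := 565248) (by norm_num [unit]) part23_9_ok part23_10_ok))
    (check_cut₁ (c := 1040384) (by norm_num [unit]) part23_11_ok (check_cut₂ (c := 581632) (by
    norm_num [unit]) part23_12_ok part23_13_ok)))))) (check_cut₁ (c := 1015808) (by norm_num
    [unit]) part23_14_ok (check_cut₂ (c := 622592) (by norm_num [unit]) (check_cut₁ (c := 1032192)
    (by norm_num [unit]) part23_15_ok (check_cut₂ (c := 606208) (by norm_num [unit]) (check_cut₁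
    (c := 1040384) (by norm_num [unit]) part23_16_ok (check_cut₂ (c := 598016) (by norm_num
    [unit]) part23_17_ok (check_cut₁ (c := 1044480) (by norm_num [unit]) part23_18_ok
    (check_cut₂ (c := 602112) (by norm_num [unit]) part23_19_ok part23_20_ok)))) (check_cut₁ (c
    := 1040384) (by norm_num [unit]) part23_21_ok (check_cut₂ (c := 614400) (by norm_num [unit])
    (check_cut₁ (c := 1044480) (by norm_num [unit]) part23_22_ok (check_cut₂ (c := 610304) (by
    norm_num [unit]) part23_23_ok part23_24_ok)) (check_cut₁ (c := 1044480) (by norm_num [unit])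
    part23_25_ok (check_cut₂ (c := 618496) (by norm_num [unit]) part23_26_ok part23_27_ok))))))
    (check_cut₁ (c := 1032192) (by norm_num [unit]) part23_28_ok (check_cut₂ (c := 638976) (by
    norm_num [unit]) (check_cut₁ (c := 1040384) (by norm_num [unit]) part23_29_ok (check_cut₂ (c
    := 630784) (by norm_num [unit]) part23_30_ok part23_31_ok)) (check_cut₁ (c := 1040384) (by
    norm_num [unit]) part23_32_ok (check_cut₂ (c := 647168) (by norm_num [unit]) part23_33_ok
    part23_34_ok)))))))) (check_cut₁ (c := 983040) (by norm_num [unit]) part23_35_ok (check_cut₂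
    (c := 720896) (by norm_num [unit]) (check_cut₁ (c := 1015808) (by norm_num [unit])
    (check_cut₂ (c := 688128) (by norm_num [unit]) part23_36_ok part23_37_ok) (check_cut₂ (c := 688128)
    (by norm_num [unit]) (check_cut₁ (c := 1032192) (by norm_num [unit]) part23_38_ok
    (check_cut₂ (c := 671744) (by norm_num [unit]) part23_39_ok part23_40_ok)) part23_41_ok))
    (check_cut₁ (c := 1015808) (by norm_num [unit]) part23_42_ok part23_43_ok))))) (check_cut₁
    (c := 917504) (by norm_num [unit]) part23_44_ok (check_cut₂ (c := 917504) (by norm_num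
    [unit]) (check_cut₁ (c := 983040) (by norm_num [unit]) (check_cut₂ (c := 851968) (by
    norm_num [unit]) part23_45_ok (check_cut₁ (c := 950272) (by norm_num [unit]) part23_46_ok
    (check_cut₂ (c := 884736) (by norm_num [unit]) (check_cut₁ (c := 966656) (by norm_num
    [unit]) part23_47_ok (check_cut₂ (c := 868352) (by norm_num [unit]) part23_48_ok
    part23_49_ok)) part23_50_ok))) (check_cut₂ (c := 851968) (by norm_num [unit]) part23_51_ok
    part23_52_ok)) part23_53_ok))))))

end Vale.Agent.P237.Quant.WindowCert
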