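import Vale.Agent.P237.Quant.WindowCheck

/-!
The window certificate of the moment excess in dimension 24. The cuts are checked in parts, so
that no kernel computation grows too large.
-/

namespace Vale.Agent.P237.Quant.WindowCert

/-- The shared data in dimension 24. -/
def data24 : Cert where
  m := 23
  s := 321117
  q := 705858
  c := 1079565
  κ := 428621
  I := 52348
  zone₀ := [
    ⟨0, 1048577⟩, ⟨6422, 1048596⟩, ⟨12845, 1048655⟩, ⟨19267, 1048754⟩, ⟨25689, 1048891⟩,
    ⟨32112, 1049069⟩, ⟨38534, 1049285⟩, ⟨44956, 1049542⟩, ⟨51379, 1049838⟩, ⟨57801, 1050173⟩,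
    ⟨64223, 1050549⟩, ⟨70646, 1050964⟩, ⟨77068, 1051420⟩, ⟨83490, 1051916⟩, ⟨89913, 1052453⟩,
    ⟨96335, 1053030⟩, ⟨102757, 1053648⟩, ⟨109180, 1054307⟩, ⟨115602, 1055008⟩, ⟨122024, 1055749⟩,
    ⟨128447, 1056533⟩, ⟨134869, 1057359⟩, ⟨141291, 1058227⟩, ⟨147714, 1059138⟩, ⟨154136, 1060092⟩,
    ⟨160558, 1061089⟩, ⟨166981, 1062130⟩, ⟨173403, 1063215⟩, ⟨179826, 1064345⟩, ⟨186248, 1065519⟩,
    ⟨192670, 1066739⟩, ⟨199093, 1068004⟩, ⟨205515, 1069316⟩, ⟨211937, 1070674⟩, ⟨218360, 1072080⟩,
    ⟨224782, 1073533⟩, ⟨231204, 1075035⟩, ⟨237627, 1076585⟩, ⟨244049, 1078185⟩, ⟨250471, 1079835⟩,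
    ⟨256894, 1081537⟩, ⟨263316, 1083289⟩, ⟨269738, 1085093⟩, ⟨276161, 1086951⟩, ⟨282583, 1088862⟩,
    ⟨289005, 1090827⟩, ⟨295428, 1092848⟩, ⟨301850, 1094924⟩, ⟨308272, 1097057⟩, ⟨314695, 1099249⟩,
    ⟨321117, 1101499⟩]
  zone₁ := [
    ⟨321117, 1101499⟩, ⟨327529, 1103805⟩, ⟨333942, 1106172⟩, ⟨340354, 1108601⟩, ⟨346766, 1111092⟩,
    ⟨353179, 1113647⟩, ⟨359591, 1116267⟩, ⟨366003, 1118953⟩, ⟨372416, 1121707⟩, ⟨378828, 1124529⟩,
    ⟨385240, 1127422⟩, ⟨391653, 1130387⟩, ⟨398065, 1133424⟩, ⟨404478, 1136536⟩, ⟨410890, 1139724⟩,
    ⟨417302, 1142989⟩, ⟨423715, 1146335⟩, ⟨430127, 1149761⟩, ⟨436539, 1153270⟩, ⟨442952, 1156865⟩,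
    ⟨449364, 1160547⟩, ⟨455776, 1164317⟩, ⟨462189, 1168179⟩, ⟨468601, 1172134⟩, ⟨475013, 1176185⟩,
    ⟨481426, 1180334⟩, ⟨487838, 1184584⟩, ⟨494250, 1188937⟩, ⟨500663, 1193397⟩, ⟨507075, 1197965⟩,
    ⟨513488, 1202646⟩, ⟨519900, 1207442⟩, ⟨526312, 1212356⟩, ⟨532725, 1217392⟩, ⟨539137, 1222554⟩,
    ⟨545549, 1227844⟩, ⟨551962, 1233268⟩, ⟨558374, 1238829⟩, ⟨564786, 1244531⟩, ⟨571199, 1250380⟩,
    ⟨577611, 1256378⟩, ⟨584023, 1262533⟩, ⟨590436, 1268849⟩, ⟨596848, 1275330⟩, ⟨603260, 1281983⟩,
    ⟨609673, 1288816⟩, ⟨616085, 1295832⟩, ⟨622497, 1303038⟩, ⟨628910, 1310445⟩, ⟨635322, 1318055⟩,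
    ⟨641734, 1325879⟩, ⟨648147, 1333926⟩, ⟨654559, 1342202⟩, ⟨660972, 1350720⟩, ⟨667384, 1359485⟩,
    ⟨673796, 1368511⟩, ⟨680209, 1377809⟩, ⟨686621, 1387389⟩, ⟨693033, 1397264⟩, ⟨699446, 1407450⟩,
    ⟨705858, 1417957⟩]
  zone₂ := [
    ⟨705858, 1417957⟩, ⟨718320, 1439359⟩, ⟨730627, 1461869⟩, ⟨742777, 1485564⟩, ⟨754768, 1510528⟩,
    ⟨766598, 1536856⟩, ⟨778265, 1564652⟩, ⟨789767, 1594032⟩, ⟨801101, 1625123⟩, ⟨812264, 1658069⟩,
    ⟨823254, 1693031⟩, ⟨834068, 1730191⟩, ⟨844704, 1769757⟩, ⟨855157, 1811955⟩, ⟨865426, 1857057⟩,
    ⟨875506, 1905361⟩, ⟨885394, 1957217⟩, ⟨895087, 2013033⟩, ⟨904579, 2073265⟩, ⟨913867, 2138470⟩,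
    ⟨922947, 2209297⟩, ⟨931813, 2286504⟩, ⟨940460, 2371011⟩, ⟨948882, 2463920⟩, ⟨957073, 2566580⟩,
    ⟨965027, 2680664⟩, ⟨972736, 2808239⟩, ⟨980192, 2951933⟩, ⟨987387, 3115145⟩, ⟨994309, 3302251⟩,
    ⟨1000949, 3519222⟩, ⟨1007294, 3774172⟩, ⟨1013329, 4078538⟩, ⟨1019037, 4449051⟩,
    ⟨1024399, 4911358⟩, ⟨1029390, 5506662⟩, ⟨1033981, 6306659⟩, ⟨1038132, 7447930⟩,
    ⟨1041793, 9233736⟩, ⟨1044884, 12506525⟩, ⟨1047271, 21023973⟩]

theorem data24_wf : data24.wf = true := by decide +kernel

theorem data24_const : constOk data24 = true := by decide +kernel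

/-- A part of the boxes. -/
def part24_0 : Tree :=
  .out

theorem part24_0_ok : part24_0.check data24 0 524288 0 1048576 = true := by
  decide +kernel

/-- A part of the boxes. -/
def part24_1 : Tree :=
  .cut₁ (.box 1144831 5184445) (.cut₂ (.out) (.cut₁ (.box 1057178 3204163) (.cut₂ (.out)
  (.cut₁ (.box 1057178 3204163) (.cut₂ (.out) (.cut₁ (.box 1057178 3204163) (.box 1003006 3204163)))))))

theorem part24_1_ok : part24_1.check data24 524288 1048576 0 524288 = true := by
  decide +kernel

/-- A part of the boxes. -/
def part24_2 : Tree :=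
  .out

theorem part24_2_ok : part24_2.check data24 524288 786432 524288 1048576 = true := by
  decide +kernel

/-- A part of the boxes. -/
def part24_3 : Tree :=
  .box 1057178 3204163

theorem part24_3_ok : part24_3.check data24 786432 917504 524288 786432 = true := by
  decide +kernel

/-- A part of the boxes. -/
def part24_4 : Tree :=
  .cut₂ (.box 1057178 3204163) (.cut₁ (.box 1057178 3204163) (.box 1036486 3204163))

theorem part24_4_ok : part24_4.check data24 917504 983040 524288 655360 = true := by
  decide +kernel

/-- A part of the boxes. -/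
def part24_5 : Tree :=
  .cut₂ (.box 1023698 3204163) (.cut₁ (.box 1023698 3204163) (.box 1023698 1980282))

theorem part24_5_ok : part24_5.check data24 983040 1015808 524288 589824 = true := by
  decide +kernel

/-- A part of the boxes. -/
def part24_6 : Tree :=
  .cut₁ (.box 1010910 3204163) (.cut₂ (.box 1003006 3204163) (.cut₁ (.box 1003006 1980282)
  (.box 1006025 1223881)))

theorem part24_6_ok : part24_6.check data24 1015808 1048576 524288 557056 = true := by
  decide +kernel

/-- A part of the boxes. -/
def part24_7 : Tree :=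
  .box 1015794 756400

theorem part24_7_ok : part24_7.check data24 1015808 1032192 557056 589824 = true := by
  decide +kernel

/-- A part of the boxes. -/
def part24_8 : Tree :=
  .box 1010910 756400

theorem part24_8_ok : part24_8.check data24 1032192 1040384 557056 573440 = true := by
  decide +kernel

/-- A part of the boxes. -/
def part24_9 : Tree :=
  .cut₂ (.cut₁ (.box 1003006 1223881) (.cut₂ (.box 1003006 1223881) (.box 1004159 824605)))
  (.cut₁ (.box 1003006 756400) (.cut₂ (.cut₁ (.box 1003006 756400) (.box 1003006 756400))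
  (.cut₁ (.box 1003006 756400) (.box 1003006 646043))))

theorem part24_9_ok : part24_9.check data24 1040384 1048576 557056 573440 = true := by
  decide +kernel

/-- A part of the boxes. -/
def part24_10 : Tree :=
  .box 1007891 756400

theorem part24_10_ok : part24_10.check data24 1032192 1040384 573440 589824 = true := by
  decide +kernel

/-- A part of the boxes. -/
def part24_11 : Tree :=
  .cut₁ (.box 1003006 756400) (.cut₂ (.cut₁ (.box 1003006 756400) (.box 1004159 619991))
  (.cut₁ (.box 1003006 756400) (.box 1005312 577838)))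

theorem part24_11_ok : part24_11.check data24 1040384 1048576 573440 581632 = true := by
  decide +kernel

/-- A part of the boxes. -/
def part24_12 : Tree :=
  .cut₁ (.box 1006025 646043) (.cut₂ (.cut₁ (.box 1003006 646043) (.box 1004872 577838))
  (.cut₁ (.box 1003006 646043) (.cut₂ (.box 1004872 577838) (.cut₁ (.box 1006025 577838) (.box 1004872 577838)))))

theorem part24_12_ok : part24_12.check data24 1040384 1048576 581632 589824 = true := by
  decide +kernel

/-- A part of the boxes. -/
def part24_13 : Tree :=
  .cut₂ (.cut₁ (.box 1023698 3204163) (.box 1018813 1223881)) (.cut₁ (.box 1023698 1223881)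
  (.cut₂ (.box 1023698 756400) (.box 1023698 824605)))

theorem part24_13_ok : part24_13.check data24 983040 1015808 589824 655360 = true := by
  decide +kernel

/-- A part of the boxes. -/
def part24_14 : Tree :=
  .cut₂ (.cut₁ (.box 1010910 1223881) (.box 1010910 756400)) (.cut₁ (.box 1023698 756400)
  (.box 1010910 756400))

theorem part24_14_ok : part24_14.check data24 1015808 1032192 589824 622592 = true := by
  decide +kernel

/-- A part of the boxes. -/
def part24_15 : Tree :=
  .box 1010910 646043

theorem part24_15_ok : part24_15.check data24 1032192 1040384 589824 606208 = true := by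
  decide +kernel

/-- A part of the boxes. -/
def part24_16 : Tree :=
  .box 1006025 646043

theorem part24_16_ok : part24_16.check data24 1040384 1044480 589824 598016 = true := by
  decide +kernel

/-- A part of the boxes. -/
def part24_17 : Tree :=
  .cut₁ (.box 1006025 577838) (.cut₂ (.box 1004159 577838) (.cut₁ (.box 1006025 577838) (.box 1004159 577838)))

theorem part24_17_ok : part24_17.check data24 1044480 1048576 589824 593920 = true := by
  decide +kernel

/-- A part of the boxes. -/
def part24_18 : Tree :=
  .cut₁ (.box 1006025 577838) (.cut₂ (.cut₁ (.box 1003006 577838) (.box 1004159 577838))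
  (.cut₁ (.box 1003006 577838) (.box 1003006 577838)))

theorem part24_18_ok : part24_18.check data24 1044480 1048576 593920 598016 = true := by
  decide +kernel

/-- A part of the boxes. -/
def part24_19 : Tree :=
  .box 1007891 577838

theorem part24_19_ok : part24_19.check data24 1040384 1044480 598016 606208 = true := by
  decide +kernel

/-- A part of the boxes. -/
def part24_20 : Tree :=
  .cut₁ (.box 1006025 577838) (.cut₂ (.cut₁ (.box 1003006 577838) (.box 1004159 577838))
  (.cut₁ (.box 1006025 577838) (.box 1004159 577838)))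

theorem part24_20_ok : part24_20.check data24 1044480 1048576 598016 602112 = true := by
  decide +kernel

/-- A part of the boxes. -/
def part24_21 : Tree :=
  .cut₁ (.box 1006025 577838) (.cut₂ (.cut₁ (.box 1003006 577838) (.box 1006025 535686))
  (.cut₁ (.box 1003006 577838) (.box 1004872 535686)))

theorem part24_21_ok : part24_21.check data24 1044480 1048576 602112 606208 = true := by
  decide +kernel

/-- A part of the boxes. -/
def part24_22 : Tree :=
  .cut₂ (.box 1010910 577838) (.cut₁ (.box 1010910 756400) (.box 1010910 577838))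

theorem part24_22_ok : part24_22.check data24 1032192 1040384 606208 622592 = true := by
  decide +kernel

/-- A part of the boxes. -/
def part24_23 : Tree :=
  .box 1007891 577838

theorem part24_23_ok : part24_23.check data24 1040384 1044480 606208 614400 = true := by
  decide +kernel

/-- A part of the boxes. -/
def part24_24 : Tree :=
  .cut₁ (.box 1006025 577838) (.cut₂ (.cut₁ (.box 1003006 577838) (.box 1004872 535686))
  (.cut₁ (.box 1003006 577838) (.box 1006025 509634)))

theorem part24_24_ok : part24_24.check data24 1044480 1048576 606208 610304 = true := by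
  decide +kernel

/-- A part of the boxes. -/
def part24_25 : Tree :=
  .cut₁ (.box 1005040 577838) (.cut₂ (.cut₁ (.box 1004159 577838) (.box 1006025 509634))
  (.cut₁ (.box 1006025 535686) (.cut₂ (.box 1006025 509634) (.box 1004872 509634))))

theorem part24_25_ok : part24_25.check data24 1044480 1048576 610304 614400 = true := by
  decide +kernel

/-- A part of the boxes. -/
def part24_26 : Tree :=
  .box 1007891 535686

theorem part24_26_ok : part24_26.check data24 1040384 1044480 614400 622592 = true := by
  decide +kernel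

/-- A part of the boxes. -/
def part24_27 : Tree :=
  .cut₁ (.box 1006025 535686) (.cut₂ (.cut₁ (.box 1007891 467481) (.box 1004872 509634))
  (.cut₁ (.box 1007891 467481) (.box 1005585 493533)))

theorem part24_27_ok : part24_27.check data24 1044480 1048576 614400 618496 = true := by
  decide +kernel

/-- A part of the boxes. -/
def part24_28 : Tree :=
  .cut₁ (.box 1007891 467481) (.cut₂ (.cut₁ (.box 1007891 467481) (.cut₂ (.box 1004872 509634)
  (.box 1005585 493533))) (.cut₁ (.box 1006025 467481) (.cut₂ (.box 1005585 493533) (.cut₁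
  (.box 1006025 467481) (.box 1006025 467481)))))

theorem part24_28_ok : part24_28.check data24 1044480 1048576 618496 622592 = true := by
  decide +kernel

/-- A part of the boxes. -/
def part24_29 : Tree :=
  .cut₂ (.cut₁ (.box 1015794 756400) (.box 1010910 646043)) (.cut₁ (.box 1015794 756400) (.box 1015794 577838))

theorem part24_29_ok : part24_29.check data24 1015808 1032192 622592 655360 = true := by
  decide +kernel

/-- A part of the boxes. -/
def part24_30 : Tree :=
  .cut₂ (.cut₁ (.box 1007891 756400) (.box 1010910 577838)) (.cut₁ (.box 1010910 577838) (.box 1010910 467481))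

theorem part24_30_ok : part24_30.check data24 1032192 1040384 622592 638976 = true := by
  decide +kernel

/-- A part of the boxes. -/
def part24_31 : Tree :=
  .cut₂ (.box 1007891 509634) (.box 1007891 509634)

theorem part24_31_ok : part24_31.check data24 1040384 1044480 622592 630784 = true := by
  decide +kernel

/-- A part of the boxes. -/
def part24_32 : Tree :=
  .cut₁ (.box 1007891 467481) (.cut₂ (.cut₁ (.box 1006025 467481) (.box 1006025 467481))
  (.cut₁ (.box 1006025 467481) (.cut₂ (.box 1006025 467481) (.box 1006025 467481))))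

theorem part24_32_ok : part24_32.check data24 1044480 1048576 622592 626688 = true := by
  decide +kernel

/-- A part of the boxes. -/
def part24_33 : Tree :=
  .cut₁ (.box 1007891 467481) (.cut₂ (.cut₁ (.box 1006025 467481) (.cut₂ (.box 1006025 467481)
  (.box 1005753 467481))) (.cut₁ (.box 1006025 467481) (.box 1006025 467481)))

theorem part24_33_ok : part24_33.check data24 1044480 1048576 626688 630784 = true := by
  decide +kernel

/-- A part of the boxes. -/
def part24_34 : Tree :=
  .cut₂ (.box 1009044 467481) (.box 1009044 467481)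

theorem part24_34_ok : part24_34.check data24 1040384 1044480 630784 638976 = true := by
  decide +kernel

/-- A part of the boxes. -/
def part24_35 : Tree :=
  .cut₁ (.box 1007891 467481) (.cut₂ (.cut₁ (.box 1006025 467481) (.box 1005585 467481))
  (.cut₁ (.box 1006025 467481) (.box 1006297 441429)))

theorem part24_35_ok : part24_35.check data24 1044480 1048576 630784 634880 = true := by
  decide +kernel

/-- A part of the boxes. -/
def part24_36 : Tree :=
  .cut₁ (.box 1006025 467481) (.cut₂ (.cut₁ (.box 1006025 467481) (.cut₂ (.box 1005312 467481)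
  (.box 1006025 441429))) (.cut₁ (.box 1006025 467481) (.box 1006025 441429)))

theorem part24_36_ok : part24_36.check data24 1044480 1048576 634880 638976 = true := by
  decide +kernel

/-- A part of the boxes. -/
def part24_37 : Tree :=
  .cut₂ (.cut₁ (.box 1013929 467481) (.box 1010910 467481)) (.cut₁ (.box 1010910 467481) (.box 1010910 467481))

theorem part24_37_ok : part24_37.check data24 1032192 1040384 638976 655360 = true := by
  decide +kernel

/-- A part of the boxes. -/
def part24_38 : Tree :=
  .cut₂ (.box 1007891 467481) (.box 1007891 467481)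

theorem part24_38_ok : part24_38.check data24 1040384 1044480 638976 647168 = true := by
  decide +kernel

/-- A part of the boxes. -/
def part24_39 : Tree :=
  .cut₁ (.box 1006025 467481) (.cut₂ (.cut₁ (.box 1006025 467481) (.box 1006025 441429))
  (.cut₁ (.box 1006025 467481) (.box 1006025 441429)))

theorem part24_39_ok : part24_39.check data24 1044480 1048576 638976 643072 = true := by
  decide +kernel

/-- A part of the boxes. -/
def part24_40 : Tree :=
  .cut₁ (.box 1006025 467481) (.cut₂ (.cut₁ (.box 1006025 467481) (.box 1006025 399277))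
  (.cut₁ (.box 1006025 467481) (.box 1006025 399277)))

theorem part24_40_ok : part24_40.check data24 1044480 1048576 643072 647168 = true := by
  decide +kernel

/-- A part of the boxes. -/
def part24_41 : Tree :=
  .cut₂ (.box 1007891 467481) (.box 1007891 467481)

theorem part24_41_ok : part24_41.check data24 1040384 1044480 647168 655360 = true := by
  decide +kernel

/-- A part of the boxes. -/
def part24_42 : Tree :=
  .cut₂ (.cut₁ (.box 1006025 467481) (.cut₂ (.cut₁ (.box 1006025 467481) (.box 1006025 399277))
  (.cut₁ (.box 1006025 467481) (.box 1006025 399277)))) (.cut₁ (.box 1006025 467481) (.box 1006738 399277))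

theorem part24_42_ok : part24_42.check data24 1044480 1048576 647168 655360 = true := by
  decide +kernel

/-- A part of the boxes. -/
def part24_43 : Tree :=
  .cut₂ (.cut₁ (.box 1057178 3204163) (.box 1036486 1980282)) (.cut₁ (.box 1057178 3204163)
  (.cut₂ (.box 1044390 1980282) (.box 1041371 1223881)))

theorem part24_43_ok : part24_43.check data24 917504 983040 655360 786432 = true := by
  decide +kernel

/-- A part of the boxes. -/
def part24_44 : Tree :=
  .cut₁ (.box 1023698 1223881) (.cut₂ (.cut₁ (.box 1023698 1223881) (.box 1023698 756400))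
  (.cut₁ (.box 1023698 756400) (.box 1023698 756400)))

theorem part24_44_ok : part24_44.check data24 983040 1015808 655360 688128 = true := by
  decide +kernel

/-- A part of the boxes. -/
def part24_45 : Tree :=
  .cut₁ (.box 1028583 934962) (.cut₂ (.cut₁ (.box 1023698 756400) (.box 1023698 756400))
  (.cut₁ (.box 1023698 756400) (.box 1015794 756400)))

theorem part24_45_ok : part24_45.check data24 983040 1015808 688128 720896 = true := by
  decide +kernel

/-- A part of the boxes. -/
def part24_46 : Tree :=
  .cut₂ (.cut₁ (.box 1015794 756400) (.box 1013929 577838)) (.cut₁ (.box 1015794 646043) (.box 1015082 467481))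

theorem part24_46_ok : part24_46.check data24 1015808 1032192 655360 688128 = true := by
  decide +kernel

/-- A part of the boxes. -/
def part24_47 : Tree :=
  .cut₂ (.cut₁ (.box 1010910 467481) (.box 1010910 467481)) (.cut₁ (.box 1010910 467481) (.box 1010910 467481))

theorem part24_47_ok : part24_47.check data24 1032192 1040384 655360 671744 = true := by
  decide +kernel

/-- A part of the boxes. -/
def part24_48 : Tree :=
  .cut₁ (.box 1009757 399277) (.cut₂ (.cut₁ (.box 1007891 399277) (.box 1006465 399277))
  (.cut₁ (.box 1007891 399277) (.box 1006025 399277)))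

theorem part24_48_ok : part24_48.check data24 1040384 1048576 655360 663552 = true := by
  decide +kernel

/-- A part of the boxes. -/
def part24_49 : Tree :=
  .cut₁ (.box 1010910 399277) (.cut₂ (.cut₁ (.box 1007891 399277) (.box 1007891 357124)) (.box 1007178 363274))

theorem part24_49_ok : part24_49.check data24 1040384 1048576 663552 671744 = true := by
  decide +kernel

/-- A part of the boxes. -/
def part24_50 : Tree :=
  .cut₁ (.cut₂ (.cut₁ (.box 1010910 467481) (.box 1010910 467481)) (.box 1010910 399277))
  (.cut₂ (.cut₁ (.box 1010910 399277) (.box 1007178 357124)) (.cut₁ (.box 1010910 357124)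
  (.box 1006025 357124)))

theorem part24_50_ok : part24_50.check data24 1032192 1048576 671744 688128 = true := by
  decide +kernel

/-- A part of the boxes. -/
def part24_51 : Tree :=
  .cut₂ (.cut₁ (.box 1015794 577838) (.box 1015794 467481)) (.cut₁ (.box 1015794 467481) (.box 1010910 467481))

theorem part24_51_ok : part24_51.check data24 1015808 1032192 688128 720896 = true := by
  decide +kernel

/-- A part of the boxes. -/
def part24_52 : Tree :=
  .cut₂ (.cut₁ (.box 1010910 399277) (.cut₂ (.cut₁ (.box 1010910 357124) (.box 1010910 288919))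
  (.box 1007891 288919))) (.cut₁ (.box 1010910 357124) (.box 1007891 288919))

theorem part24_52_ok : part24_52.check data24 1032192 1048576 688128 720896 = true := by
  decide +kernel

/-- A part of the boxes. -/
def part24_53 : Tree :=
  .cut₂ (.cut₁ (.box 1028583 756400) (.cut₂ (.cut₁ (.box 1023698 756400) (.box 1018813 756400))
  (.cut₁ (.box 1023698 756400) (.box 1018813 467481)))) (.cut₁ (.box 1028583 756400) (.box 1021664 519585))

theorem part24_53_ok : part24_53.check data24 983040 1015808 720896 786432 = true := by
  decide +kernel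

/-- A part of the boxes. -/
def part24_54 : Tree :=
  .cut₂ (.cut₁ (.cut₂ (.cut₁ (.box 1015794 467481) (.box 1010910 467481)) (.box 1015794 399277))
  (.cut₂ (.cut₁ (.box 1010910 288919) (.box 1010910 288919)) (.box 1010910 220715))) (.cut₁
  (.box 1015794 357124) (.box 1010910 178562))

theorem part24_54_ok : part24_54.check data24 1015808 1048576 720896 786432 = true := by
  decide +kernel

/-- A part of the boxes. -/
def part24_55 : Tree :=
  .out

theorem part24_55_ok : part24_55.check data24 786432 917504 786432 1048576 = true := by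
  decide +kernel

/-- A part of the boxes. -/
def part24_56 : Tree :=
  .cut₁ (.box 1057178 3204163) (.cut₂ (.cut₁ (.box 1057178 3204163) (.box 1036486 1223881))
  (.cut₁ (.box 1057178 3204163) (.box 1036486 934962)))

theorem part24_56_ok : part24_56.check data24 917504 983040 786432 851968 = true := by
  decide +kernel

/-- A part of the boxes. -/
def part24_57 : Tree :=
  .out

theorem part24_57_ok : part24_57.check data24 917504 950272 851968 917504 = true := by
  decide +kernel

/-- A part of the boxes. -/
def part24_58 : Tree :=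
  .cut₂ (.cut₁ (.out) (.cut₂ (.box 1044390 3204163) (.cut₁ (.out) (.cut₂ (.box 1044390 1980282)
  (.box 1044390 756400))))) (.cut₁ (.out) (.box 1046256 535686))

theorem part24_58_ok : part24_58.check data24 950272 966656 851968 884736 = true := by
  decide +kernel

/-- A part of the boxes. -/
def part24_59 : Tree :=
  .cut₁ (.cut₂ (.box 1036486 1223881) (.cut₁ (.box 1039505 756400) (.box 1036486 756400)))
  (.box 1036486 756400)

theorem part24_59_ok : part24_59.check data24 966656 983040 851968 868352 = true := by
  decide +kernel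

/-- A part of the boxes. -/
def part24_60 : Tree :=
  .cut₂ (.cut₁ (.cut₂ (.box 1041371 467481) (.box 1036486 467481)) (.cut₂ (.box 1036486 756400)
  (.box 1036486 467481))) (.cut₁ (.box 1036486 0) (.box 1036486 288919))

theorem part24_60_ok : part24_60.check data24 966656 974848 868352 884736 = true := by
  decide +kernel

/-- A part of the boxes. -/
def part24_61 : Tree :=
  .cut₂ (.box 1033468 467481) (.cut₁ (.box 1036486 467481) (.box 1036486 467481))

theorem part24_61_ok : part24_61.check data24 974848 983040 868352 884736 = true := by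
  decide +kernel

/-- A part of the boxes. -/
def part24_62 : Tree :=
  .cut₁ (.out) (.cut₂ (.cut₁ (.box 1036486 0) (.box 1036486 0)) (.box 1036486 0))

theorem part24_62_ok : part24_62.check data24 950272 983040 884736 917504 = true := by
  decide +kernel

/-- A part of the boxes. -/
def part24_63 : Tree :=
  .cut₁ (.cut₂ (.cut₁ (.box 1028583 756400) (.box 1023698 467481)) (.cut₁ (.box 1028583 646043)
  (.box 1023698 467481))) (.cut₂ (.box 1013929 178562) (.box 1015794 0))

theorem part24_63_ok : part24_63.check data24 983040 1048576 786432 851968 = true := by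
  decide +kernel

/-- A part of the boxes. -/
def part24_64 : Tree :=
  .cut₁ (.cut₂ (.cut₁ (.cut₂ (.box 1023698 467481) (.box 1023698 467481)) (.box 1018813 0))
  (.cut₁ (.box 1023698 0) (.box 1023698 0))) (.box 1023698 0)

theorem part24_64_ok : part24_64.check data24 983040 1048576 851968 917504 = true := by
  decide +kernel

/-- A part of the boxes. -/
def part24_65 : Tree :=
  .cut₁ (.out) (.cut₂ (.box 1023698 0) (.box 1003006 0))

theorem part24_65_ok : part24_65.check data24 917504 1048576 917504 1048576 = true := by
  decide +kernel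

/-- All the cuts in dimension 24. -/
def tree24 : Tree :=
  (Tree.cut₁ part24_0 (Tree.cut₂ part24_1 (Tree.cut₁ part24_2 (Tree.cut₂ (Tree.cut₁ part24_3
  (Tree.cut₂ (Tree.cut₁ part24_4 (Tree.cut₂ (Tree.cut₁ part24_5 (Tree.cut₂ part24_6 (Tree.cut₁
  part24_7 (Tree.cut₂ (Tree.cut₁ part24_8 part24_9) (Tree.cut₁ part24_10 (Tree.cut₂ part24_11
  part24_12)))))) (Tree.cut₁ part24_13 (Tree.cut₂ (Tree.cut₁ part24_14 (Tree.cut₂ (Tree.cut₁
  part24_15 (Tree.cut₂ (Tree.cut₁ part24_16 (Tree.cut₂ part24_17 part24_18)) (Tree.cut₁
  part24_19 (Tree.cut₂ part24_20 part24_21)))) (Tree.cut₁ part24_22 (Tree.cut₂ (Tree.cut₁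
  part24_23 (Tree.cut₂ part24_24 part24_25)) (Tree.cut₁ part24_26 (Tree.cut₂ part24_27
  part24_28)))))) (Tree.cut₁ part24_29 (Tree.cut₂ (Tree.cut₁ part24_30 (Tree.cut₂ (Tree.cut₁
  part24_31 (Tree.cut₂ part24_32 part24_33)) (Tree.cut₁ part24_34 (Tree.cut₂ part24_35
  part24_36)))) (Tree.cut₁ part24_37 (Tree.cut₂ (Tree.cut₁ part24_38 (Tree.cut₂ part24_39
  part24_40)) (Tree.cut₁ part24_41 part24_42))))))))) (Tree.cut₁ part24_43 (Tree.cut₂
  (Tree.cut₁ (Tree.cut₂ part24_44 part24_45) (Tree.cut₂ (Tree.cut₁ part24_46 (Tree.cut₂
  (Tree.cut₁ part24_47 (Tree.cut₂ part24_48 part24_49)) part24_50)) (Tree.cut₁ part24_51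
  part24_52))) (Tree.cut₁ part24_53 part24_54))))) (Tree.cut₁ part24_55 (Tree.cut₂ (Tree.cut₁
  (Tree.cut₂ part24_56 (Tree.cut₁ part24_57 (Tree.cut₂ (Tree.cut₁ part24_58 (Tree.cut₂
  part24_59 (Tree.cut₁ part24_60 part24_61))) part24_62))) (Tree.cut₂ part24_63 part24_64))
  part24_65))))))

theorem tree24_ok : tree24.check data24 0 unit 0 unit = true :=
    (check_cut₁ (c := 524288) (by norm_num [unit]) part24_0_ok (check_cut₂ (c := 524288) (by
    norm_num [unit]) part24_1_ok (check_cut₁ (c := 786432) (by norm_num [unit]) part24_2_ok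
    (check_cut₂ (c := 786432) (by norm_num [unit]) (check_cut₁ (c := 917504) (by norm_num
    [unit]) part24_3_ok (check_cut₂ (c := 655360) (by norm_num [unit]) (check_cut₁ (c := 983040)
    (by norm_num [unit]) part24_4_ok (check_cut₂ (c := 589824) (by norm_num [unit]) (check_cut₁
    (c := 1015808) (by norm_num [unit]) part24_5_ok (check_cut₂ (c := 557056) (by norm_num
    [unit]) part24_6_ok (check_cut₁ (c := 1032192) (by norm_num [unit]) part24_7_ok (check_cut₂
    (c := 573440) (by norm_num [unit]) (check_cut₁ (c := 1040384) (by norm_num [unit])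
    part24_8_ok part24_9_ok) (check_cut₁ (c := 1040384) (by norm_num [unit]) part24_10_ok
    (check_cut₂ (c := 581632) (by norm_num [unit]) part24_11_ok part24_12_ok)))))) (check_cut₁
    (c := 1015808) (by norm_num [unit]) part24_13_ok (check_cut₂ (c := 622592) (by norm_num
    [unit]) (check_cut₁ (c := 1032192) (by norm_num [unit]) part24_14_ok (check_cut₂ (c := 606208)
    (by norm_num [unit]) (check_cut₁ (c := 1040384) (by norm_num [unit]) part24_15_ok
    (check_cut₂ (c := 598016) (by norm_num [unit]) (check_cut₁ (c := 1044480) (by norm_num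
    [unit]) part24_16_ok (check_cut₂ (c := 593920) (by norm_num [unit]) part24_17_ok
    part24_18_ok)) (check_cut₁ (c := 1044480) (by norm_num [unit]) part24_19_ok (check_cut₂ (c
    := 602112) (by norm_num [unit]) part24_20_ok part24_21_ok)))) (check_cut₁ (c := 1040384) (by
    norm_num [unit]) part24_22_ok (check_cut₂ (c := 614400) (by norm_num [unit]) (check_cut₁ (c
    := 1044480) (by norm_num [unit]) part24_23_ok (check_cut₂ (c := 610304) (by norm_num [unit])
    part24_24_ok part24_25_ok)) (check_cut₁ (c := 1044480) (by norm_num [unit]) part24_26_ok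
    (check_cut₂ (c := 618496) (by norm_num [unit]) part24_27_ok part24_28_ok)))))) (check_cut₁
    (c := 1032192) (by norm_num [unit]) part24_29_ok (check_cut₂ (c := 638976) (by norm_num
    [unit]) (check_cut₁ (c := 1040384) (by norm_num [unit]) part24_30_ok (check_cut₂ (c := 630784)
    (by norm_num [unit]) (check_cut₁ (c := 1044480) (by norm_num [unit]) part24_31_ok
    (check_cut₂ (c := 626688) (by norm_num [unit]) part24_32_ok part24_33_ok)) (check_cut₁ (c := 1044480)
    (by norm_num [unit]) part24_34_ok (check_cut₂ (c := 634880) (by norm_num [unit])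
    part24_35_ok part24_36_ok)))) (check_cut₁ (c := 1040384) (by norm_num [unit]) part24_37_ok
    (check_cut₂ (c := 647168) (by norm_num [unit]) (check_cut₁ (c := 1044480) (by norm_num
    [unit]) part24_38_ok (check_cut₂ (c := 643072) (by norm_num [unit]) part24_39_ok
    part24_40_ok)) (check_cut₁ (c := 1044480) (by norm_num [unit]) part24_41_ok
    part24_42_ok))))))))) (check_cut₁ (c := 983040) (by norm_num [unit]) part24_43_ok
    (check_cut₂ (c := 720896) (by norm_num [unit]) (check_cut₁ (c := 1015808) (by norm_num
    [unit]) (check_cut₂ (c := 688128) (by norm_num [unit]) part24_44_ok part24_45_ok)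
    (check_cut₂ (c := 688128) (by norm_num [unit]) (check_cut₁ (c := 1032192) (by norm_num
    [unit]) part24_46_ok (check_cut₂ (c := 671744) (by norm_num [unit]) (check_cut₁ (c := 1040384)
    (by norm_num [unit]) part24_47_ok (check_cut₂ (c := 663552) (by norm_num [unit])
    part24_48_ok part24_49_ok)) part24_50_ok)) (check_cut₁ (c := 1032192) (by norm_num [unit])
    part24_51_ok part24_52_ok))) (check_cut₁ (c := 1015808) (by norm_num [unit]) part24_53_ok
    part24_54_ok))))) (check_cut₁ (c := 917504) (by norm_num [unit]) part24_55_ok (check_cut₂ (c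
    := 917504) (by norm_num [unit]) (check_cut₁ (c := 983040) (by norm_num [unit]) (check_cut₂
    (c := 851968) (by norm_num [unit]) part24_56_ok (check_cut₁ (c := 950272) (by norm_num
    [unit]) part24_57_ok (check_cut₂ (c := 884736) (by norm_num [unit]) (check_cut₁ (c := 966656)
    (by norm_num [unit]) part24_58_ok (check_cut₂ (c := 868352) (by norm_num [unit])
    part24_59_ok (check_cut₁ (c := 974848) (by norm_num [unit]) part24_60_ok part24_61_ok)))
    part24_62_ok))) (check_cut₂ (c := 851968) (by norm_num [unit]) part24_63_ok part24_64_ok))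
    part24_65_ok))))))

end Vale.Agent.P237.Quant.WindowCert
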