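import Vale.Agent.P237.Quant.WindowCheck

/-!
The window certificate of the moment excess in dimension 6. The cuts are checked in parts, so
that no kernel computation grows too large.
-/

namespace Vale.Agent.P237.Quant.WindowCert

/-- The shared data in dimension 6. -/
def data6 : Cert where
  m := 5
  s := 587168
  q := 971492
  c := 1177251
  κ := 779318
  I := 32190
  zone₀ := [
    ⟨0, 1048577⟩, ⟨22583, 1048820⟩, ⟨45167, 1049551⟩, ⟨67750, 1050772⟩, ⟨90334, 1052489⟩,
    ⟨112917, 1054710⟩, ⟨135500, 1057443⟩, ⟨158084, 1060700⟩, ⟨180667, 1064496⟩, ⟨203250, 1068848⟩,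
    ⟨225834, 1073776⟩, ⟨248417, 1079302⟩, ⟨271001, 1085454⟩, ⟨293584, 1092262⟩, ⟨316167, 1099760⟩,
    ⟨338751, 1107988⟩, ⟨361334, 1116990⟩, ⟨383918, 1126820⟩, ⟨406501, 1137533⟩, ⟨429084, 1149198⟩,
    ⟨451668, 1161891⟩, ⟨474251, 1175698⟩, ⟨496834, 1190721⟩, ⟨519418, 1207077⟩, ⟨542001, 1224900⟩,
    ⟨564585, 1244350⟩, ⟨587168, 1265610⟩]
  zone₁ := [
    ⟨587168, 1265610⟩, ⟨595903, 1274364⟩, ⟨604637, 1283435⟩, ⟨613372, 1292840⟩, ⟨622107, 1302594⟩,
    ⟨630841, 1312715⟩, ⟨639576, 1323222⟩, ⟨648310, 1334134⟩, ⟨657045, 1345475⟩, ⟨665780, 1357269⟩,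
    ⟨674514, 1369538⟩, ⟨683249, 1382315⟩, ⟨691984, 1395628⟩, ⟨700718, 1409508⟩, ⟨709453, 1423995⟩,
    ⟨718188, 1439125⟩, ⟨726922, 1454941⟩, ⟨735657, 1471493⟩, ⟨744391, 1488829⟩, ⟨753126, 1507011⟩,
    ⟨761861, 1526100⟩, ⟨770595, 1546164⟩, ⟨779330, 1567287⟩, ⟨788065, 1589552⟩, ⟨796799, 1613057⟩,
    ⟨805534, 1637916⟩, ⟨814269, 1664252⟩, ⟨823003, 1692202⟩, ⟨831738, 1721936⟩, ⟨840472, 1753631⟩,
    ⟨849207, 1787507⟩, ⟨857942, 1823809⟩, ⟨866676, 1862819⟩, ⟨875411, 1904885⟩, ⟨884146, 1950405⟩,
    ⟨892880, 1999850⟩, ⟨901615, 2053810⟩, ⟨910350, 2112983⟩, ⟨919084, 2178228⟩, ⟨927819, 2250644⟩,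
    ⟨936553, 2331589⟩, ⟨945288, 2422854⟩, ⟨954023, 2526767⟩, ⟨962757, 2646465⟩, ⟨971492, 2786344⟩]
  zone₂ := [
    ⟨971492, 2786344⟩, ⟨975445, 2857865⟩, ⟨979327, 2934064⟩, ⟨983138, 3015460⟩, ⟨986877, 3102632⟩,
    ⟨990542, 3196226⟩, ⟨994131, 3296992⟩, ⟨997643, 3405840⟩, ⟨1001076, 3523814⟩,
    ⟨1004428, 3652157⟩, ⟨1007697, 3792358⟩, ⟨1010882, 3946275⟩, ⟨1013979, 4116024⟩,
    ⟨1016986, 4304334⟩, ⟨1019901, 4514637⟩, ⟨1022720, 4751143⟩, ⟨1025440, 5019375⟩,
    ⟨1028058, 5326628⟩, ⟨1030568, 5682309⟩, ⟨1032967, 6099857⟩, ⟨1035249, 6597859⟩,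
    ⟨1037407, 7203397⟩, ⟨1039435, 7958599⟩, ⟨1041322, 8929940⟩, ⟨1043057, 10233564⟩,
    ⟨1044627, 12093461⟩, ⟨1046011, 15000542⟩, ⟨1047180, 20327631⟩, ⟨1048082, 34164303⟩]

theorem data6_wf : data6.wf = true := by decide +kernel

theorem data6_const : constOk data6 = true := by decide +kernel

/-- A part of the boxes. -/
def part6_0 : Tree :=
  .box 1286656 5184445

theorem part6_0_ok : part6_0.check data6 0 524288 0 1048576 = true := by
  decide +kernel

/-- A part of the boxes. -/
def part6_1 : Tree :=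
  .cut₂ (.box 1057178 3204163) (.cut₁ (.box 1286656 5184445) (.cut₂ (.box 915353 5184445)
  (.cut₁ (.box 915353 5184445) (.cut₂ (.box 915353 5184445) (.cut₁ (.box 915353 5184445) (.box 969526 1980282))))))

theorem part6_1_ok : part6_1.check data6 524288 786432 0 524288 = true := by
  decide +kernel

/-- A part of the boxes. -/
def part6_2 : Tree :=
  .cut₁ (.box 915353 1223881) (.cut₂ (.out) (.cut₁ (.box 881873 1223881) (.cut₂ (.box 915353 5184445)
  (.cut₁ (.box 861181 1223881) (.box 827701 756400)))))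

theorem part6_2_ok : part6_2.check data6 786432 1048576 0 262144 = true := by
  decide +kernel

/-- A part of the boxes. -/
def part6_3 : Tree :=
  .cut₂ (.cut₁ (.box 915353 1223881) (.box 915353 756400)) (.cut₁ (.cut₂ (.box 936045 756400)
  (.cut₁ (.box 969526 756400) (.box 915353 756400))) (.cut₂ (.box 915353 467481) (.box 915353 467481)))

theorem part6_3_ok : part6_3.check data6 786432 917504 262144 524288 = true := by
  decide +kernel

/-- A part of the boxes. -/
def part6_4 : Tree :=
  .cut₂ (.cut₁ (.box 886758 467481) (.cut₂ (.box 861181 357124) (.box 861181 288919))) (.cut₁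
  (.box 881873 288919) (.box 861181 288919))

theorem part6_4_ok : part6_4.check data6 917504 1048576 262144 524288 = true := by
  decide +kernel

/-- A part of the boxes. -/
def part6_5 : Tree :=
  .out

theorem part6_5_ok : part6_5.check data6 524288 655360 524288 786432 = true := by
  decide +kernel

/-- A part of the boxes. -/
def part6_6 : Tree :=
  .out

theorem part6_6_ok : part6_6.check data6 655360 720896 524288 655360 = true := by
  decide +kernel

/-- A part of the boxes. -/
def part6_7 : Tree :=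
  .cut₂ (.cut₁ (.box 915353 5184445) (.box 1003006 3204163)) (.cut₁ (.out) (.box 990218 3204163))

theorem part6_7_ok : part6_7.check data6 720896 753664 524288 589824 = true := by
  decide +kernel

/-- A part of the boxes. -/
def part6_8 : Tree :=
  .cut₁ (.box 969526 1223881) (.box 969526 756400)

theorem part6_8_ok : part6_8.check data6 753664 786432 524288 557056 = true := by
  decide +kernel

/-- A part of the boxes. -/
def part6_9 : Tree :=
  .cut₂ (.cut₁ (.cut₂ (.box 990218 1223881) (.box 982314 467481)) (.cut₂ (.box 969526 756400)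
  (.box 969526 467481))) (.cut₁ (.box 990218 756400) (.box 969526 288919))

theorem part6_9_ok : part6_9.check data6 753664 770048 557056 589824 = true := by
  decide +kernel

/-- A part of the boxes. -/
def part6_10 : Tree :=
  .cut₂ (.cut₁ (.box 966507 756400) (.box 969526 756400)) (.cut₁ (.cut₂ (.box 969526 467481)
  (.box 969526 467481)) (.box 956737 399277))

theorem part6_10_ok : part6_10.check data6 770048 786432 557056 589824 = true := by
  decide +kernel

/-- A part of the boxes. -/
def part6_11 : Tree :=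
  .cut₁ (.out) (.cut₂ (.cut₁ (.out) (.cut₂ (.box 961622 288919) (.box 969526 0))) (.out))

theorem part6_11_ok : part6_11.check data6 720896 786432 589824 655360 = true := by
  decide +kernel

/-- A part of the boxes. -/
def part6_12 : Tree :=
  .out

theorem part6_12_ok : part6_12.check data6 655360 786432 655360 786432 = true := by
  decide +kernel

/-- A part of the boxes. -/
def part6_13 : Tree :=
  .out

theorem part6_13_ok : part6_13.check data6 524288 786432 786432 1048576 = true := by
  decide +kernel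

/-- A part of the boxes. -/
def part6_14 : Tree :=
  .cut₁ (.cut₂ (.box 948834 756400) (.cut₁ (.cut₂ (.box 948834 756400) (.box 946151 395476))
  (.box 936045 467481))) (.box 915353 467481)

theorem part6_14_ok : part6_14.check data6 786432 851968 524288 589824 = true := by
  decide +kernel

/-- A part of the boxes. -/
def part6_15 : Tree :=
  .cut₁ (.cut₂ (.cut₁ (.cut₂ (.box 948834 288919) (.box 948834 0)) (.box 936045 288919)) (.box 948834 0))
  (.box 915353 288919)

theorem part6_15_ok : part6_15.check data6 786432 851968 589824 655360 = true := by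
  decide +kernel

/-- A part of the boxes. -/
def part6_16 : Tree :=
  .box 902565 288919

theorem part6_16_ok : part6_16.check data6 851968 917504 524288 655360 = true := by
  decide +kernel

/-- A part of the boxes. -/
def part6_17 : Tree :=
  .cut₁ (.box 915353 0) (.box 915353 0)

theorem part6_17_ok : part6_17.check data6 786432 917504 655360 786432 = true := by
  decide +kernel

/-- A part of the boxes. -/
def part6_18 : Tree :=
  .box 881873 0

theorem part6_18_ok : part6_18.check data6 917504 1048576 524288 786432 = true := by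
  decide +kernel

/-- A part of the boxes. -/
def part6_19 : Tree :=
  .box 915353 0

theorem part6_19_ok : part6_19.check data6 786432 1048576 786432 1048576 = true := by
  decide +kernel

/-- All the cuts in dimension 6. -/
def tree6 : Tree :=
  (Tree.cut₁ part6_0 (Tree.cut₂ (Tree.cut₁ part6_1 (Tree.cut₂ part6_2 (Tree.cut₁ part6_3
  part6_4))) (Tree.cut₁ (Tree.cut₂ (Tree.cut₁ part6_5 (Tree.cut₂ (Tree.cut₁ part6_6 (Tree.cut₂
  (Tree.cut₁ part6_7 (Tree.cut₂ part6_8 (Tree.cut₁ part6_9 part6_10))) part6_11)) part6_12))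
  part6_13) (Tree.cut₂ (Tree.cut₁ (Tree.cut₂ (Tree.cut₁ (Tree.cut₂ part6_14 part6_15)
  part6_16) part6_17) part6_18) part6_19))))

theorem tree6_ok : tree6.check data6 0 unit 0 unit = true :=
    (check_cut₁ (c := 524288) (by norm_num [unit]) part6_0_ok (check_cut₂ (c := 524288) (by
    norm_num [unit]) (check_cut₁ (c := 786432) (by norm_num [unit]) part6_1_ok (check_cut₂ (c := 262144)
    (by norm_num [unit]) part6_2_ok (check_cut₁ (c := 917504) (by norm_num [unit]) part6_3_ok
    part6_4_ok))) (check_cut₁ (c := 786432) (by norm_num [unit]) (check_cut₂ (c := 786432) (by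
    norm_num [unit]) (check_cut₁ (c := 655360) (by norm_num [unit]) part6_5_ok (check_cut₂ (c := 655360)
    (by norm_num [unit]) (check_cut₁ (c := 720896) (by norm_num [unit]) part6_6_ok (check_cut₂
    (c := 589824) (by norm_num [unit]) (check_cut₁ (c := 753664) (by norm_num [unit]) part6_7_ok
    (check_cut₂ (c := 557056) (by norm_num [unit]) part6_8_ok (check_cut₁ (c := 770048) (by
    norm_num [unit]) part6_9_ok part6_10_ok))) part6_11_ok)) part6_12_ok)) part6_13_ok)
    (check_cut₂ (c := 786432) (by norm_num [unit]) (check_cut₁ (c := 917504) (by norm_num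
    [unit]) (check_cut₂ (c := 655360) (by norm_num [unit]) (check_cut₁ (c := 851968) (by
    norm_num [unit]) (check_cut₂ (c := 589824) (by norm_num [unit]) part6_14_ok part6_15_ok)
    part6_16_ok) part6_17_ok) part6_18_ok) part6_19_ok))))

end Vale.Agent.P237.Quant.WindowCert
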