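import Vale.Agent.P237.Quant.WindowCheck

/-!
The window certificate of the moment excess in dimension 7. The cuts are checked in parts, so
that no kernel computation grows too large.
-/

namespace Vale.Agent.P237.Quant.WindowCert

/-- The shared data in dimension 7. -/
def data7 : Cert where
  m := 6
  s := 552495
  q := 951340
  c := 1158116
  κ := 734785
  I := 36149
  zone₀ := [
    ⟨0, 1048577⟩, ⟨21250, 1048792⟩, ⟨42500, 1049439⟩, ⟨63749, 1050520⟩, ⟨84999, 1052039⟩,
    ⟨106249, 1054001⟩, ⟨127499, 1056415⟩, ⟨148749, 1059289⟩, ⟨169998, 1062635⟩, ⟨191248, 1066465⟩,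
    ⟨212498, 1070795⟩, ⟨233748, 1075643⟩, ⟨254998, 1081029⟩, ⟨276248, 1086976⟩, ⟨297497, 1093510⟩,
    ⟨318747, 1100662⟩, ⟨339997, 1108464⟩, ⟨361247, 1116954⟩, ⟨382497, 1126176⟩, ⟨403746, 1136177⟩,
    ⟨424996, 1147013⟩, ⟨446246, 1158745⟩, ⟨467496, 1171446⟩, ⟨488746, 1185194⟩, ⟨509995, 1200083⟩,
    ⟨531245, 1216219⟩, ⟨552495, 1233725⟩]
  zone₁ := [
    ⟨552495, 1233725⟩, ⟨561560, 1241644⟩, ⟨570624, 1249849⟩, ⟨579689, 1258356⟩, ⟨588754, 1267176⟩,
    ⟨597818, 1276325⟩, ⟨606883, 1285821⟩, ⟨615948, 1295680⟩, ⟨625012, 1305919⟩, ⟨634077, 1316561⟩,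
    ⟨643142, 1327627⟩, ⟨652206, 1339138⟩, ⟨661271, 1351123⟩, ⟨670336, 1363608⟩, ⟨679400, 1376621⟩,
    ⟨688465, 1390198⟩, ⟨697530, 1404374⟩, ⟨706594, 1419184⟩, ⟨715659, 1434676⟩, ⟨724724, 1450894⟩,
    ⟨733788, 1467887⟩, ⟨742853, 1485717⟩, ⟨751918, 1504444⟩, ⟨760982, 1524136⟩, ⟨770047, 1544875⟩,
    ⟨779111, 1566743⟩, ⟨788176, 1589843⟩, ⟨797241, 1614281⟩, ⟨806305, 1640179⟩, ⟨815370, 1667683⟩,
    ⟨824435, 1696950⟩, ⟨833499, 1728162⟩, ⟨842564, 1761537⟩, ⟨851629, 1797318⟩, ⟨860693, 1835788⟩,
    ⟨869758, 1877294⟩, ⟨878823, 1922230⟩, ⟨887887, 1971071⟩, ⟨896952, 2024404⟩, ⟨906017, 2082929⟩,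
    ⟨915081, 2147507⟩, ⟨924146, 2219241⟩, ⟨933211, 2299505⟩, ⟨942275, 2390077⟩, ⟨951340, 2493334⟩]
  zone₂ := [
    ⟨951340, 2493334⟩, ⟨956326, 2556643⟩, ⟨961223, 2624126⟩, ⟨966031, 2696245⟩, ⟨970747, 2773488⟩,
    ⟨975370, 2856453⟩, ⟨979897, 2945800⟩, ⟨984327, 3042344⟩, ⟨988658, 3147029⟩, ⟨992886, 3260924⟩,
    ⟨997010, 3385395⟩, ⟨1001027, 3522040⟩, ⟨1004934, 3672816⟩, ⟨1008728, 3840143⟩,
    ⟨1012404, 4026955⟩, ⟨1015961, 4237209⟩, ⟨1019392, 4475644⟩, ⟨1022694, 4748786⟩,
    ⟨1025861, 5065162⟩, ⟨1028887, 5436525⟩, ⟨1031765, 5879438⟩, ⟨1034487, 6418131⟩,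
    ⟨1037045, 7090040⟩, ⟨1039425, 7954268⟩, ⟨1041615, 9115302⟩, ⟨1043595, 10770677⟩,
    ⟨1045341, 13359277⟩, ⟨1046815, 18100377⟩, ⟨1047953, 30423234⟩]

theorem data7_wf : data7.wf = true := by decide +kernel

theorem data7_const : constOk data7 = true := by decide +kernel

/-- A part of the boxes. -/
def part7_0 : Tree :=
  .box 1286656 5184445

theorem part7_0_ok : part7_0.check data7 0 524288 0 1048576 = true := by
  decide +kernel

/-- A part of the boxes. -/
def part7_1 : Tree :=
  .cut₂ (.box 1057178 3204163) (.cut₁ (.box 1286656 5184445) (.box 1057178 3204163))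

theorem part7_1_ok : part7_1.check data7 524288 786432 0 524288 = true := by
  decide +kernel

/-- A part of the boxes. -/
def part7_2 : Tree :=
  .cut₁ (.box 915353 5184445) (.cut₂ (.out) (.cut₁ (.box 915353 5184445) (.box 881873 1980282)))

theorem part7_2_ok : part7_2.check data7 786432 1048576 0 262144 = true := by
  decide +kernel

/-- A part of the boxes. -/
def part7_3 : Tree :=
  .cut₂ (.cut₁ (.box 915353 5184445) (.box 948834 756400)) (.cut₁ (.box 985333 1045320) (.cut₂
  (.box 948834 756400) (.box 948834 577838)))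

theorem part7_3_ok : part7_3.check data7 786432 917504 262144 524288 = true := by
  decide +kernel

/-- A part of the boxes. -/
def part7_4 : Tree :=
  .cut₁ (.cut₂ (.box 915353 756400) (.box 923257 467481)) (.cut₂ (.cut₁ (.box 881873 756400)
  (.box 881873 467481)) (.cut₁ (.box 915353 467481) (.box 881873 288919)))

theorem part7_4_ok : part7_4.check data7 917504 1048576 262144 393216 = true := by
  decide +kernel

/-- A part of the boxes. -/
def part7_5 : Tree :=
  .cut₁ (.cut₂ (.box 915353 467481) (.box 915353 288919)) (.box 902565 178562)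

theorem part7_5_ok : part7_5.check data7 917504 1048576 393216 524288 = true := by
  decide +kernel

/-- A part of the boxes. -/
def part7_6 : Tree :=
  .cut₂ (.cut₁ (.out) (.cut₂ (.cut₁ (.out) (.cut₂ (.cut₁ (.box 915353 5184445) (.box 1003006 3204163))
  (.cut₁ (.out) (.cut₂ (.cut₁ (.out) (.box 1010910 3204163)) (.out))))) (.out))) (.out)

theorem part7_6_ok : part7_6.check data7 524288 786432 524288 1048576 = true := by
  decide +kernel

/-- A part of the boxes. -/
def part7_7 : Tree :=
  .cut₁ (.cut₂ (.box 1003006 1980282) (.cut₁ (.box 1003006 1223881) (.box 1003006 1223881)))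
  (.box 969526 756400)

theorem part7_7_ok : part7_7.check data7 786432 851968 524288 589824 = true := by
  decide +kernel

/-- A part of the boxes. -/
def part7_8 : Tree :=
  .cut₁ (.cut₂ (.box 1003006 1223881) (.cut₁ (.box 1003006 756400) (.box 1003006 756400)))
  (.cut₂ (.box 1003006 1223881) (.cut₁ (.box 1003006 756400) (.box 1003006 756400)))

theorem part7_8_ok : part7_8.check data7 786432 802816 589824 606208 = true := by
  decide +kernel

/-- A part of the boxes. -/
def part7_9 : Tree :=
  .cut₁ (.box 1003006 467481) (.cut₂ (.cut₁ (.box 1003006 467481) (.box 990218 467481)) (.box 995102 288919))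

theorem part7_9_ok : part7_9.check data7 786432 802816 606208 622592 = true := by
  decide +kernel

/-- A part of the boxes. -/
def part7_10 : Tree :=
  .cut₁ (.cut₂ (.box 1003006 1223881) (.box 990218 756400)) (.box 969526 756400)

theorem part7_10_ok : part7_10.check data7 802816 819200 589824 606208 = true := by
  decide +kernel

/-- A part of the boxes. -/
def part7_11 : Tree :=
  .cut₁ (.cut₂ (.cut₁ (.box 990218 467481) (.box 982314 467481)) (.cut₁ (.box 990218 467481)
  (.box 982314 467481))) (.cut₂ (.box 982314 467481) (.box 982314 467481))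

theorem part7_11_ok : part7_11.check data7 802816 819200 606208 622592 = true := by
  decide +kernel

/-- A part of the boxes. -/
def part7_12 : Tree :=
  .cut₁ (.box 1003006 288919) (.cut₂ (.cut₁ (.box 990218 288919) (.box 980448 288919)) (.box 1003006 288919))

theorem part7_12_ok : part7_12.check data7 786432 819200 622592 655360 = true := by
  decide +kernel

/-- A part of the boxes. -/
def part7_13 : Tree :=
  .cut₂ (.cut₁ (.cut₂ (.box 969526 756400) (.cut₁ (.box 969526 467481) (.box 969526 467481)))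
  (.box 969526 467481)) (.cut₁ (.cut₂ (.cut₁ (.box 969526 288919) (.box 969526 467481)) (.box 969526 288919))
  (.box 956737 288919))

theorem part7_13_ok : part7_13.check data7 819200 851968 589824 655360 = true := by
  decide +kernel

/-- A part of the boxes. -/
def part7_14 : Tree :=
  .cut₂ (.box 942251 437628) (.cut₁ (.box 940930 357124) (.box 936045 467481))

theorem part7_14_ok : part7_14.check data7 851968 917504 524288 655360 = true := by
  decide +kernel

/-- A part of the boxes. -/
def part7_15 : Tree :=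
  .cut₁ (.cut₂ (.cut₁ (.out) (.cut₂ (.cut₁ (.box 969526 0) (.box 969526 0)) (.box 969526 0)))
  (.out)) (.box 936045 0)

theorem part7_15_ok : part7_15.check data7 786432 917504 655360 786432 = true := by
  decide +kernel

/-- A part of the boxes. -/
def part7_16 : Tree :=
  .cut₂ (.box 915353 178562) (.box 915353 0)

theorem part7_16_ok : part7_16.check data7 917504 1048576 524288 786432 = true := by
  decide +kernel

/-- A part of the boxes. -/
def part7_17 : Tree :=
  .box 936045 0

theorem part7_17_ok : part7_17.check data7 786432 1048576 786432 1048576 = true := by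
  decide +kernel

/-- All the cuts in dimension 7. -/
def tree7 : Tree :=
  (Tree.cut₁ part7_0 (Tree.cut₂ (Tree.cut₁ part7_1 (Tree.cut₂ part7_2 (Tree.cut₁ part7_3
  (Tree.cut₂ part7_4 part7_5)))) (Tree.cut₁ part7_6 (Tree.cut₂ (Tree.cut₁ (Tree.cut₂
  (Tree.cut₁ (Tree.cut₂ part7_7 (Tree.cut₁ (Tree.cut₂ (Tree.cut₁ (Tree.cut₂ part7_8 part7_9)
  (Tree.cut₂ part7_10 part7_11)) part7_12) part7_13)) part7_14) part7_15) part7_16)
  part7_17))))

theorem tree7_ok : tree7.check data7 0 unit 0 unit = true :=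
    (check_cut₁ (c := 524288) (by norm_num [unit]) part7_0_ok (check_cut₂ (c := 524288) (by
    norm_num [unit]) (check_cut₁ (c := 786432) (by norm_num [unit]) part7_1_ok (check_cut₂ (c := 262144)
    (by norm_num [unit]) part7_2_ok (check_cut₁ (c := 917504) (by norm_num [unit]) part7_3_ok
    (check_cut₂ (c := 393216) (by norm_num [unit]) part7_4_ok part7_5_ok)))) (check_cut₁ (c := 786432)
    (by norm_num [unit]) part7_6_ok (check_cut₂ (c := 786432) (by norm_num [unit]) (check_cut₁
    (c := 917504) (by norm_num [unit]) (check_cut₂ (c := 655360) (by norm_num [unit])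
    (check_cut₁ (c := 851968) (by norm_num [unit]) (check_cut₂ (c := 589824) (by norm_num
    [unit]) part7_7_ok (check_cut₁ (c := 819200) (by norm_num [unit]) (check_cut₂ (c := 622592)
    (by norm_num [unit]) (check_cut₁ (c := 802816) (by norm_num [unit]) (check_cut₂ (c := 606208)
    (by norm_num [unit]) part7_8_ok part7_9_ok) (check_cut₂ (c := 606208) (by norm_num [unit])
    part7_10_ok part7_11_ok)) part7_12_ok) part7_13_ok)) part7_14_ok) part7_15_ok) part7_16_ok)
    part7_17_ok))))

end Vale.Agent.P237.Quant.WindowCert
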