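import Vale.Agent.P237.Quant.WindowCheck

/-!
The window certificate of the moment excess in dimension 8. The cuts are checked in parts, so
that no kernel computation grows too large.
-/

namespace Vale.Agent.P237.Quant.WindowCert

/-- The shared data in dimension 8. -/
def data8 : Cert where
  m := 7
  s := 523266
  q := 931540
  c := 1143925
  κ := 696782
  I := 39637
  zone₀ := [
    ⟨0, 1048577⟩, ⟨20126, 1048770⟩, ⟨40251, 1049350⟩, ⟨60377, 1050319⟩, ⟨80502, 1051680⟩,
    ⟨100628, 1053439⟩, ⟨120754, 1055599⟩, ⟨140879, 1058170⟩, ⟨161005, 1061160⟩, ⟨181131, 1064580⟩,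
    ⟨201256, 1068441⟩, ⟨221382, 1072758⟩, ⟨241507, 1077546⟩, ⟨261633, 1082825⟩, ⟨281759, 1088613⟩,
    ⟨301884, 1094935⟩, ⟨322010, 1101817⟩, ⟨342135, 1109286⟩, ⟨362261, 1117377⟩, ⟨382387, 1126126⟩,
    ⟨402512, 1135574⟩, ⟨422638, 1145767⟩, ⟨442764, 1156759⟩, ⟨462889, 1168606⟩, ⟨483015, 1181378⟩,
    ⟨503140, 1195149⟩, ⟨523266, 1210007⟩]
  zone₁ := [
    ⟨523266, 1210007⟩, ⟨532545, 1217249⟩, ⟨541824, 1224755⟩, ⟨551103, 1232534⟩, ⟨560382, 1240599⟩,
    ⟨569661, 1248963⟩, ⟨578940, 1257641⟩, ⟨588219, 1266647⟩, ⟨597498, 1275997⟩, ⟨606777, 1285708⟩,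
    ⟨616056, 1295799⟩, ⟨625334, 1306290⟩, ⟨634613, 1317203⟩, ⟨643892, 1328562⟩, ⟨653171, 1340391⟩,
    ⟨662450, 1352718⟩, ⟨671729, 1365572⟩, ⟨681008, 1378987⟩, ⟨690287, 1392998⟩, ⟨699566, 1407644⟩,
    ⟨708845, 1422966⟩, ⟨718124, 1439012⟩, ⟨727403, 1455833⟩, ⟨736682, 1473486⟩, ⟨745961, 1492033⟩,
    ⟨755240, 1511545⟩, ⟨764519, 1532099⟩, ⟨773798, 1553783⟩, ⟨783077, 1576692⟩, ⟨792356, 1600938⟩,
    ⟨801635, 1626645⟩, ⟨810914, 1653953⟩, ⟨820193, 1683024⟩, ⟨829472, 1714042⟩, ⟨838750, 1747217⟩,
    ⟨848029, 1782803⟩, ⟨857308, 1821086⟩, ⟨866587, 1862407⟩, ⟨875866, 1907167⟩, ⟨885145, 1955851⟩,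
    ⟨894424, 2009042⟩, ⟨903703, 2067451⟩, ⟨912982, 2131960⟩, ⟨922261, 2203673⟩, ⟨931540, 2283994⟩]
  zone₂ := [
    ⟨931540, 2283994⟩, ⟨937541, 2341357⟩, ⟨943436, 2402536⟩, ⟨949223, 2467934⟩, ⟨954899, 2537999⟩,
    ⟨960463, 2613279⟩, ⟨965912, 2694383⟩, ⟨971244, 2782044⟩, ⟨976457, 2877127⟩, ⟨981546, 2980604⟩,
    ⟨986510, 3093724⟩, ⟨991345, 3217937⟩, ⟨996047, 3355009⟩, ⟨1000613, 3507161⟩,
    ⟨1005039, 3677148⟩, ⟨1009319, 3868385⟩, ⟨1013449, 4085379⟩, ⟨1017423, 4333960⟩,
    ⟨1021235, 4621972⟩, ⟨1024877, 4960070⟩, ⟨1028342, 5363513⟩, ⟨1031619, 5854278⟩,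
    ⟨1034697, 6466178⟩, ⟨1037562, 7253637⟩, ⟨1040197, 8311093⟩, ⟨1042581, 9820010⟩,
    ⟨1044682, 12178407⟩, ⟨1046456, 16498201⟩, ⟨1047827, 27747352⟩]

theorem data8_wf : data8.wf = true := by decide +kernel

theorem data8_const : constOk data8 = true := by decide +kernel

/-- A part of the boxes. -/
def part8_0 : Tree :=
  .box 1286656 5184445

theorem part8_0_ok : part8_0.check data8 0 524288 0 1048576 = true := by
  decide +kernel

/-- A part of the boxes. -/
def part8_1 : Tree :=
  .box 1090659 3204163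

theorem part8_1_ok : part8_1.check data8 524288 786432 0 524288 = true := by
  decide +kernel

/-- A part of the boxes. -/
def part8_2 : Tree :=
  .cut₁ (.box 915353 5184445) (.box 915353 5184445)

theorem part8_2_ok : part8_2.check data8 786432 1048576 0 262144 = true := by
  decide +kernel

/-- A part of the boxes. -/
def part8_3 : Tree :=
  .cut₂ (.cut₁ (.box 1057178 3204163) (.box 969526 1223881)) (.cut₁ (.box 1057178 3204163)
  (.cut₂ (.box 969526 756400) (.cut₁ (.box 969526 1223881) (.box 969526 756400))))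

theorem part8_3_ok : part8_3.check data8 786432 917504 262144 524288 = true := by
  decide +kernel

/-- A part of the boxes. -/
def part8_4 : Tree :=
  .cut₁ (.cut₂ (.box 936045 1223881) (.box 948834 619991)) (.cut₂ (.cut₁ (.box 915353 756400)
  (.box 910469 467481)) (.cut₁ (.box 915353 467481) (.box 915353 399277)))

theorem part8_4_ok : part8_4.check data8 917504 1048576 262144 393216 = true := by
  decide +kernel

/-- A part of the boxes. -/
def part8_5 : Tree :=
  .cut₁ (.cut₂ (.cut₁ (.box 948834 756400) (.box 936045 467481)) (.box 945815 399277)) (.cut₂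
  (.cut₁ (.box 915353 467481) (.box 915353 288919)) (.box 915353 288919))

theorem part8_5_ok : part8_5.check data8 917504 1048576 393216 524288 = true := by
  decide +kernel

/-- A part of the boxes. -/
def part8_6 : Tree :=
  .cut₂ (.cut₁ (.out) (.box 1057178 3204163)) (.out)

theorem part8_6_ok : part8_6.check data8 524288 786432 524288 1048576 = true := by
  decide +kernel

/-- A part of the boxes. -/
def part8_7 : Tree :=
  .cut₁ (.box 1057178 3204163) (.box 1003006 1223881)

theorem part8_7_ok : part8_7.check data8 786432 851968 524288 589824 = true := by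
  decide +kernel

/-- A part of the boxes. -/
def part8_8 : Tree :=
  .cut₂ (.cut₁ (.box 1057178 3204163) (.box 1003006 3204163)) (.cut₁ (.out) (.cut₂ (.cut₁
  (.box 1057178 3204163) (.cut₂ (.box 1023698 1223881) (.cut₁ (.box 1023698 1980282) (.cut₂
  (.box 1015794 756400) (.box 1015794 467481))))) (.cut₁ (.out) (.box 1023698 467481))))

theorem part8_8_ok : part8_8.check data8 786432 819200 589824 655360 = true := by
  decide +kernel

/-- A part of the boxes. -/
def part8_9 : Tree :=
  .cut₁ (.box 1003006 1223881) (.box 990218 756400)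

theorem part8_9_ok : part8_9.check data8 819200 851968 589824 622592 = true := by
  decide +kernel

/-- A part of the boxes. -/
def part8_10 : Tree :=
  .cut₁ (.cut₂ (.box 1015794 1223881) (.cut₁ (.cut₂ (.box 1003006 756400) (.box 1010910 577838))
  (.cut₂ (.box 1003006 756400) (.box 1003006 756400)))) (.cut₂ (.box 1003006 1223881) (.cut₁
  (.box 1003006 756400) (.box 1003006 756400)))

theorem part8_10_ok : part8_10.check data8 819200 835584 622592 638976 = true := by
  decide +kernel

/-- A part of the boxes. -/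
def part8_11 : Tree :=
  .cut₂ (.cut₁ (.cut₂ (.box 1003006 467481) (.box 1003006 467481)) (.cut₂ (.box 1003006 467481)
  (.box 1003006 467481))) (.cut₁ (.box 1003006 467481) (.box 1003006 467481))

theorem part8_11_ok : part8_11.check data8 819200 827392 638976 655360 = true := by
  decide +kernel

/-- A part of the boxes. -/
def part8_12 : Tree :=
  .cut₂ (.cut₁ (.cut₂ (.box 1003006 467481) (.box 1003006 467481)) (.cut₂ (.box 1003006 756400)
  (.box 1003006 467481))) (.cut₁ (.box 1003006 288919) (.box 998121 467481))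

theorem part8_12_ok : part8_12.check data8 827392 835584 638976 655360 = true := by
  decide +kernel

/-- A part of the boxes. -/
def part8_13 : Tree :=
  .cut₂ (.cut₁ (.box 990218 756400) (.box 990218 756400)) (.cut₁ (.cut₂ (.cut₁ (.box 990218 467481)
  (.box 995102 756400)) (.cut₁ (.box 1003006 467481) (.box 1003006 467481))) (.cut₂ (.box 982314 467481)
  (.box 990218 467481)))

theorem part8_13_ok : part8_13.check data8 835584 851968 622592 655360 = true := by
  decide +kernel

/-- A part of the boxes. -/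
def part8_14 : Tree :=
  .cut₂ (.cut₁ (.box 969526 756400) (.box 969526 756400)) (.cut₁ (.cut₂ (.box 982314 756400)
  (.cut₁ (.cut₂ (.box 982314 756400) (.box 969526 467481)) (.box 969526 467481))) (.box 969526 467481))

theorem part8_14_ok : part8_14.check data8 851968 917504 524288 655360 = true := by
  decide +kernel

/-- A part of the boxes. -/
def part8_15 : Tree :=
  .cut₂ (.cut₁ (.out) (.cut₂ (.cut₁ (.cut₂ (.cut₁ (.out) (.box 1003006 288919)) (.out)) (.cut₂
  (.cut₁ (.cut₂ (.box 990218 357124) (.box 1003006 288919)) (.cut₂ (.box 990218 467481) (.box 1003006 288919)))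
  (.box 990218 178562))) (.box 1003006 0))) (.out)

theorem part8_15_ok : part8_15.check data8 786432 851968 655360 786432 = true := by
  decide +kernel

/-- A part of the boxes. -/
def part8_16 : Tree :=
  .cut₂ (.cut₁ (.cut₂ (.cut₁ (.cut₂ (.box 977429 383176) (.box 969526 288919)) (.box 969526 288919))
  (.box 969526 178562)) (.box 948834 288919)) (.box 969526 0)

theorem part8_16_ok : part8_16.check data8 851968 917504 655360 786432 = true := by
  decide +kernel

/-- A part of the boxes. -/
def part8_17 : Tree :=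
  .cut₂ (.cut₁ (.box 943949 305020) (.box 915353 0)) (.box 915353 0)

theorem part8_17_ok : part8_17.check data8 917504 1048576 524288 786432 = true := by
  decide +kernel

/-- A part of the boxes. -/
def part8_18 : Tree :=
  .cut₁ (.box 982314 0) (.box 915353 0)

theorem part8_18_ok : part8_18.check data8 786432 1048576 786432 1048576 = true := by
  decide +kernel

/-- All the cuts in dimension 8. -/
def tree8 : Tree :=
  (Tree.cut₁ part8_0 (Tree.cut₂ (Tree.cut₁ part8_1 (Tree.cut₂ part8_2 (Tree.cut₁ part8_3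
  (Tree.cut₂ part8_4 part8_5)))) (Tree.cut₁ part8_6 (Tree.cut₂ (Tree.cut₁ (Tree.cut₂
  (Tree.cut₁ (Tree.cut₂ part8_7 (Tree.cut₁ part8_8 (Tree.cut₂ part8_9 (Tree.cut₁ (Tree.cut₂
  part8_10 (Tree.cut₁ part8_11 part8_12)) part8_13)))) part8_14) (Tree.cut₁ part8_15
  part8_16)) part8_17) part8_18))))

theorem tree8_ok : tree8.check data8 0 unit 0 unit = true :=
    (check_cut₁ (c := 524288) (by norm_num [unit]) part8_0_ok (check_cut₂ (c := 524288) (by
    norm_num [unit]) (check_cut₁ (c := 786432) (by norm_num [unit]) part8_1_ok (check_cut₂ (c := 262144)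
    (by norm_num [unit]) part8_2_ok (check_cut₁ (c := 917504) (by norm_num [unit]) part8_3_ok
    (check_cut₂ (c := 393216) (by norm_num [unit]) part8_4_ok part8_5_ok)))) (check_cut₁ (c := 786432)
    (by norm_num [unit]) part8_6_ok (check_cut₂ (c := 786432) (by norm_num [unit]) (check_cut₁
    (c := 917504) (by norm_num [unit]) (check_cut₂ (c := 655360) (by norm_num [unit])
    (check_cut₁ (c := 851968) (by norm_num [unit]) (check_cut₂ (c := 589824) (by norm_num
    [unit]) part8_7_ok (check_cut₁ (c := 819200) (by norm_num [unit]) part8_8_ok (check_cut₂ (c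
    := 622592) (by norm_num [unit]) part8_9_ok (check_cut₁ (c := 835584) (by norm_num [unit])
    (check_cut₂ (c := 638976) (by norm_num [unit]) part8_10_ok (check_cut₁ (c := 827392) (by
    norm_num [unit]) part8_11_ok part8_12_ok)) part8_13_ok)))) part8_14_ok) (check_cut₁ (c := 851968)
    (by norm_num [unit]) part8_15_ok part8_16_ok)) part8_17_ok) part8_18_ok))))

end Vale.Agent.P237.Quant.WindowCert
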