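import Vale.Agent.P237.Quant.WindowCheck

/-!
The window certificate of the moment excess in dimension 9. The cuts are checked in parts, so
that no kernel computation grows too large.
-/

namespace Vale.Agent.P237.Quant.WindowCert

/-- The shared data in dimension 9. -/
def data9 : Cert where
  m := 8
  s := 498203
  q := 912326
  c := 1132983
  κ := 663939
  I := 42768
  zone₀ := [
    ⟨0, 1048577⟩, ⟨19162, 1048752⟩, ⟨38323, 1049278⟩, ⟨57485, 1050156⟩, ⟨76647, 1051389⟩,
    ⟨95808, 1052981⟩, ⟨114970, 1054937⟩, ⟨134132, 1057262⟩, ⟨153293, 1059964⟩, ⟨172455, 1063052⟩,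
    ⟨191617, 1066536⟩, ⟨210778, 1070426⟩, ⟨229940, 1074735⟩, ⟨249102, 1079479⟩, ⟨268263, 1084674⟩,
    ⟨287425, 1090338⟩, ⟨306586, 1096492⟩, ⟨325748, 1103159⟩, ⟨344910, 1110364⟩, ⟨364071, 1118137⟩,
    ⟨383233, 1126509⟩, ⟨402395, 1135517⟩, ⟨421556, 1145200⟩, ⟨440718, 1155603⟩, ⟨459880, 1166778⟩,
    ⟨479041, 1178779⟩, ⟨498203, 1191674⟩]
  zone₁ := [
    ⟨498203, 1191674⟩, ⟨507615, 1198355⟩, ⟨517027, 1205279⟩, ⟨526439, 1212454⟩, ⟨535851, 1219893⟩,
    ⟨545262, 1227604⟩, ⟨554674, 1235603⟩, ⟨564086, 1243901⟩, ⟨573498, 1252513⟩, ⟨582910, 1261453⟩,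
    ⟨592322, 1270738⟩, ⟨601734, 1280384⟩, ⟨611146, 1290411⟩, ⟨620558, 1300838⟩, ⟨629969, 1311687⟩,
    ⟨639381, 1322983⟩, ⟨648793, 1334749⟩, ⟨658205, 1347015⟩, ⟨667617, 1359809⟩, ⟨677029, 1373164⟩,
    ⟨686441, 1387116⟩, ⟨695853, 1401704⟩, ⟨705264, 1416970⟩, ⟨714676, 1432962⟩, ⟨724088, 1449731⟩,
    ⟨733500, 1467335⟩, ⟨742912, 1485836⟩, ⟨752324, 1505305⟩, ⟨761736, 1525820⟩, ⟨771148, 1547469⟩,
    ⟨780560, 1570351⟩, ⟨789971, 1594572⟩, ⟨799383, 1620264⟩, ⟨808795, 1647568⟩, ⟨818207, 1676645⟩,
    ⟨827619, 1707682⟩, ⟨837031, 1740897⟩, ⟨846443, 1776538⟩, ⟨855855, 1814900⟩, ⟨865267, 1856329⟩,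
    ⟨874678, 1901229⟩, ⟨884090, 1950101⟩, ⟨893502, 2003536⟩, ⟨902914, 2062261⟩, ⟨912326, 2127177⟩]
  zone₂ := [
    ⟨912326, 2127177⟩, ⟨919312, 2180022⟩, ⟨926175, 2236409⟩, ⟨932912, 2296704⟩, ⟨939520, 2361329⟩,
    ⟨945997, 2430780⟩, ⟨952341, 2505641⟩, ⟨958549, 2586582⟩, ⟨964617, 2674383⟩, ⟨970542, 2769983⟩,
    ⟨976321, 2874514⟩, ⟨981949, 2989308⟩, ⟨987424, 3116059⟩, ⟨992739, 3256746⟩, ⟨997891, 3413955⟩,
    ⟨1002874, 3590888⟩, ⟨1007682, 3791677⟩, ⟨1012309, 4021770⟩, ⟨1016747, 4288391⟩,
    ⟨1020987, 4601427⟩, ⟨1025020, 4974931⟩, ⟨1028835, 5429428⟩, ⟨1032418, 5996125⟩,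
    ⟨1035754, 6725719⟩, ⟨1038822, 7705589⟩, ⟨1041596, 9102928⟩, ⟨1044043, 11289167⟩,
    ⟨1046108, 15292131⟩, ⟨1047704, 25716801⟩]

theorem data9_wf : data9.wf = true := by decide +kernel

theorem data9_const : constOk data9 = true := by decide +kernel

/-- A part of the boxes. -/
def part9_0 : Tree :=
  .box 1286656 5184445

theorem part9_0_ok : part9_0.check data9 0 524288 0 1048576 = true := by
  decide +kernel

/-- A part of the boxes. -/
def part9_1 : Tree :=
  .box 1057178 3204163

theorem part9_1_ok : part9_1.check data9 524288 786432 0 524288 = true := by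
  decide +kernel

/-- A part of the boxes. -/
def part9_2 : Tree :=
  .box 1003006 3204163

theorem part9_2_ok : part9_2.check data9 786432 1048576 0 262144 = true := by
  decide +kernel

/-- A part of the boxes. -/
def part9_3 : Tree :=
  .cut₂ (.cut₁ (.box 1057178 3204163) (.box 969526 3204163)) (.cut₁ (.box 1057178 3204163)
  (.cut₂ (.box 1003006 1223881) (.cut₁ (.box 1003006 3204163) (.box 969526 1223881))))

theorem part9_3_ok : part9_3.check data9 786432 917504 262144 524288 = true := by
  decide +kernel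

/-- A part of the boxes. -/
def part9_4 : Tree :=
  .cut₁ (.cut₂ (.box 948834 3204163) (.cut₁ (.box 969526 1223881) (.box 969526 756400)))
  (.cut₂ (.cut₁ (.box 936045 1980282) (.box 915353 1223881)) (.cut₁ (.box 948834 467481)
  (.cut₂ (.box 928142 467481) (.box 928142 467481))))

theorem part9_4_ok : part9_4.check data9 917504 1048576 262144 393216 = true := by
  decide +kernel

/-- A part of the boxes. -/
def part9_5 : Tree :=
  .cut₁ (.cut₂ (.cut₁ (.box 969526 756400) (.box 948834 756400)) (.cut₁ (.box 969526 756400)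
  (.box 969526 467481))) (.cut₂ (.cut₁ (.box 936045 467481) (.box 936045 288919)) (.cut₁ (.box 936045 467481)
  (.box 936045 288919)))

theorem part9_5_ok : part9_5.check data9 917504 1048576 393216 524288 = true := by
  decide +kernel

/-- A part of the boxes. -/
def part9_6 : Tree :=
  .box 1144831 3204163

theorem part9_6_ok : part9_6.check data9 524288 786432 524288 1048576 = true := by
  decide +kernel

/-- A part of the boxes. -/
def part9_7 : Tree :=
  .cut₂ (.box 1057178 3204163) (.cut₁ (.box 1057178 3204163) (.cut₂ (.box 1057178 3204163)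
  (.cut₁ (.box 1036486 3204163) (.cut₂ (.box 1003006 3204163) (.cut₁ (.box 1023698 1980282)
  (.box 1003006 1223881))))))

theorem part9_7_ok : part9_7.check data9 786432 851968 524288 655360 = true := by
  decide +kernel

/-- A part of the boxes. -/
def part9_8 : Tree :=
  .cut₂ (.cut₁ (.box 1003006 1980282) (.box 969526 756400)) (.cut₁ (.cut₂ (.box 1003006 1223881)
  (.cut₁ (.box 1003006 934962) (.box 1003006 756400))) (.box 982314 577838))

theorem part9_8_ok : part9_8.check data9 851968 917504 524288 655360 = true := by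
  decide +kernel

/-- A part of the boxes. -/
def part9_9 : Tree :=
  .out

theorem part9_9_ok : part9_9.check data9 786432 819200 655360 720896 = true := by
  decide +kernel

/-- A part of the boxes. -/
def part9_10 : Tree :=
  .cut₂ (.cut₁ (.out) (.box 1023698 3204163)) (.out)

theorem part9_10_ok : part9_10.check data9 819200 835584 655360 688128 = true := by
  decide +kernel

/-- A part of the boxes. -/
def part9_11 : Tree :=
  .cut₂ (.cut₁ (.cut₂ (.box 1023698 1980282) (.box 1023698 756400)) (.box 1018813 934962))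
  (.cut₁ (.box 1023698 467481) (.cut₂ (.cut₁ (.box 1023698 467481) (.box 1018813 756400))
  (.box 1023698 467481)))

theorem part9_11_ok : part9_11.check data9 835584 843776 655360 671744 = true := by
  decide +kernel

/-- A part of the boxes. -/
def part9_12 : Tree :=
  .cut₁ (.box 1015794 756400) (.box 1003006 756400)

theorem part9_12_ok : part9_12.check data9 843776 851968 655360 663552 = true := by
  decide +kernel

/-- A part of the boxes. -/
def part9_13 : Tree :=
  .cut₁ (.cut₂ (.cut₁ (.box 1015794 756400) (.box 1015794 756400)) (.cut₁ (.box 1023698 467481)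
  (.box 1023698 467481))) (.cut₂ (.box 1010910 756400) (.cut₁ (.box 1010910 467481) (.box 1003006 467481)))

theorem part9_13_ok : part9_13.check data9 843776 851968 663552 671744 = true := by
  decide +kernel

/-- A part of the boxes. -/
def part9_14 : Tree :=
  .cut₁ (.box 1023698 399277) (.cut₂ (.cut₁ (.cut₂ (.box 1015794 467481) (.box 1023698 467481))
  (.cut₂ (.box 1010910 467481) (.box 1015794 467481))) (.cut₁ (.box 1023698 467481) (.box 1003006 288919)))

theorem part9_14_ok : part9_14.check data9 835584 851968 671744 688128 = true := by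
  decide +kernel

/-- A part of the boxes. -/
def part9_15 : Tree :=
  .cut₁ (.out) (.box 1023698 288919)

theorem part9_15_ok : part9_15.check data9 819200 851968 688128 720896 = true := by
  decide +kernel

/-- A part of the boxes. -/
def part9_16 : Tree :=
  .out

theorem part9_16_ok : part9_16.check data9 786432 851968 720896 786432 = true := by
  decide +kernel

/-- A part of the boxes. -/
def part9_17 : Tree :=
  .cut₁ (.cut₂ (.box 1003006 756400) (.cut₁ (.cut₂ (.box 1003006 756400) (.box 1010910 467481))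
  (.box 1003006 756400))) (.cut₂ (.box 1003006 756400) (.box 1003006 756400))

theorem part9_17_ok : part9_17.check data9 851968 868352 655360 671744 = true := by
  decide +kernel

/-- A part of the boxes. -/
def part9_18 : Tree :=
  .cut₂ (.cut₁ (.cut₂ (.box 1003006 467481) (.box 1003006 467481)) (.cut₂ (.box 1003006 467481)
  (.box 1003006 467481))) (.cut₁ (.box 1003006 288919) (.box 1003006 288919))

theorem part9_18_ok : part9_18.check data9 851968 860160 671744 688128 = true := by
  decide +kernel

/-- A part of the boxes. -/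
def part9_19 : Tree :=
  .cut₂ (.cut₁ (.box 1003006 467481) (.box 1003006 467481)) (.cut₁ (.box 1003006 467481) (.box 1003006 467481))

theorem part9_19_ok : part9_19.check data9 860160 868352 671744 688128 = true := by
  decide +kernel

/-- A part of the boxes. -/
def part9_20 : Tree :=
  .cut₂ (.box 990218 646043) (.cut₁ (.box 993237 467481) (.box 990218 467481))

theorem part9_20_ok : part9_20.check data9 868352 884736 655360 688128 = true := by
  decide +kernel

/-- A part of the boxes. -/
def part9_21 : Tree :=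
  .cut₁ (.cut₂ (.cut₁ (.box 1010910 288919) (.cut₂ (.box 1003006 288919) (.box 1003006 0)))
  (.box 1003006 0)) (.cut₂ (.cut₁ (.box 990218 288919) (.box 990218 467481)) (.box 990218 288919))

theorem part9_21_ok : part9_21.check data9 851968 884736 688128 720896 = true := by
  decide +kernel

/-- A part of the boxes. -/
def part9_22 : Tree :=
  .cut₂ (.box 982314 467481) (.cut₁ (.box 982314 288919) (.box 969526 0))

theorem part9_22_ok : part9_22.check data9 884736 917504 655360 720896 = true := by
  decide +kernel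

/-- A part of the boxes. -/
def part9_23 : Tree :=
  .cut₁ (.box 998121 0) (.box 969526 0)

theorem part9_23_ok : part9_23.check data9 851968 917504 720896 786432 = true := by
  decide +kernel

/-- A part of the boxes. -/
def part9_24 : Tree :=
  .cut₂ (.cut₁ (.cut₂ (.cut₁ (.box 969526 467481) (.box 948834 467481)) (.box 961622 288919))
  (.box 936045 178562)) (.box 956737 68205)

theorem part9_24_ok : part9_24.check data9 917504 1048576 524288 786432 = true := by
  decide +kernel

/-- A part of the boxes. -/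
def part9_25 : Tree :=
  .cut₁ (.cut₂ (.cut₁ (.out) (.box 1003006 0)) (.out)) (.box 915353 0)

theorem part9_25_ok : part9_25.check data9 786432 1048576 786432 1048576 = true := by
  decide +kernel

/-- All the cuts in dimension 9. -/
def tree9 : Tree :=
  (Tree.cut₁ part9_0 (Tree.cut₂ (Tree.cut₁ part9_1 (Tree.cut₂ part9_2 (Tree.cut₁ part9_3
  (Tree.cut₂ part9_4 part9_5)))) (Tree.cut₁ part9_6 (Tree.cut₂ (Tree.cut₁ (Tree.cut₂
  (Tree.cut₁ part9_7 part9_8) (Tree.cut₁ (Tree.cut₂ (Tree.cut₁ part9_9 (Tree.cut₂ (Tree.cut₁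
  part9_10 (Tree.cut₂ (Tree.cut₁ part9_11 (Tree.cut₂ part9_12 part9_13)) part9_14)) part9_15))
  part9_16) (Tree.cut₂ (Tree.cut₁ (Tree.cut₂ (Tree.cut₁ (Tree.cut₂ part9_17 (Tree.cut₁
  part9_18 part9_19)) part9_20) part9_21) part9_22) part9_23))) part9_24) part9_25))))

theorem tree9_ok : tree9.check data9 0 unit 0 unit = true :=
    (check_cut₁ (c := 524288) (by norm_num [unit]) part9_0_ok (check_cut₂ (c := 524288) (by
    norm_num [unit]) (check_cut₁ (c := 786432) (by norm_num [unit]) part9_1_ok (check_cut₂ (c := 262144)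
    (by norm_num [unit]) part9_2_ok (check_cut₁ (c := 917504) (by norm_num [unit]) part9_3_ok
    (check_cut₂ (c := 393216) (by norm_num [unit]) part9_4_ok part9_5_ok)))) (check_cut₁ (c := 786432)
    (by norm_num [unit]) part9_6_ok (check_cut₂ (c := 786432) (by norm_num [unit]) (check_cut₁
    (c := 917504) (by norm_num [unit]) (check_cut₂ (c := 655360) (by norm_num [unit])
    (check_cut₁ (c := 851968) (by norm_num [unit]) part9_7_ok part9_8_ok) (check_cut₁ (c := 851968)
    (by norm_num [unit]) (check_cut₂ (c := 720896) (by norm_num [unit]) (check_cut₁ (c := 819200)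
    (by norm_num [unit]) part9_9_ok (check_cut₂ (c := 688128) (by norm_num [unit]) (check_cut₁
    (c := 835584) (by norm_num [unit]) part9_10_ok (check_cut₂ (c := 671744) (by norm_num
    [unit]) (check_cut₁ (c := 843776) (by norm_num [unit]) part9_11_ok (check_cut₂ (c := 663552)
    (by norm_num [unit]) part9_12_ok part9_13_ok)) part9_14_ok)) part9_15_ok)) part9_16_ok)
    (check_cut₂ (c := 720896) (by norm_num [unit]) (check_cut₁ (c := 884736) (by norm_num
    [unit]) (check_cut₂ (c := 688128) (by norm_num [unit]) (check_cut₁ (c := 868352) (by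
    norm_num [unit]) (check_cut₂ (c := 671744) (by norm_num [unit]) part9_17_ok (check_cut₁ (c
    := 860160) (by norm_num [unit]) part9_18_ok part9_19_ok)) part9_20_ok) part9_21_ok)
    part9_22_ok) part9_23_ok))) part9_24_ok) part9_25_ok))))

end Vale.Agent.P237.Quant.WindowCert
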