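import Vale.Agent.P237.Quant.WindowCheck

/-!
The window certificate of the moment excess in dimension 16. The cuts are checked in parts, so
that no kernel computation grows too large.
-/

namespace Vale.Agent.P237.Quant.WindowCert

/-- The shared data in dimension 16. -/
def data16 : Cert where
  m := 15
  s := 387137
  q := 798589
  c := 1095362
  κ := 516730
  I := 57982
  zone₀ := [
    ⟨0, 1048577⟩, ⟨14890, 1048682⟩, ⟨29780, 1049000⟩, ⟨44670, 1049529⟩, ⟨59560, 1050272⟩,
    ⟨74449, 1051229⟩, ⟨89339, 1052403⟩, ⟨104229, 1053795⟩, ⟨119119, 1055409⟩, ⟨134009, 1057246⟩,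
    ⟨148899, 1059311⟩, ⟨163789, 1061607⟩, ⟨178679, 1064140⟩, ⟨193568, 1066913⟩, ⟨208458, 1069932⟩,
    ⟨223348, 1073204⟩, ⟨238238, 1076736⟩, ⟨253128, 1080533⟩, ⟨268018, 1084605⟩, ⟨282908, 1088960⟩,
    ⟨297798, 1093607⟩, ⟨312688, 1098558⟩, ⟨327577, 1103823⟩, ⟨342467, 1109415⟩, ⟨357357, 1115347⟩,
    ⟨372247, 1121634⟩, ⟨387137, 1128291⟩]
  zone₁ := [
    ⟨387137, 1128291⟩, ⟨396488, 1132670⟩, ⟨405839, 1137206⟩, ⟨415191, 1141905⟩, ⟨424542, 1146772⟩,
    ⟨433893, 1151812⟩, ⟨443244, 1157031⟩, ⟨452595, 1162435⟩, ⟨461946, 1168031⟩, ⟨471298, 1173826⟩,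
    ⟨480649, 1179826⟩, ⟨490000, 1186040⟩, ⟨499351, 1192476⟩, ⟨508702, 1199142⟩, ⟨518054, 1206049⟩,
    ⟨527405, 1213206⟩, ⟨536756, 1220622⟩, ⟨546107, 1228311⟩, ⟨555458, 1236283⟩, ⟨564809, 1244552⟩,
    ⟨574161, 1253132⟩, ⟨583512, 1262036⟩, ⟨592863, 1271282⟩, ⟨602214, 1280886⟩, ⟨611565, 1290866⟩,
    ⟨620917, 1301244⟩, ⟨630268, 1312039⟩, ⟨639619, 1323274⟩, ⟨648970, 1334975⟩, ⟨658321, 1347169⟩,
    ⟨667672, 1359885⟩, ⟨677024, 1373157⟩, ⟨686375, 1387016⟩, ⟨695726, 1401503⟩, ⟨705077, 1416659⟩,
    ⟨714428, 1432531⟩, ⟨723780, 1449169⟩, ⟨733131, 1466628⟩, ⟨742482, 1484970⟩, ⟨751833, 1504264⟩,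
    ⟨761184, 1524587⟩, ⟨770535, 1546023⟩, ⟨779887, 1568671⟩, ⟨789238, 1592634⟩, ⟨798589, 1618037⟩]
  zone₂ := [
    ⟨798589, 1618037⟩, ⟨811407, 1655452⟩, ⟨823999, 1695500⟩, ⟨836359, 1738448⟩, ⟨848484, 1784615⟩,
    ⟨860368, 1834359⟩, ⟨872008, 1888110⟩, ⟨883397, 1946355⟩, ⟨894530, 2009678⟩, ⟨905402, 2078778⟩,
    ⟨916004, 2154464⟩, ⟨926332, 2237756⟩, ⟨936376, 2329853⟩, ⟨946129, 2432265⟩, ⟨955581, 2546855⟩,
    ⟨964724, 2676017⟩, ⟨973546, 2822791⟩, ⟨982035, 2991175⟩, ⟨990176, 3186481⟩, ⟨997956, 3416092⟩,
    ⟨1005356, 3690324⟩, ⟨1012355, 4024278⟩, ⟨1018930, 4441129⟩, ⟨1025050, 4978066⟩,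
    ⟨1030679, 5699751⟩, ⟨1035770, 6729894⟩, ⟨1040258, 8341390⟩, ⟨1044048, 11295385⟩,
    ⟨1046975, 18982572⟩]

theorem data16_wf : data16.wf = true := by decide +kernel

theorem data16_const : constOk data16 = true := by decide +kernel

/-- A part of the boxes. -/
def part16_0 : Tree :=
  .out

theorem part16_0_ok : part16_0.check data16 0 524288 0 1048576 = true := by
  decide +kernel

/-- A part of the boxes. -/
def part16_1 : Tree :=
  .box 1144831 3204163

theorem part16_1_ok : part16_1.check data16 524288 786432 0 524288 = true := by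
  decide +kernel

/-- A part of the boxes. -/
def part16_2 : Tree :=
  .out

theorem part16_2_ok : part16_2.check data16 786432 1048576 0 262144 = true := by
  decide +kernel

/-- A part of the boxes. -/
def part16_3 : Tree :=
  .box 1057178 3204163

theorem part16_3_ok : part16_3.check data16 786432 917504 262144 524288 = true := by
  decide +kernel

/-- A part of the boxes. -/
def part16_4 : Tree :=
  .box 1057178 3204163

theorem part16_4_ok : part16_4.check data16 917504 1048576 262144 393216 = true := by
  decide +kernel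

/-- A part of the boxes. -/
def part16_5 : Tree :=
  .cut₂ (.box 1003006 3204163) (.cut₁ (.box 1057178 3204163) (.box 1010910 1980282))

theorem part16_5_ok : part16_5.check data16 917504 983040 393216 524288 = true := by
  decide +kernel

/-- A part of the boxes. -/
def part16_6 : Tree :=
  .cut₁ (.box 1003006 3204163) (.cut₂ (.box 969526 3204163) (.cut₁ (.box 990218 3204163) (.box 982314 1223881)))

theorem part16_6_ok : part16_6.check data16 983040 1048576 393216 458752 = true := by
  decide +kernel

/-- A part of the boxes. -/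
def part16_7 : Tree :=
  .cut₂ (.box 1003006 756400) (.cut₁ (.box 1003006 1223881) (.box 1003006 756400))

theorem part16_7_ok : part16_7.check data16 983040 1015808 458752 524288 = true := by
  decide +kernel

/-- A part of the boxes. -/
def part16_8 : Tree :=
  .cut₁ (.box 990218 756400) (.cut₂ (.cut₁ (.box 982314 1223881) (.box 982314 756400)) (.cut₁
  (.box 982314 756400) (.box 982314 577838)))

theorem part16_8_ok : part16_8.check data16 1015808 1048576 458752 491520 = true := by
  decide +kernel

/-- A part of the boxes. -/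
def part16_9 : Tree :=
  .cut₁ (.box 990218 646043) (.cut₂ (.cut₁ (.box 990218 467481) (.box 985333 467481)) (.cut₁
  (.box 990218 467481) (.box 982314 467481)))

theorem part16_9_ok : part16_9.check data16 1015808 1048576 491520 524288 = true := by
  decide +kernel

/-- A part of the boxes. -/
def part16_10 : Tree :=
  .out

theorem part16_10_ok : part16_10.check data16 524288 786432 524288 1048576 = true := by
  decide +kernel

/-- A part of the boxes. -/
def part16_11 : Tree :=
  .cut₂ (.box 1057178 3204163) (.cut₁ (.out) (.cut₂ (.box 1057178 3204163) (.cut₁ (.out) (.box 1057178 3204163))))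

theorem part16_11_ok : part16_11.check data16 786432 917504 524288 786432 = true := by
  decide +kernel

/-- A part of the boxes. -/
def part16_12 : Tree :=
  .cut₂ (.cut₁ (.box 1057178 3204163) (.cut₂ (.box 1015794 1223881) (.box 1015794 934962)))
  (.cut₁ (.box 1036486 3204163) (.cut₂ (.cut₁ (.box 1023698 1980282) (.box 1003006 756400))
  (.cut₁ (.box 1023698 1223881) (.box 1003006 756400))))

theorem part16_12_ok : part16_12.check data16 917504 983040 524288 655360 = true := by
  decide +kernel

/-- A part of the boxes. -/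
def part16_13 : Tree :=
  .cut₂ (.cut₁ (.box 1003006 756400) (.box 998121 756400)) (.cut₁ (.box 1003006 756400) (.box 1003006 577838))

theorem part16_13_ok : part16_13.check data16 983040 1015808 524288 589824 = true := by
  decide +kernel

/-- A part of the boxes. -/
def part16_14 : Tree :=
  .cut₁ (.box 993237 535686) (.cut₂ (.cut₁ (.box 990218 467481) (.box 982314 467481)) (.cut₁
  (.box 982314 467481) (.box 982314 399277)))

theorem part16_14_ok : part16_14.check data16 1015808 1048576 524288 557056 = true := by
  decide +kernel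

/-- A part of the boxes. -/
def part16_15 : Tree :=
  .cut₁ (.box 993237 467481) (.cut₂ (.cut₁ (.box 982314 467481) (.box 982314 357124)) (.cut₁
  (.box 982314 467481) (.box 990218 288919)))

theorem part16_15_ok : part16_15.check data16 1015808 1048576 557056 589824 = true := by
  decide +kernel

/-- A part of the boxes. -/
def part16_16 : Tree :=
  .cut₁ (.cut₂ (.cut₁ (.box 1003006 756400) (.box 1003006 467481)) (.cut₁ (.box 1003006 577838)
  (.box 1003006 467481))) (.cut₂ (.cut₁ (.box 991371 467481) (.box 990218 288919)) (.cut₁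
  (.box 990218 288919) (.box 982314 288919)))

theorem part16_16_ok : part16_16.check data16 983040 1048576 589824 655360 = true := by
  decide +kernel

/-- A part of the boxes. -/
def part16_17 : Tree :=
  .cut₁ (.box 1036486 1980282) (.cut₂ (.cut₁ (.box 1023698 1223881) (.box 1003006 756400))
  (.cut₁ (.box 1023698 1223881) (.box 1010910 756400)))

theorem part16_17_ok : part16_17.check data16 917504 983040 655360 720896 = true := by
  decide +kernel

/-- A part of the boxes. -/
def part16_18 : Tree :=
  .cut₂ (.box 1031602 1045320) (.cut₁ (.cut₂ (.box 1057178 3204163) (.cut₁ (.box 1036486 3204163)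
  (.box 1036486 1223881))) (.box 1026717 866758))

theorem part16_18_ok : part16_18.check data16 917504 950272 720896 786432 = true := by
  decide +kernel

/-- A part of the boxes. -/
def part16_19 : Tree :=
  .cut₂ (.cut₁ (.box 1023698 756400) (.box 1010910 756400)) (.cut₁ (.box 1023698 756400) (.box 1003006 467481))

theorem part16_19_ok : part16_19.check data16 950272 983040 720896 786432 = true := by
  decide +kernel

/-- A part of the boxes. -/
def part16_20 : Tree :=
  .cut₂ (.cut₁ (.cut₂ (.cut₁ (.box 1003006 467481) (.box 1003006 467481)) (.box 1003006 357124))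
  (.box 990218 178562)) (.cut₁ (.box 1003006 288919) (.box 1003006 0))

theorem part16_20_ok : part16_20.check data16 983040 1048576 655360 786432 = true := by
  decide +kernel

/-- A part of the boxes. -/
def part16_21 : Tree :=
  .out

theorem part16_21_ok : part16_21.check data16 786432 917504 786432 1048576 = true := by
  decide +kernel

/-- A part of the boxes. -/
def part16_22 : Tree :=
  .cut₂ (.cut₁ (.box 1057178 3204163) (.cut₂ (.box 1036486 1223881) (.cut₁ (.box 1036486 3204163)
  (.box 1036486 756400)))) (.cut₁ (.out) (.box 1044390 756400))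

theorem part16_22_ok : part16_22.check data16 917504 925696 786432 802816 = true := by
  decide +kernel

/-- A part of the boxes. -/
def part16_23 : Tree :=
  .cut₁ (.cut₂ (.box 1036486 1223881) (.cut₁ (.box 1036486 756400) (.box 1036486 756400)))
  (.box 1031602 756400)

theorem part16_23_ok : part16_23.check data16 925696 933888 786432 794624 = true := by
  decide +kernel

/-- A part of the boxes. -/
def part16_24 : Tree :=
  .cut₁ (.cut₂ (.cut₁ (.box 1036486 467481) (.box 1036486 467481)) (.box 1036486 467481))
  (.cut₂ (.cut₁ (.box 1034621 756400) (.box 1036486 756400)) (.cut₁ (.box 1036486 467481)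
  (.box 1036486 467481)))

theorem part16_24_ok : part16_24.check data16 925696 933888 794624 802816 = true := by
  decide +kernel

/-- A part of the boxes. -/
def part16_25 : Tree :=
  .cut₁ (.out) (.cut₂ (.cut₁ (.box 1036486 467481) (.cut₂ (.box 1036486 467481) (.box 1036486 467481)))
  (.box 1036486 0))

theorem part16_25_ok : part16_25.check data16 917504 933888 802816 819200 = true := by
  decide +kernel

/-- A part of the boxes. -/
def part16_26 : Tree :=
  .cut₁ (.cut₂ (.box 1028583 756400) (.cut₁ (.cut₂ (.box 1031602 756400) (.box 1031602 467481))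
  (.box 1028583 467481))) (.box 1023698 646043)

theorem part16_26_ok : part16_26.check data16 933888 950272 786432 802816 = true := by
  decide +kernel

/-- A part of the boxes. -/
def part16_27 : Tree :=
  .cut₁ (.cut₂ (.cut₁ (.cut₂ (.box 1031602 467481) (.box 1031602 467481)) (.box 1028583 467481))
  (.cut₁ (.box 1036486 0) (.box 1023698 288919))) (.cut₂ (.box 1023698 467481) (.box 1023698 288919))

theorem part16_27_ok : part16_27.check data16 933888 950272 802816 819200 = true := by
  decide +kernel

/-- A part of the boxes. -/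
def part16_28 : Tree :=
  .cut₁ (.out) (.cut₂ (.cut₁ (.box 1023698 0) (.box 1023698 0)) (.box 1023698 0))

theorem part16_28_ok : part16_28.check data16 917504 950272 819200 851968 = true := by
  decide +kernel

/-- A part of the boxes. -/
def part16_29 : Tree :=
  .cut₂ (.cut₁ (.cut₂ (.box 1015794 467481) (.box 1015794 467481)) (.box 1003006 467481))
  (.cut₁ (.box 1015794 110357) (.box 1003006 0))

theorem part16_29_ok : part16_29.check data16 950272 983040 786432 851968 = true := by
  decide +kernel

/-- A part of the boxes. -/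
def part16_30 : Tree :=
  .cut₁ (.out) (.box 1003006 0)

theorem part16_30_ok : part16_30.check data16 917504 983040 851968 917504 = true := by
  decide +kernel

/-- A part of the boxes. -/
def part16_31 : Tree :=
  .box 1003006 0

theorem part16_31_ok : part16_31.check data16 983040 1048576 786432 917504 = true := by
  decide +kernel

/-- A part of the boxes. -/
def part16_32 : Tree :=
  .cut₁ (.out) (.box 969526 0)

theorem part16_32_ok : part16_32.check data16 917504 1048576 917504 1048576 = true := by
  decide +kernel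

/-- All the cuts in dimension 16. -/
def tree16 : Tree :=
  (Tree.cut₁ part16_0 (Tree.cut₂ (Tree.cut₁ part16_1 (Tree.cut₂ part16_2 (Tree.cut₁ part16_3
  (Tree.cut₂ part16_4 (Tree.cut₁ part16_5 (Tree.cut₂ part16_6 (Tree.cut₁ part16_7 (Tree.cut₂
  part16_8 part16_9)))))))) (Tree.cut₁ part16_10 (Tree.cut₂ (Tree.cut₁ part16_11 (Tree.cut₂
  (Tree.cut₁ part16_12 (Tree.cut₂ (Tree.cut₁ part16_13 (Tree.cut₂ part16_14 part16_15))
  part16_16)) (Tree.cut₁ (Tree.cut₂ part16_17 (Tree.cut₁ part16_18 part16_19)) part16_20)))
  (Tree.cut₁ part16_21 (Tree.cut₂ (Tree.cut₁ (Tree.cut₂ (Tree.cut₁ (Tree.cut₂ (Tree.cut₁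
  (Tree.cut₂ (Tree.cut₁ part16_22 (Tree.cut₂ part16_23 part16_24)) part16_25) (Tree.cut₂
  part16_26 part16_27)) part16_28) part16_29) part16_30) part16_31) part16_32))))))

theorem tree16_ok : tree16.check data16 0 unit 0 unit = true :=
    (check_cut₁ (c := 524288) (by norm_num [unit]) part16_0_ok (check_cut₂ (c := 524288) (by
    norm_num [unit]) (check_cut₁ (c := 786432) (by norm_num [unit]) part16_1_ok (check_cut₂ (c
    := 262144) (by norm_num [unit]) part16_2_ok (check_cut₁ (c := 917504) (by norm_num [unit])
    part16_3_ok (check_cut₂ (c := 393216) (by norm_num [unit]) part16_4_ok (check_cut₁ (c := 983040)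
    (by norm_num [unit]) part16_5_ok (check_cut₂ (c := 458752) (by norm_num [unit]) part16_6_ok
    (check_cut₁ (c := 1015808) (by norm_num [unit]) part16_7_ok (check_cut₂ (c := 491520) (by
    norm_num [unit]) part16_8_ok part16_9_ok)))))))) (check_cut₁ (c := 786432) (by norm_num
    [unit]) part16_10_ok (check_cut₂ (c := 786432) (by norm_num [unit]) (check_cut₁ (c := 917504)
    (by norm_num [unit]) part16_11_ok (check_cut₂ (c := 655360) (by norm_num [unit]) (check_cut₁
    (c := 983040) (by norm_num [unit]) part16_12_ok (check_cut₂ (c := 589824) (by norm_num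
    [unit]) (check_cut₁ (c := 1015808) (by norm_num [unit]) part16_13_ok (check_cut₂ (c := 557056)
    (by norm_num [unit]) part16_14_ok part16_15_ok)) part16_16_ok)) (check_cut₁ (c := 983040)
    (by norm_num [unit]) (check_cut₂ (c := 720896) (by norm_num [unit]) part16_17_ok (check_cut₁
    (c := 950272) (by norm_num [unit]) part16_18_ok part16_19_ok)) part16_20_ok))) (check_cut₁
    (c := 917504) (by norm_num [unit]) part16_21_ok (check_cut₂ (c := 917504) (by norm_num
    [unit]) (check_cut₁ (c := 983040) (by norm_num [unit]) (check_cut₂ (c := 851968) (by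
    norm_num [unit]) (check_cut₁ (c := 950272) (by norm_num [unit]) (check_cut₂ (c := 819200)
    (by norm_num [unit]) (check_cut₁ (c := 933888) (by norm_num [unit]) (check_cut₂ (c := 802816)
    (by norm_num [unit]) (check_cut₁ (c := 925696) (by norm_num [unit]) part16_22_ok (check_cut₂
    (c := 794624) (by norm_num [unit]) part16_23_ok part16_24_ok)) part16_25_ok) (check_cut₂ (c
    := 802816) (by norm_num [unit]) part16_26_ok part16_27_ok)) part16_28_ok) part16_29_ok)
    part16_30_ok) part16_31_ok) part16_32_ok))))))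

end Vale.Agent.P237.Quant.WindowCert
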