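import Vale.Agent.P237.Quant.WindowCheck

/-!
The window certificate of the moment excess in dimension 35. The cuts are checked in parts, so
that no kernel computation grows too large.
-/

namespace Vale.Agent.P237.Quant.WindowCert

/-- The shared data in dimension 35. -/
def data35 : Cert where
  m := 34
  s := 309542
  q := 569459
  c := 1070346
  κ := 358460
  I := 66866
  zone₀ := [
    ⟨0, 1048577⟩, ⟨8598, 1048612⟩, ⟨17197, 1048718⟩, ⟨25795, 1048894⟩, ⟨34394, 1049141⟩,
    ⟨42992, 1049459⟩, ⟨51590, 1049848⟩, ⟨60189, 1050308⟩, ⟨68787, 1050840⟩, ⟨77386, 1051444⟩,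
    ⟨85984, 1052120⟩, ⟨94582, 1052868⟩, ⟨103181, 1053690⟩, ⟨111779, 1054586⟩, ⟨120377, 1055555⟩,
    ⟨128976, 1056600⟩, ⟨137574, 1057720⟩, ⟨146173, 1058916⟩, ⟨154771, 1060189⟩, ⟨163369, 1061539⟩,
    ⟨171968, 1062969⟩, ⟨180566, 1064478⟩, ⟨189165, 1066067⟩, ⟨197763, 1067738⟩, ⟨206361, 1069492⟩,
    ⟨214960, 1071330⟩, ⟨223558, 1073252⟩, ⟨232156, 1075261⟩, ⟨240755, 1077359⟩, ⟨249353, 1079545⟩,
    ⟨257952, 1081822⟩, ⟨266550, 1084191⟩, ⟨275148, 1086654⟩, ⟨283747, 1089214⟩, ⟨292345, 1091871⟩,
    ⟨300944, 1094628⟩, ⟨309542, 1097486⟩]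
  zone₁ := [
    ⟨309542, 1097486⟩, ⟨314740, 1099265⟩, ⟨319939, 1101082⟩, ⟨325137, 1102938⟩, ⟨330335, 1104833⟩,
    ⟨335534, 1106769⟩, ⟨340732, 1108746⟩, ⟨345930, 1110763⟩, ⟨351129, 1112823⟩, ⟨356327, 1114925⟩,
    ⟨361525, 1117070⟩, ⟨366724, 1119259⟩, ⟨371922, 1121493⟩, ⟨377120, 1123771⟩, ⟨382319, 1126096⟩,
    ⟨387517, 1128466⟩, ⟨392715, 1130885⟩, ⟨397914, 1133351⟩, ⟨403112, 1135867⟩, ⟨408310, 1138432⟩,
    ⟨413509, 1141048⟩, ⟨418707, 1143715⟩, ⟨423905, 1146435⟩, ⟨429104, 1149209⟩, ⟨434302, 1152036⟩,
    ⟨439500, 1154920⟩, ⟨444699, 1157860⟩, ⟨449897, 1160857⟩, ⟨455096, 1163913⟩, ⟨460294, 1167028⟩,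
    ⟨465492, 1170204⟩, ⟨470691, 1173444⟩, ⟨475889, 1176746⟩, ⟨481087, 1180112⟩, ⟨486286, 1183546⟩,
    ⟨491484, 1187046⟩, ⟨496682, 1190616⟩, ⟨501881, 1194256⟩, ⟨507079, 1197968⟩, ⟨512277, 1201754⟩,
    ⟨517476, 1205615⟩, ⟨522674, 1209553⟩, ⟨527872, 1213570⟩, ⟨533071, 1217668⟩, ⟨538269, 1221847⟩,
    ⟨543467, 1226112⟩, ⟨548666, 1230463⟩, ⟨553864, 1234903⟩, ⟨559062, 1239434⟩, ⟨564261, 1244058⟩,
    ⟨569459, 1248778⟩]
  zone₂ := [
    ⟨569459, 1248778⟩, ⟨588751, 1267173⟩, ⟨607777, 1286777⟩, ⟨626532, 1307675⟩, ⟨645014, 1329967⟩,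
    ⟨663218, 1353761⟩, ⟨681140, 1379182⟩, ⟨698775, 1406369⟩, ⟨716119, 1435481⟩, ⟨733166, 1466695⟩,
    ⟨749911, 1500217⟩, ⟨766349, 1536283⟩, ⟨782473, 1575162⟩, ⟨798279, 1617170⟩, ⟨813758, 1662668⟩,
    ⟨828905, 1712087⟩, ⟨843711, 1765926⟩, ⟨858169, 1824787⟩, ⟨872269, 1889379⟩, ⟨886003, 1960571⟩,
    ⟨899361, 2039418⟩, ⟨912332, 2127221⟩, ⟨924903, 2225595⟩, ⟨937062, 2336604⟩, ⟨948794, 2462887⟩,
    ⟨960083, 2607908⟩, ⟨970911, 2776302⟩, ⟨981257, 2974411⟩, ⟨991098, 3211210⟩, ⟨1000406, 3499794⟩,
    ⟨1009150, 3860244⟩, ⟨1017289, 4324809⟩, ⟨1024775, 4949552⟩, ⟨1031545, 5841649⟩,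
    ⟨1037514, 7237966⟩, ⟨1042555, 9798846⟩, ⟨1046447, 16463327⟩]

theorem data35_wf : data35.wf = true := by decide +kernel

theorem data35_const : constOkLarge data35 = true := by decide +kernel

/-- A part of the boxes. -/
def part35_0 : Tree :=
  .cut₂ (.cut₁ (.out) (.out)) (.out)

theorem part35_0_ok : part35_0.check data35 0 524288 0 1048576 = true := by
  decide +kernel

/-- A part of the boxes. -/
def part35_1 : Tree :=
  .cut₁ (.box 1144831 5184445) (.cut₂ (.out) (.cut₁ (.box 1057178 5184445) (.out)))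

theorem part35_1_ok : part35_1.check data35 524288 1048576 0 524288 = true := by
  decide +kernel

/-- A part of the boxes. -/
def part35_2 : Tree :=
  .box 1144831 5184445

theorem part35_2_ok : part35_2.check data35 524288 786432 524288 1048576 = true := by
  decide +kernel

/-- A part of the boxes. -/
def part35_3 : Tree :=
  .box 1057178 5184445

theorem part35_3_ok : part35_3.check data35 786432 917504 524288 786432 = true := by
  decide +kernel

/-- A part of the boxes. -/
def part35_4 : Tree :=
  .cut₁ (.box 1057178 5184445) (.box 1036486 3204163)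

theorem part35_4_ok : part35_4.check data35 917504 1048576 524288 655360 = true := by
  decide +kernel

/-- A part of the boxes. -/
def part35_5 : Tree :=
  .cut₂ (.box 1044390 5184445) (.box 1044390 6408326)

theorem part35_5_ok : part35_5.check data35 917504 983040 655360 786432 = true := by
  decide +kernel

/-- A part of the boxes. -/
def part35_6 : Tree :=
  .cut₂ (.box 1036486 3204163) (.cut₁ (.box 1023698 3204163) (.box 1028583 3204163))

theorem part35_6_ok : part35_6.check data35 983040 1015808 655360 720896 = true := by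
  decide +kernel

/-- A part of the boxes. -/
def part35_7 : Tree :=
  .cut₂ (.box 1023698 3204163) (.cut₁ (.cut₂ (.box 1023698 1980282) (.cut₁ (.box 1023698 3204163)
  (.box 1023698 1223881))) (.cut₂ (.box 1023698 1223881) (.cut₁ (.box 1020679 1223881) (.box 1018813 756400))))

theorem part35_7_ok : part35_7.check data35 1015808 1048576 655360 720896 = true := by
  decide +kernel

/-- A part of the boxes. -/
def part35_8 : Tree :=
  .cut₂ (.cut₁ (.box 1036486 3204163) (.cut₂ (.box 1028583 1223881) (.box 1030449 1113524)))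
  (.cut₁ (.box 1036486 3204163) (.cut₂ (.box 1030889 1045320) (.cut₁ (.box 1031602 1980282)
  (.box 1023698 1223881))))

theorem part35_8_ok : part35_8.check data35 983040 1015808 720896 786432 = true := by
  decide +kernel

/-- A part of the boxes. -/
def part35_9 : Tree :=
  .cut₁ (.cut₂ (.cut₁ (.box 1023698 1223881) (.box 1023698 756400)) (.cut₁ (.box 1023698 1223881)
  (.box 1023698 756400))) (.cut₂ (.cut₁ (.box 1023698 756400) (.box 1018813 467481)) (.box 1021832 399277))

theorem part35_9_ok : part35_9.check data35 1015808 1048576 720896 753664 = true := by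
  decide +kernel

/-- A part of the boxes. -/
def part35_10 : Tree :=
  .cut₁ (.cut₂ (.cut₁ (.box 1023698 756400) (.box 1023698 756400)) (.box 1026717 646043))
  (.box 1023698 288919)

theorem part35_10_ok : part35_10.check data35 1015808 1048576 753664 786432 = true := by
  decide +kernel

/-- A part of the boxes. -/
def part35_11 : Tree :=
  .box 1090659 3204163

theorem part35_11_ok : part35_11.check data35 786432 917504 786432 1048576 = true := by
  decide +kernel

/-- A part of the boxes. -/
def part35_12 : Tree :=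
  .cut₂ (.box 1049275 5184445) (.cut₁ (.box 1057178 3204163) (.box 1049275 3204163))

theorem part35_12_ok : part35_12.check data35 917504 983040 786432 917504 = true := by
  decide +kernel

/-- A part of the boxes. -/
def part35_13 : Tree :=
  .cut₂ (.cut₁ (.box 1036486 1980282) (.cut₂ (.cut₁ (.box 1036486 1223881) (.box 1028583 1223881))
  (.cut₁ (.box 1036486 1223881) (.box 1028583 756400)))) (.cut₁ (.box 1036486 1980282) (.cut₂
  (.box 1031602 756400) (.box 1031602 756400)))

theorem part35_13_ok : part35_13.check data35 983040 1015808 786432 851968 = true := by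
  decide +kernel

/-- A part of the boxes. -/
def part35_14 : Tree :=
  .cut₂ (.cut₁ (.box 1026717 577838) (.box 1023698 288919)) (.cut₁ (.box 1028583 467481) (.box 1023698 0))

theorem part35_14_ok : part35_14.check data35 1015808 1048576 786432 851968 = true := by
  decide +kernel

/-- A part of the boxes. -/
def part35_15 : Tree :=
  .cut₁ (.cut₂ (.cut₁ (.box 1036486 1223881) (.box 1031602 756400)) (.cut₁ (.box 1039505 1223881)
  (.box 1031602 756400))) (.cut₂ (.cut₁ (.box 1023698 467481) (.box 1023698 0)) (.box 1023698 178562))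

theorem part35_15_ok : part35_15.check data35 983040 1048576 851968 917504 = true := by
  decide +kernel

/-- A part of the boxes. -/
def part35_16 : Tree :=
  .cut₂ (.cut₁ (.out) (.cut₂ (.cut₁ (.out) (.cut₂ (.cut₁ (.out) (.box 1049275 1980282))
  (.out))) (.out))) (.out)

theorem part35_16_ok : part35_16.check data35 917504 983040 917504 1048576 = true := by
  decide +kernel

/-- A part of the boxes. -/
def part35_17 : Tree :=
  .cut₁ (.cut₂ (.box 1044390 1223881) (.cut₁ (.cut₂ (.box 1044390 1223881) (.box 1044390 756400))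
  (.box 1036486 756400))) (.box 1036486 756400)

theorem part35_17_ok : part35_17.check data35 983040 999424 917504 933888 = true := by
  decide +kernel

/-- A part of the boxes. -/
def part35_18 : Tree :=
  .cut₂ (.cut₁ (.box 1044390 467481) (.cut₂ (.box 1041371 577838) (.box 1041371 467481)))
  (.box 1044390 288919)

theorem part35_18_ok : part35_18.check data35 983040 991232 933888 950272 = true := by
  decide +kernel

/-- A part of the boxes. -/
def part35_19 : Tree :=
  .cut₂ (.cut₁ (.cut₂ (.box 1036486 756400) (.box 1036486 467481)) (.box 1036486 756400))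
  (.cut₁ (.box 1039505 288919) (.box 1034621 0))

theorem part35_19_ok : part35_19.check data35 991232 999424 933888 950272 = true := by
  decide +kernel

/-- A part of the boxes. -/
def part35_20 : Tree :=
  .cut₂ (.box 1036486 467481) (.box 1031602 467481)

theorem part35_20_ok : part35_20.check data35 999424 1015808 917504 950272 = true := by
  decide +kernel

/-- A part of the boxes. -/
def part35_21 : Tree :=
  .cut₁ (.cut₂ (.cut₁ (.out) (.box 1036486 0)) (.out)) (.box 1031602 0)

theorem part35_21_ok : part35_21.check data35 983040 1015808 950272 983040 = true := by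
  decide +kernel

/-- A part of the boxes. -/
def part35_22 : Tree :=
  .box 1023698 0

theorem part35_22_ok : part35_22.check data35 1015808 1048576 917504 983040 = true := by
  decide +kernel

/-- A part of the boxes. -/
def part35_23 : Tree :=
  .cut₁ (.box 1036486 0) (.cut₂ (.box 1023698 0) (.box 1023698 0))

theorem part35_23_ok : part35_23.check data35 983040 1048576 983040 1048576 = true := by
  decide +kernel

/-- All the cuts in dimension 35. -/
def tree35 : Tree :=
  (Tree.cut₁ part35_0 (Tree.cut₂ part35_1 (Tree.cut₁ part35_2 (Tree.cut₂ (Tree.cut₁ part35_3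
  (Tree.cut₂ part35_4 (Tree.cut₁ part35_5 (Tree.cut₂ (Tree.cut₁ part35_6 part35_7) (Tree.cut₁
  part35_8 (Tree.cut₂ part35_9 part35_10)))))) (Tree.cut₁ part35_11 (Tree.cut₂ (Tree.cut₁
  part35_12 (Tree.cut₂ (Tree.cut₁ part35_13 part35_14) part35_15)) (Tree.cut₁ part35_16
  (Tree.cut₂ (Tree.cut₁ (Tree.cut₂ (Tree.cut₁ (Tree.cut₂ part35_17 (Tree.cut₁ part35_18
  part35_19)) part35_20) part35_21) part35_22) part35_23))))))))

theorem tree35_ok : tree35.check data35 0 unit 0 unit = true :=
    (check_cut₁ (c := 524288) (by norm_num [unit]) part35_0_ok (check_cut₂ (c := 524288) (by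
    norm_num [unit]) part35_1_ok (check_cut₁ (c := 786432) (by norm_num [unit]) part35_2_ok
    (check_cut₂ (c := 786432) (by norm_num [unit]) (check_cut₁ (c := 917504) (by norm_num
    [unit]) part35_3_ok (check_cut₂ (c := 655360) (by norm_num [unit]) part35_4_ok (check_cut₁
    (c := 983040) (by norm_num [unit]) part35_5_ok (check_cut₂ (c := 720896) (by norm_num
    [unit]) (check_cut₁ (c := 1015808) (by norm_num [unit]) part35_6_ok part35_7_ok) (check_cut₁
    (c := 1015808) (by norm_num [unit]) part35_8_ok (check_cut₂ (c := 753664) (by norm_num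
    [unit]) part35_9_ok part35_10_ok)))))) (check_cut₁ (c := 917504) (by norm_num [unit])
    part35_11_ok (check_cut₂ (c := 917504) (by norm_num [unit]) (check_cut₁ (c := 983040) (by
    norm_num [unit]) part35_12_ok (check_cut₂ (c := 851968) (by norm_num [unit]) (check_cut₁ (c
    := 1015808) (by norm_num [unit]) part35_13_ok part35_14_ok) part35_15_ok)) (check_cut₁ (c := 983040)
    (by norm_num [unit]) part35_16_ok (check_cut₂ (c := 983040) (by norm_num [unit]) (check_cut₁
    (c := 1015808) (by norm_num [unit]) (check_cut₂ (c := 950272) (by norm_num [unit])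
    (check_cut₁ (c := 999424) (by norm_num [unit]) (check_cut₂ (c := 933888) (by norm_num
    [unit]) part35_17_ok (check_cut₁ (c := 991232) (by norm_num [unit]) part35_18_ok
    part35_19_ok)) part35_20_ok) part35_21_ok) part35_22_ok) part35_23_ok))))))))

end Vale.Agent.P237.Quant.WindowCert
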